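import Vale.Agent.P232.Gap.Limit.End

/-!
# P232 gap: the limit data

Along a subsequence the areas at the planes `τ k` and `1 - τ k` converge for a fixed sequence of
distances `τ k → 0`; their limits as `k → ∞` are the end areas.
-/

open MeasureTheory Set Filter
open scoped NNReal Real Topology

noncomputable section

namespace Vale.Agent.P232.Gap

/-- The fixed distances from the ends. -/
def endDist (k : ℕ) : ℝ := 1 / ((k : ℝ) + 500)

theorem endDist_pos (k : ℕ) : 0 < endDist k := by unfold endDist; positivity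

theorem endDist_lt (k : ℕ) : endDist k < 1 / 400 := by
  unfold endDist
  rw [div_lt_div_iff₀ (by positivity) (by norm_num)]
  linarith [Nat.cast_nonneg (α := ℝ) k]

theorem endDist_mem (k : ℕ) : endDist k ∈ Ioo (0 : ℝ) 1 :=
  ⟨endDist_pos k, (endDist_lt k).trans (by norm_num)⟩

theorem tendsto_endDist : Tendsto endDist atTop (𝓝 0) := by
  unfold endDist
  exact tendsto_const_nhds.div_atTop
    (tendsto_atTop_add_const_right _ _ tendsto_natCast_atTop_atTop)

theorem antitone_endDist : Antitone endDist := fun a b h => by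
  unfold endDist
  exact one_div_le_one_div_of_le (by positivity) (by linarith [Nat.cast_le (α := ℝ).2 h])

theorem lmin_sub_nonneg {V H a : ℝ} (hV : 1 / 4 ≤ V) (hV' : V ≤ 1 / 2) (hH : IsSlope V H)
    (ha : 0 ≤ a) (haV : a ≤ V) : 0 ≤ lmin a - H * a := by
  have hπ := Real.pi_pos
  have hV0 : 0 < V := by linarith
  have hlow : ∀ x : ℝ, x ≤ Real.sqrt (π * a) → x ≤ 1 → 0 ≤ lmin a - x := by
    intro x h1 h2
    refine sub_nonneg.2 (le_min (le_min h1 h2) (h2.trans (Real.le_sqrt_of_sq_le ?_)))
    nlinarith [Real.pi_gt_three]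
  rcases hH with ⟨hVk, rfl⟩ | ⟨-, rfl⟩ | ⟨hVk, hH0, hH1⟩
  · have hπV : π * V < 1 := by rw [lt_div_iff₀ hπ] at hVk; linarith
    have hsV := Real.sqrt_pos.2 hV0
    have hsa := Real.sqrt_nonneg a
    have hle : Real.sqrt a ≤ Real.sqrt V := Real.sqrt_le_sqrt haV
    have hx : Real.sqrt π / (2 * Real.sqrt V) * a ≤ Real.sqrt (π * a) / 2 := by
      rw [Real.sqrt_mul hπ.le, div_mul_eq_mul_div, div_le_div_iff₀ (by positivity) two_pos]
      have h := mul_le_mul_of_nonneg_left hle (mul_nonneg (Real.sqrt_nonneg π) hsa)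
      rw [mul_assoc _ _ (Real.sqrt a), Real.mul_self_sqrt ha] at h
      linarith
    refine hlow _ (hx.trans (half_le_self (Real.sqrt_nonneg _))) (hx.trans ?_)
    have h2 : Real.sqrt (π * a) ≤ 1 := Real.sqrt_le_one.2 (by nlinarith)
    linarith
  · rw [zero_mul, sub_zero]; exact lmin_nonneg a
  · rw [hVk, le_div_iff₀ hπ] at haV
    have h1 : H * a ≤ π / 2 * a := mul_le_mul_of_nonneg_right hH1 ha
    refine hlow _ ?_ (by nlinarith)
    refine h1.trans (Real.le_sqrt_of_sq_le ?_)
    nlinarith [mul_nonneg hπ.le ha]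

/-- The limit data, with the subsequence. -/
theorem limit_data (hB : SliceBoundSpec) {V H p : ℝ} {C : Fin 3 → ℝ} {w : ℕ → R3 → ℝ}
    (hV : 1 / 4 ≤ V) (hV' : V ≤ 1 / 2) (hH : IsSlope V H) (hw : MinSeq V p w)
    (hF : FirstIntegral V H p C w) :
    ∃ (s : ℕ → ℕ) (G : GapData V H p), StrictMono s ∧ G.C = C ∧
      ∀ d, ∀ η : ℝ, 0 < η → ∀ᶠ n in atTop, areaAt (w (s n)) d 1 ≤ G.α d + η := by
  -- the subsequence
  set x : ℕ → ℕ → Fin 3 → ℝ × ℝ := fun n k d =>
    (areaAt (w n) d (1 - endDist k), areaAt (w n) d (endDist k)) with hx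
  have hxK : ∀ n, x n ∈ (univ : Set ℕ).pi fun _ => (univ : Set (Fin 3)).pi
      fun _ => Icc (0 : ℝ) 1 ×ˢ Icc (0 : ℝ) 1 :=
    fun n k _ d _ => ⟨areaAt_mem (hw.adm n) d _, areaAt_mem (hw.adm n) d _⟩
  obtain ⟨L, hL, s, hs, hlim⟩ := ((isCompact_univ_pi fun _ : ℕ => isCompact_univ_pi
    fun _ : Fin 3 => isCompact_Icc.prod isCompact_Icc)).tendsto_subseq hxK
  have hsA := hs.tendsto_atTop
  have hla : ∀ k d, Tendsto (fun n => areaAt (w (s n)) d (1 - endDist k)) atTop (𝓝 (L k d).1) :=
    fun k d => (tendsto_pi_nhds.1 (tendsto_pi_nhds.1 hlim k) d).fst_nhds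
  have hlb : ∀ k d, Tendsto (fun n => areaAt (w (s n)) d (endDist k)) atTop (𝓝 (L k d).2) :=
    fun k d => (tendsto_pi_nhds.1 (tendsto_pi_nhds.1 hlim k) d).snd_nhds
  have hA01 : ∀ k d, (L k d).1 ∈ Icc (0 : ℝ) 1 := fun k d => (hL k (mem_univ _) d (mem_univ _)).1
  have hB01 : ∀ k d, (L k d).2 ∈ Icc (0 : ℝ) 1 := fun k d => (hL k (mem_univ _) d (mem_univ _)).2
  have hmem : ∀ k, 1 - endDist k ∈ Icc (0 : ℝ) 1 ∧ endDist k ∈ Icc (0 : ℝ) 1 := fun k => by
    have := endDist_mem k
    exact ⟨⟨by linarith [this.2], by linarith [this.1]⟩, Ioo_subset_Icc_self this⟩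
  have hma : ∀ d, Antitone fun k => (L k d).1 := fun d k l hkl =>
    le_of_tendsto_of_tendsto' (hla l d) (hla k d) fun n => (hw.adm _).antitone_areaAt d
      (hmem k).1 (hmem l).1 (by linarith [antitone_endDist hkl])
  have hmb : ∀ d, Monotone fun k => (L k d).2 := fun d k l hkl =>
    le_of_tendsto_of_tendsto' (hlb k d) (hlb l d) fun n => (hw.adm _).antitone_areaAt d
      (hmem l).2 (hmem k).2 (antitone_endDist hkl)
  set α : Fin 3 → ℝ := fun d => ⨅ k, (L k d).1 with hαdef
  set β : Fin 3 → ℝ := fun d => ⨆ k, (L k d).2 with hβdef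
  have hba : ∀ d, BddBelow (range fun k => (L k d).1) :=
    fun d => ⟨0, by rintro _ ⟨k, rfl⟩; exact (hA01 k d).1⟩
  have hbb : ∀ d, BddAbove (range fun k => (L k d).2) :=
    fun d => ⟨1, by rintro _ ⟨k, rfl⟩; exact (hB01 k d).2⟩
  have hαlim : ∀ d, Tendsto (fun k => (L k d).1) atTop (𝓝 (α d)) := fun d =>
    tendsto_atTop_ciInf (hma d) (hba d)
  have hβlim : ∀ d, Tendsto (fun k => (L k d).2) atTop (𝓝 (β d)) := fun d =>
    tendsto_atTop_ciSup (hmb d) (hbb d)
  have hαle : ∀ d k, α d ≤ (L k d).1 := fun d k => ciInf_le (hba d) k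
  have hleβ : ∀ d k, (L k d).2 ≤ β d := fun d k => le_ciSup (hbb d) k
  -- sequences
  have hvol : Tendsto (fun n => vol (w (s n))) atTop (𝓝 V) := hw.vol_tendsto.comp hsA
  have hdef : Tendsto (fun n => defect (w (s n))) atTop (𝓝 0) := hw.defect_tendsto.comp hsA
  have hen : Tendsto (fun n => energy (w (s n))) atTop (𝓝 p) := hw.energy_tendsto.comp hsA
  have hstr : ∀ d, Tendsto (fun n => ∫ t in (0 : ℝ)..1,
      |stressAt (w (s n)) d t - (H * areaAt (w (s n)) d t + C d)|) atTop (𝓝 0) :=
    fun d => (hF.stress d).comp hsA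
  have herr : ∀ d, Tendsto (fun n => ∫ t in (0 : ℝ)..1,
      max 0 (lmin (areaAt (w (s n)) d t) - perpAt (w (s n)) d t)) atTop (𝓝 0) := fun d => by
    refine Metric.tendsto_nhds.2 fun η hη => ?_
    obtain ⟨κ, hκ, hκ'⟩ := hB (η / 2) (half_pos hη)
    filter_upwards [hdef.eventually (eventually_le_nhds hκ)] with n hn
    rw [Real.dist_eq, sub_zero, abs_of_nonneg
      (intervalIntegral.integral_nonneg zero_le_one fun t _ => le_max_left _ _)]
    linarith [hκ' _ (hw.adm _) hn d]
  -- volumes
  have hαV : ∀ d, α d ≤ V := fun d => by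
    have hlim' : Tendsto (fun k => (1 - endDist k) * (L k d).1) atTop (𝓝 (α d)) := by
      simpa using (tendsto_endDist.const_sub (1 : ℝ)).mul (hαlim d)
    refine le_of_tendsto' hlim' fun k => le_of_tendsto_of_tendsto'
      ((hla k d).const_mul (1 - endDist k)) hvol fun n => ?_
    have hi := fun p q : ℝ =>
      ((hw.adm (s n)).lipschitz_areaAt d).continuous.intervalIntegrable (μ := volume) p q
    rw [← (hw.adm (s n)).vol_eq d, ← intervalIntegral.integral_add_adjacent_intervals
      (hi 0 (1 - endDist k)) (hi (1 - endDist k) 1)]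
    have h1 : (1 - endDist k) * areaAt (w (s n)) d (1 - endDist k) ≤
        ∫ t in (0 : ℝ)..(1 - endDist k), areaAt (w (s n)) d t := by
      refine le_of_eq_of_le ?_ (intervalIntegral.integral_mono_on (hmem k).1.1
        intervalIntegrable_const (hi _ _) fun t ht => (hw.adm _).antitone_areaAt d
          ⟨ht.1, ht.2.trans (hmem k).1.2⟩ (hmem k).1 ht.2)
      simp
    have h2 : 0 ≤ ∫ t in (1 - endDist k)..1, areaAt (w (s n)) d t :=
      intervalIntegral.integral_nonneg (hmem k).1.2 fun t _ => (areaAt_mem (hw.adm _) d t).1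
    linarith
  have hVβ : ∀ d, V ≤ β d := fun d => by
    have hlim' : Tendsto (fun k => endDist k + (L k d).2) atTop (𝓝 (β d)) := by
      simpa using tendsto_endDist.add (hβlim d)
    refine ge_of_tendsto' hlim' fun k => le_of_tendsto_of_tendsto' hvol
      ((hlb k d).const_add (endDist k)) fun n => ?_
    have hi := fun p q : ℝ =>
      ((hw.adm (s n)).lipschitz_areaAt d).continuous.intervalIntegrable (μ := volume) p q
    rw [← (hw.adm (s n)).vol_eq d, ← intervalIntegral.integral_add_adjacent_intervals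
      (hi 0 (endDist k)) (hi (endDist k) 1)]
    have h1 : ∫ t in (0 : ℝ)..endDist k, areaAt (w (s n)) d t ≤ endDist k := by
      refine le_of_le_of_eq (intervalIntegral.integral_mono_on (hmem k).2.1 (hi _ _)
        intervalIntegrable_const fun t _ => (areaAt_mem (hw.adm _) d t).2) ?_
      simp
    have h2 : ∫ t in endDist k..1, areaAt (w (s n)) d t ≤
        (1 - endDist k) * areaAt (w (s n)) d (endDist k) := by
      refine le_of_le_of_eq (intervalIntegral.integral_mono_on (hmem k).2.2 (hi _ _)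
        intervalIntegrable_const fun t ht => (hw.adm _).antitone_areaAt d (hmem k).2
          ⟨(hmem k).2.1.trans ht.1, ht.2⟩ ht.1) ?_
      simp
    have h3 : (1 - endDist k) * areaAt (w (s n)) d (endDist k) ≤ areaAt (w (s n)) d (endDist k) :=
      mul_le_of_le_one_left (areaAt_mem (hw.adm _) d _).1 (by linarith [endDist_pos k])
    linarith
  -- calibration
  have hcalib : ∀ d, H * V + C d + (∫ a in α d..β d, sd H (C d) a) ≤ p := fun d => by
    have hG : Continuous fun x => ∫ a in (0 : ℝ)..x, sd H (C d) a :=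
      intervalIntegral.continuous_primitive (intervalIntegrable_sd H (C d)) 0
    have hsplit : ∀ {u v : ℕ → ℝ} {a b : ℝ}, Tendsto u atTop (𝓝 a) → Tendsto v atTop (𝓝 b) →
        Tendsto (fun n => ∫ x in u n..v n, sd H (C d) x) atTop
          (𝓝 (∫ x in a..b, sd H (C d) x)) := fun {u v a b} hu hv => by
      have e : ∀ a b : ℝ, ∫ x in a..b, sd H (C d) x =
          (∫ x in (0 : ℝ)..b, sd H (C d) x) - ∫ x in (0 : ℝ)..a, sd H (C d) x := fun a b =>
        (intervalIntegral.integral_interval_sub_left (intervalIntegrable_sd _ _ _ _)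
          (intervalIntegrable_sd _ _ _ _)).symm
      rw [e a b]
      exact (((hG.tendsto _).comp hv).sub ((hG.tendsto _).comp hu)).congr fun n => (e _ _).symm
    have hk : ∀ k, H * V + C d + (∫ a in (L k d).1..(L k d).2, sd H (C d) a) ≤ p := fun k => by
      have hl : Tendsto (fun n => H * vol (w (s n)) + C d +
          ∫ a in areaAt (w (s n)) d (1 - endDist k)..areaAt (w (s n)) d (endDist k), sd H (C d) a)
          atTop (𝓝 (H * V + C d + ∫ a in (L k d).1..(L k d).2, sd H (C d) a)) := by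
        exact ((hvol.const_mul H).add_const (C d)).add (hsplit (hla k d) (hlb k d))
      have hr : Tendsto (fun n => energy (w (s n)) + (∫ t in (0 : ℝ)..1,
          max 0 (lmin (areaAt (w (s n)) d t) - perpAt (w (s n)) d t)) + ∫ t in (0 : ℝ)..1,
          |stressAt (w (s n)) d t - (H * areaAt (w (s n)) d t + C d)|) atTop (𝓝 p) := by
        simpa using (hen.add (herr d)).add (hstr d)
      refine le_of_tendsto_of_tendsto' hl hr fun n => (hw.adm (s n)).calib d (endDist_pos k).le ?_
        (hmem k).1.2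
      linarith [endDist_lt k]
    exact le_of_tendsto'
      ((tendsto_const_nhds (x := H * V + C d) (f := atTop)).add (hsplit (hαlim d) (hβlim d))) hk
  -- ends
  have hsmall : ∀ d (t₁ : ℝ), 0 < t₁ → ∀ᶠ n in atTop,
      (∫ t in (0 : ℝ)..1, max 0 (lmin (areaAt (w (s n)) d t) - perpAt (w (s n)) d t)) +
        (∫ t in (0 : ℝ)..1, |stressAt (w (s n)) d t - (H * areaAt (w (s n)) d t + C d)|) ≤
          2 * t₁ ∧ energy (w (s n)) ≤ p + 1 := fun d t₁ ht₁ => by
    refine Eventually.and ?_ (hen.eventually (eventually_le_nhds (by linarith)))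
    have := (herr d).add (hstr d)
    rw [add_zero] at this
    exact this.eventually (eventually_le_nhds (by linarith))
  have hzsmall : ∀ (κ κ' t₁ : ℝ), 0 < t₁ → ∀ᶠ n in atTop,
      (p + 1 + κ) * (defect (w (s n)) / κ') / t₁ ^ 2 ≤ 1 := fun κ κ' t₁ _ => by
    have : Tendsto (fun n => (p + 1 + κ) * (defect (w (s n)) / κ') / t₁ ^ 2) atTop (𝓝 0) := by
      simpa using ((hdef.div_const κ').const_mul (p + 1 + κ)).div_const (t₁ ^ 2)
    exact this.eventually (eventually_le_nhds zero_lt_one)
  have hfin : ∀ d (κ t₁ t₂ : ℝ), 0 ≤ κ → κ ≤ 1 → 0 < t₁ → t₁ ≤ t₂ → ∀ (E X Z : ℝ),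
      0 ≤ Z → E ≤ p + 1 → (p + 1 + κ) * Z / t₁ ^ 2 ≤ 1 →
      X ≤ E / t₂ + ((κ + |H| + |C d| + 2) * t₁ + 3 * t₁) / t₁ + (E + κ) * Z / t₁ ^ 2 →
      X ≤ (p + 1) / t₂ + (|H| + |C d| + 10) := fun d κ t₁ t₂ _ hκ1 ht₁ h12 E X Z hZ hE hz hX => by
    have e1 : E / t₂ ≤ (p + 1) / t₂ := div_le_div_of_nonneg_right hE (ht₁.le.trans h12)
    have e2 : ((κ + |H| + |C d| + 2) * t₁ + 3 * t₁) / t₁ = κ + |H| + |C d| + 5 := by
      field_simp; ring
    have e3 : (E + κ) * Z / t₁ ^ 2 ≤ (p + 1 + κ) * Z / t₁ ^ 2 :=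
      div_le_div_of_nonneg_right (mul_le_mul_of_nonneg_right (by linarith) hZ) (sq_nonneg _)
    linarith
  have hendα : ∀ d, lmin (α d) - H * α d ≤ C d := fun d => by
    refine end_condition (P := p + 1) (A := fun n t => areaAt (w (s n)) d (1 - t))
      (fun n t => areaAt_mem (hw.adm _) d _) (fun η hη => ?_) fun κ t₁ t₂ hκ hκ1 ht₁ h12 ht₂ => ?_
    · obtain ⟨m, hm⟩ := ((hαlim d).eventually
        (eventually_lt_nhds (show α d < α d + η by linarith))).exists
      refine ⟨endDist m, endDist_pos m, endDist_lt m, fun t₁ ht₁ ht₁' => ?_⟩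
      obtain ⟨l, hl⟩ := (tendsto_endDist.eventually (eventually_le_nhds ht₁)).exists
      filter_upwards [(hla m d).eventually (eventually_le_nhds hm),
        (hla l d).eventually (eventually_ge_nhds (show α d - η < (L l d).1 by linarith [hαle d l]))]
        with n h1 h2 t ht
      have htI : 1 - t ∈ Icc (0 : ℝ) 1 :=
        ⟨by linarith [ht.2, endDist_lt m], by linarith [ht.1]⟩
      have h3 := (hw.adm (s n)).antitone_areaAt d (hmem m).1 htI (by linarith [ht.2])
      have h4 := (hw.adm (s n)).antitone_areaAt d htI (hmem l).1 (by linarith [ht.1])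
      exact abs_le.2 ⟨by linarith, by linarith⟩
    · obtain ⟨κ', hκ', hstop⟩ := hF.stop_hi d t₁ ht₁
      filter_upwards [hsA.eventually hstop, hsmall d t₁ ht₁, hzsmall κ κ' t₁ ht₁]
        with n hn ⟨he, hE⟩ hz hnear
      have hadm := hw.adm (s n)
      have hzi : IntervalIntegrable (fun τ => defectAt (w (s n)) d (1 - τ) / κ') volume 0 1 := by
        simpa using ((intervalIntegrable_defectAt hadm d).comp_sub_left 1).symm.div_const κ'
      have hzint : ∫ τ in (0 : ℝ)..1, defectAt (w (s n)) d (1 - τ) / κ' = defect (w (s n)) / κ' := by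
        rw [intervalIntegral.integral_div, intervalIntegral.integral_comp_sub_left (defectAt (w (s n)) d),
          sub_self, sub_zero, integral_defectAt hadm d]
      have hg := (hadm.sliceData d).growth₁ (H := H) (C := C d) (G := 2) (e := t₁) two_pos.le hκ ht₁
        h12 (ht₂.le.trans (by norm_num)) hzi
        (fun t => div_nonneg (defectAt_nonneg hadm d _) hκ'.le) he (by
          filter_upwards [(ae_restrict_iff' measurableSet_Ioo).1 hn] with τ hτ hτI
          have hτ1 : τ < 1 / 400 := hτI.2.trans ht₂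
          have hτ0 : 0 < τ := ht₁.trans hτI.1
          by_cases hguard : τ * defectAt (w (s n)) d (1 - τ) ≤ κ'
          · exact Or.inl (hτ ⟨hτ0, hτ1⟩ hguard)
          · right
            rw [one_le_div hκ']
            refine (not_le.1 hguard).le.trans (mul_le_of_le_one_left (defectAt_nonneg hadm d _) ?_)
            linarith) hnear
      rw [hzint] at hg
      refine hfin d κ t₁ t₂ hκ hκ1 ht₁ h12 _ _ _ (div_nonneg ?_ hκ'.le) hE hz ?_
      · rw [← integral_defectAt hadm d]
        exact intervalIntegral.integral_nonneg zero_le_one fun t _ => defectAt_nonneg hadm d t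
      · rwa [show (hadm.sliceData d).S = energyAt (w (s n)) d from rfl, hadm.energy_eq d] at hg
  have hendβ : ∀ d, lmin (β d) - H * β d ≤ C d := fun d => by
    refine end_condition (P := p + 1) (A := fun n t => areaAt (w (s n)) d t)
      (fun n t => areaAt_mem (hw.adm _) d _) (fun η hη => ?_) fun κ t₁ t₂ hκ hκ1 ht₁ h12 ht₂ => ?_
    · obtain ⟨m, hm⟩ := ((hβlim d).eventually
        (eventually_gt_nhds (show β d - η < β d by linarith))).exists
      refine ⟨endDist m, endDist_pos m, endDist_lt m, fun t₁ ht₁ ht₁' => ?_⟩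
      obtain ⟨l, hl⟩ := (tendsto_endDist.eventually (eventually_le_nhds ht₁)).exists
      filter_upwards [(hlb m d).eventually (eventually_ge_nhds hm),
        (hlb l d).eventually (eventually_le_nhds (show (L l d).2 < β d + η by linarith [hleβ d l]))]
        with n h1 h2 t ht
      have htI : t ∈ Icc (0 : ℝ) 1 := ⟨by linarith [ht.1], by linarith [ht.2, (endDist_mem m).2]⟩
      have h3 := (hw.adm (s n)).antitone_areaAt d htI (hmem m).2 ht.2
      have h4 := (hw.adm (s n)).antitone_areaAt d (hmem l).2 htI (hl.trans ht.1)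
      exact abs_le.2 ⟨by linarith, by linarith⟩
    · obtain ⟨κ', hκ', hstop⟩ := hF.stop_lo d t₁ ht₁
      filter_upwards [hsA.eventually hstop, hsmall d t₁ ht₁, hzsmall κ κ' t₁ ht₁]
        with n hn ⟨he, hE⟩ hz hnear
      have hadm := hw.adm (s n)
      have hg := (hadm.sliceData d).growth₀ (H := H) (C := C d) (G := 2) (e := t₁) two_pos.le hκ ht₁
        h12 (ht₂.le.trans (by norm_num)) ((intervalIntegrable_defectAt hadm d).div_const κ')
        (fun t => div_nonneg (defectAt_nonneg hadm d _) hκ'.le) he (by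
          filter_upwards [(ae_restrict_iff' measurableSet_Ioo).1 hn] with τ hτ hτI
          have hτ1 : τ < 1 / 400 := hτI.2.trans ht₂
          have hτ0 : 0 < τ := ht₁.trans hτI.1
          by_cases hguard : τ * defectAt (w (s n)) d τ ≤ κ'
          · exact Or.inl (hτ ⟨hτ0, hτ1⟩ hguard)
          · right
            rw [one_le_div hκ']
            refine (not_le.1 hguard).le.trans (mul_le_of_le_one_left (defectAt_nonneg hadm d _) ?_)
            linarith) hnear
      rw [intervalIntegral.integral_div, integral_defectAt hadm d] at hg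
      refine hfin d κ t₁ t₂ hκ hκ1 ht₁ h12 _ _ _ (div_nonneg ?_ hκ'.le) hE hz ?_
      · rw [← integral_defectAt hadm d]
        exact intervalIntegral.integral_nonneg zero_le_one fun t _ => defectAt_nonneg hadm d t
      · rwa [show (hadm.sliceData d).S = energyAt (w (s n)) d from rfl, hadm.energy_eq d] at hg
  have hα0 : ∀ d, 0 ≤ α d := fun d => le_ciInf fun k => (hA01 k d).1
  refine ⟨s, ⟨C, α, β, fun d => (lmin_sub_nonneg hV hV' hH (hα0 d) (hαV d)).trans (hendα d), hα0,
    hαV, hVβ, fun d => ciSup_le fun k => (hB01 k d).2, hF.sum_C, hendα, hendβ, hcalib, ?_, ?_⟩, hs,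
    rfl, fun d η hη => ?_⟩
  · have h := Finset.sum_le_sum (s := Finset.univ) fun d _ => hcalib d
    simp only [Finset.sum_add_distrib, Finset.sum_const, Finset.card_univ, Fintype.card_fin,
      nsmul_eq_mul, Nat.cast_ofNat, hF.sum_C] at h
    linarith
  · -- sets
    intro η hη
    have hp0 : 0 ≤ p := ge_of_tendsto' hen fun n =>
      setIntegral_nonneg measurableSet_box fun x _ => gradNorm_nonneg _ x
    set δ := min (1 / 4) (η / (8 * (p + 1))) with hδdef
    have hδ : 0 < δ := lt_min (by norm_num) (by positivity)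
    have hδ4 : δ ≤ 1 / 4 := min_le_left _ _
    have hδp : δ * (8 * (p + 1)) ≤ η := (le_div_iff₀ (by positivity)).1 (min_le_right _ _)
    obtain ⟨m, hm⟩ := (((eventually_all.2 fun d => (hαlim d).eventually
      (eventually_le_nhds (show α d < α d + η / 4 by linarith))).and
      (eventually_all.2 fun d => (hβlim d).eventually
        (eventually_ge_nhds (show β d - η / 4 < β d by linarith))))).exists
    have hτ := endDist_mem m
    obtain ⟨n, ⟨hn1, hn2⟩, hn3, hn4, hn5⟩ := (((eventually_all.2 fun d => (hla m d).eventually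
      (eventually_le_nhds (show (L m d).1 < α d + η / 2 by linarith [hm.1 d]))).and
      (eventually_all.2 fun d => (hlb m d).eventually
        (eventually_ge_nhds (show β d - η / 2 < (L m d).2 by linarith [hm.2 d])))).and
      (((hvol.eventually (Metric.ball_mem_nhds V (show (0 : ℝ) < η / 2 by linarith))).and
        ((hen.eventually (eventually_le_nhds (show p < p + η / 4 by linarith))).and
        (hdef.eventually (eventually_le_nhds
          (show (0 : ℝ) < η * δ * endDist m / 8 from
            div_pos (mul_pos (mul_pos hη hδ) (endDist_pos m)) (by norm_num)))))))).exists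
    have hadm := hw.adm (s n)
    obtain ⟨K, hK⟩ := hadm.lipschitz
    obtain ⟨r, hr, hred⟩ := Rigid.levelSel K (w (s n)) hK hadm.mem hadm.anti δ 0 δ (1 - δ) hδ le_rfl
      (by linarith) le_rfl le_rfl fun _ _ M hM => by
        have := hM.bound (fun _ _ => 0) (fun _ => contDiff_const) (fun _ _ => by simp)
        simpa [divergence, pd, flux] using this
    have hQ : defect (w (s n)) / δ / endDist m ≤ η / 8 := by
      rw [div_le_iff₀ hτ.1, div_le_iff₀ hδ]; linarith
    have hQ0 : 0 ≤ defect (w (s n)) / δ := by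
      refine div_nonneg ?_ hδ.le
      rw [← integral_defectAt hadm 0]
      exact intervalIntegral.integral_nonneg zero_le_one fun t _ => defectAt_nonneg hadm 0 t
    have hQ1 : defect (w (s n)) / δ ≤ η / 8 := le_trans
      (le_div_self hQ0 hτ.1 hτ.2.le) hQ
    refine ⟨_, _, hred, ?_, ?_, fun i j k hij hki hkj a b ha hb => ?_⟩
    · have h := Rigid.abs_level_sub_integral (μ := volume) (K := box) (by simp [volume_box])
        hadm.measurable hadm.mem hδ hr.1.le hr.2.le
      rw [Real.dist_eq] at hn3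
      refine lt_of_le_of_lt (abs_sub_le _ (vol (w (s n))) _) ?_
      have h' : |boxVolume (box ∩ {x | r < w (s n) x}) - vol (w (s n))| ≤ η / 8 := h.trans hQ1
      linarith
    · rw [zero_mul, sub_zero, show 1 - δ - δ = 1 - 2 * δ by ring, div_le_iff₀ (by linarith)]
      have he : (∫ x in box, gradNorm (w (s n)) x) ≤ p + η / 4 := hn4
      have h2 : η * δ ≤ η / 4 := by
        linarith [mul_le_mul_of_nonneg_left hδ4 hη.le]
      linarith
    · obtain ⟨e1, e2⟩ := end_areas hadm hδ hr.1.le hr.2.le rfl hij hki hkj ha hb hτ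
      rw [mul_div_assoc] at e1
      exact ⟨by linarith [hn1 k], by linarith [hn2 k]⟩
  · obtain ⟨m, hm⟩ := ((hαlim d).eventually
      (eventually_lt_nhds (show α d < α d + η by linarith))).exists
    filter_upwards [(hla m d).eventually (eventually_le_nhds hm)] with n h1
    exact ((hw.adm (s n)).antitone_areaAt d (hmem m).1 ⟨zero_le_one, le_rfl⟩ (hmem m).1.2).trans h1

/-- The limit. -/
theorem limit (hB : SliceBoundSpec) : LimitSpec :=
  fun _ _ _ _ _ hV hV' hH hw hF =>
    let ⟨_, G, _⟩ := limit_data hB hV hV' hH hw hF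
    ⟨G⟩

end Vale.Agent.P232.Gap
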