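import Vale.Agent.P232.Reduction
import Vale.Agent.P232.Subgraph
import Vale.Agent.P232.UpperBound

/-!
# P232 gap: statements of the pieces of the first-integral proof
(notes/helper3/P232/FIRSTINT.md; lengths normalised to the cube: `jrel = candidate / 2`)

At a volume `V` where the deficit `candidate/2 - profile/2` is maximal, an almost minimiser has in
every direction `d` the slice flux `H * A_d + C d`.  `GapData` records what survives in the limit:
the constants `C d`, end areas `α d ≤ V ≤ β d`, and reduced sets nearly realising `(V, p)`.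
-/

open MeasureTheory Set Filter
open scoped Real Topology

noncomputable section

namespace Vale.Agent.P232.Gap

/-- The relative perimeter of the best candidate. -/
def jrel (V : ℝ) : ℝ := candidate V / 2

/-- The least boundary length of a slice of area `A`, whatever its type. -/
def lmin (A : ℝ) : ℝ := min (min (Real.sqrt (π * A)) 1) (Real.sqrt (π * (1 - A)))

/-- The integrand `√(1 - (F/lmin)²)₊`, `F = H A + C` clipped at `0`. -/
def sd (H C A : ℝ) : ℝ := Real.sqrt (max 0 (1 - (max 0 (H * A + C) / lmin A) ^ 2))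

/-- The projected area forced by the first integral over all areas. -/
def phi (H C : ℝ) : ℝ := ∫ A in (0 : ℝ)..1, sd H C A

/-- The limit data of almost minimisers at a volume of maximal deficit. -/
structure GapData (V H p : ℝ) where
  /-- The flux constants. -/
  C : Fin 3 → ℝ
  /-- Upper limit of the areas near the far face. -/
  α : Fin 3 → ℝ
  /-- Lower limit of the areas near the near face. -/
  β : Fin 3 → ℝ
  C_nonneg : ∀ d, 0 ≤ C d
  α_nonneg : ∀ d, 0 ≤ α d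
  α_le : ∀ d, α d ≤ V
  le_β : ∀ d, V ≤ β d
  β_le : ∀ d, β d ≤ 1
  sum_C : ∑ d, C d = 2 * p - 3 * (H * V)
  end_α : ∀ d, lmin (α d) - H * α d ≤ C d
  end_β : ∀ d, lmin (β d) - H * β d ≤ C d
  calib : ∀ d, H * V + C d + ∫ A in α d..β d, sd H (C d) A ≤ p
  total : ∑ d, ∫ A in α d..β d, sd H (C d) A ≤ p
  sets : ∀ η : ℝ, 0 < η → ∃ (D : Set R3) (M : ℝ), IsReduced D M ∧ |boxVolume D - V| < η ∧
    M ≤ p + η ∧ ∀ i j k : Fin 3, i ≠ j → k ≠ i → k ≠ j → ∀ a b : ℝ,
      Tendsto (sliceArea D i j) (𝓝[<] 1) (𝓝 a) → Tendsto (sliceArea D i j) (𝓝[>] 0) (𝓝 b) →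
        a ≤ α k + η ∧ β k - η ≤ b

/-- Where the multiplier comes from: the slope of the candidate. -/
def IsSlope (V H : ℝ) : Prop :=
  (V < 1 / π ∧ H = Real.sqrt π / (2 * Real.sqrt V)) ∨ (1 / π < V ∧ H = 0) ∨
    (V = 1 / π ∧ 0 ≤ H ∧ H ≤ π / 2)

/-- A (stationarity, endpoints, calibration): a failure of the bound gives data. -/
def BuildSpec : Prop :=
  (∃ W ∈ Icc (13 / 50 : ℝ) (37 / 50), profile W < ENNReal.ofReal (candidate W)) →
    ∃ V ∈ Icc (1 / 4 : ℝ) (1 / 2), ∃ H p : ℝ, IsSlope V H ∧ p < jrel V ∧ Nonempty (GapData V H p)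

/-- B: the tube range. -/
def TubeSpec : Prop :=
  ∀ V H p : ℝ, 1 / 4 ≤ V → V < 1 / π → H = Real.sqrt π / (2 * Real.sqrt V) → GapData V H p →
    Real.sqrt (π * V) ≤ p

/-- C: the slab range. -/
def SlabSpec : Prop :=
  ∀ V p : ℝ, 1 / π ≤ V → V ≤ 1 / 2 → GapData V 0 p → 1 ≤ p

/-- D0 (kink): small slopes. -/
def KinkLowSpec : Prop :=
  ∀ H C : ℝ, 0 ≤ H → H ≤ 21 / 20 → 0 ≤ C → C ≤ 2 / 3 - H / π → 1 - H / π ≤ C + phi H C

/-- D1 (kink): the forbidden band of flux constants. -/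
def KinkBandSpec : Prop :=
  ∀ H C : ℝ, 21 / 20 ≤ H → H ≤ π / 2 → 4 / 125 ≤ C →
    (C ≤ 8 / 25 ∨ (H ≤ 11 / 10 ∧ C ≤ 167 / 500)) → 1 - H / π ≤ C + phi H C

/-- D2 (kink, tube corner): two far faces almost empty. -/
def CornerSpec : Prop :=
  ∀ ε : ℝ, 0 < ε → ∃ η : ℝ, 0 < η ∧ ∀ (D : Set R3) (M : ℝ), IsReduced D M →
    |boxVolume D - 1 / π| < η → ∀ i j k : Fin 3, i ≠ j → k ≠ i → k ≠ j →
      ∀ au aw : ℝ, Tendsto (sliceArea D k j) (𝓝[<] 1) (𝓝 au) →
        Tendsto (sliceArea D k i) (𝓝[<] 1) (𝓝 aw) →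
          au ≤ 17 / 50000 → aw ≤ 17 / 50000 → 1 - ε ≤ M

/-- D3 (kink, one small and two large constants). -/
def KinkSplitSpec : Prop :=
  ∀ (H p : ℝ) (G : GapData (1 / π) H p) (i j k : Fin 3), i ≠ j → k ≠ i → k ≠ j →
    21 / 20 ≤ H → H ≤ 179 / 125 → G.C i ≤ 4 / 125 → 8 / 25 ≤ G.C j → 8 / 25 ≤ G.C k →
      1 ≤ p

/-- D: the kink. -/
def KinkSpec : Prop :=
  ∀ H p : ℝ, 0 ≤ H → H ≤ π / 2 → GapData (1 / π) H p → 1 ≤ p

/-- The goal: the profile on the gap. -/
def GapSpec : Prop :=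
  ∀ W ∈ Icc (13 / 50 : ℝ) (37 / 50), ENNReal.ofReal (candidate W) ≤ profile W

end Vale.Agent.P232.Gap
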