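import Vale.Agent.P232.SlabFromEndpoint
import Vale.Agent.P232.Gap.Spec

/-!
# P232 gap: the candidate on `[1/4, 1/2]`, and its second order lower expansions
-/

open MeasureTheory Set Filter
open scoped Real Topology

noncomputable section

namespace Vale.Agent.P232.Gap

/-- On `[1/4, 1/π]` the candidate is the tube. -/
theorem candidate_eq_tube {W : ℝ} (h4 : 1 / 4 ≤ W) (hπ : W ≤ 1 / π) :
    candidate W = 2 * Real.sqrt (π * W) := by
  have hW0 : 0 < W := by linarith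
  have h12 : (1 : ℝ) / π ≤ 1 / 2 := one_div_le_one_div_of_le two_pos Real.two_le_pi
  have hWπ : π * W ≤ 1 := by
    rw [le_div_iff₀ Real.pi_pos] at hπ
    linarith
  have hball : 2 * Real.sqrt (π * W) ≤ (36 * π) ^ ((1 : ℝ) / 3) * W ^ ((2 : ℝ) / 3) := by
    refine le_of_pow_le_pow_left₀ (n := 6) (by norm_num) (by positivity) ?_
    have e1 : (2 * Real.sqrt (π * W)) ^ 6 = 64 * (π * W) ^ 3 := by
      have := Real.sq_sqrt (show 0 ≤ π * W by positivity)
      calc (2 * Real.sqrt (π * W)) ^ 6 = 64 * (Real.sqrt (π * W) ^ 2) ^ 3 := by ring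
        _ = _ := by rw [this]
    have e2 : ((36 * π) ^ ((1 : ℝ) / 3) * W ^ ((2 : ℝ) / 3)) ^ 6 = (36 * π) ^ 2 * W ^ 4 := by
      rw [mul_pow, ← Real.rpow_natCast, ← Real.rpow_mul (by positivity),
        ← Real.rpow_natCast (W ^ _), ← Real.rpow_mul hW0.le]
      norm_num
    rw [e1, e2]
    have : 64 * π ≤ 1296 * W := by linarith [Real.pi_lt_d2]
    calc 64 * (π * W) ^ 3 = 64 * π * (π ^ 2 * W ^ 3) := by ring
      _ ≤ 1296 * W * (π ^ 2 * W ^ 3) := mul_le_mul_of_nonneg_right this (by positivity)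
      _ = _ := by ring
  rw [candidate, min_eq_left (show W ≤ 1 - W by linarith), min_eq_right hball, min_eq_left]
  linarith [Real.sqrt_le_one.2 hWπ]

/-- The second order lower expansion of the tube perimeter. -/
theorem sqrt_quad {V W : ℝ} (hV : 1 / 4 ≤ V) (hW : 0 ≤ W) :
    Real.sqrt (π * V) + Real.sqrt π / (2 * Real.sqrt V) * (W - V) - 8 * (W - V) ^ 2 ≤
      Real.sqrt (π * W) := by
  rw [Real.sqrt_mul Real.pi_pos.le, Real.sqrt_mul Real.pi_pos.le]
  set s := Real.sqrt π with hs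
  set a := Real.sqrt W with ha
  set b := Real.sqrt V with hb
  have hb2 : (1 : ℝ) / 2 ≤ b := Real.le_sqrt_of_sq_le (by linarith)
  have ha0 : 0 ≤ a := Real.sqrt_nonneg _
  have hs0 : 0 ≤ s := Real.sqrt_nonneg _
  have hs2 : s ≤ 2 := (Real.sqrt_le_left two_pos.le).2 (by linarith [Real.pi_lt_four])
  have hWV : W - V = (a - b) * (a + b) := by
    have h1 := Real.sq_sqrt hW
    have h2 := Real.sq_sqrt (show (0 : ℝ) ≤ V by linarith)
    rw [← ha] at h1; rw [← hb] at h2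
    linarith [show (a - b) * (a + b) = a ^ 2 - b ^ 2 by ring]
  rw [hWV]
  have hbne : b ≠ 0 := by linarith
  have hid : s * b + s / (2 * b) * ((a - b) * (a + b)) - s * a = s / (2 * b) * (a - b) ^ 2 := by
    field_simp
    ring
  have h1 : s / (2 * b) ≤ 2 := by
    rw [div_le_iff₀ (by linarith)]
    linarith
  have h2 : (a - b) ^ 2 ≤ 4 * ((a - b) * (a + b)) ^ 2 := by
    have : (1 : ℝ) / 4 ≤ (a + b) ^ 2 := by nlinarith
    nlinarith [mul_le_mul_of_nonneg_left this (sq_nonneg (a - b))]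
  have h3 := mul_le_mul h1 h2 (sq_nonneg _) two_pos.le
  linarith

/-- Tube range: the expansion of half the candidate. -/
theorem candidate_quad_tube {V : ℝ} (h4 : 1 / 4 ≤ V) (hπ : V ≤ 1 / π) {W : ℝ}
    (h4' : 1 / 4 ≤ W) (hπ' : W ≤ 1 / π) :
    candidate V / 2 + Real.sqrt π / (2 * Real.sqrt V) * (W - V) - 8 * (W - V) ^ 2 ≤
      candidate W / 2 := by
  rw [candidate_eq_tube h4 hπ, candidate_eq_tube h4' hπ']
  linarith [sqrt_quad (V := V) (W := W) h4 (by linarith)]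

/-- At the kink: both one-sided slopes. -/
theorem candidate_quad_kink {W : ℝ} (h4 : 1 / 4 ≤ W) (h12 : W ≤ 1 / 2) :
    1 + π / 2 * min 0 (W - 1 / π) - 8 * (W - 1 / π) ^ 2 ≤ candidate W / 2 := by
  rcases le_total W (1 / π) with hW | hW
  · have hπ4 : (1 : ℝ) / 4 ≤ 1 / π := one_div_le_one_div_of_le Real.pi_pos Real.pi_lt_four.le
    have h := candidate_quad_tube hπ4 le_rfl h4 hW
    have e : Real.sqrt π / (2 * Real.sqrt (1 / π)) = π / 2 := by
      rw [Real.sqrt_div' 1 Real.pi_pos.le, Real.sqrt_one]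
      have hs : Real.sqrt π ≠ 0 := (Real.sqrt_pos.2 Real.pi_pos).ne'
      field_simp
      rw [Real.sq_sqrt Real.pi_pos.le]
    rw [e, candidate_eq_tube hπ4 le_rfl, mul_one_div_cancel Real.pi_ne_zero, Real.sqrt_one] at h
    rw [min_eq_right (by linarith)]
    linarith
  · rw [candidate_eq_two (le_min hW (by linarith)), min_eq_left (by linarith)]
    nlinarith [sq_nonneg (W - 1 / π)]

/-- Slab range: the candidate is constant. -/
theorem candidate_slab {W : ℝ} (h1 : 1 / π ≤ W) (h2 : W ≤ 1 - 1 / π) : candidate W / 2 = 1 := by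
  rw [candidate_eq_two (le_min h1 (by linarith))]
  norm_num

theorem jrel_eq_tube {W : ℝ} (h4 : 1 / 4 ≤ W) (hπ : W ≤ 1 / π) : jrel W = Real.sqrt (π * W) := by
  rw [jrel, candidate_eq_tube h4 hπ]
  ring

theorem jrel_quad_tube {V : ℝ} (h4 : 1 / 4 ≤ V) (hπ : V ≤ 1 / π) {W : ℝ}
    (h4' : 1 / 4 ≤ W) (hπ' : W ≤ 1 / π) :
    jrel V + Real.sqrt π / (2 * Real.sqrt V) * (W - V) - 8 * (W - V) ^ 2 ≤ jrel W :=
  candidate_quad_tube h4 hπ h4' hπ'

theorem jrel_quad_kink {W : ℝ} (h4 : 1 / 4 ≤ W) (h12 : W ≤ 1 / 2) :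
    1 + π / 2 * min 0 (W - 1 / π) - 8 * (W - 1 / π) ^ 2 ≤ jrel W :=
  candidate_quad_kink h4 h12

theorem jrel_slab {W : ℝ} (h1 : 1 / π ≤ W) (h2 : W ≤ 1 - 1 / π) : jrel W = 1 :=
  candidate_slab h1 h2

theorem jrel_one_sub (W : ℝ) : jrel (1 - W) = jrel W := by
  rw [jrel, jrel, candidate_one_sub]

theorem jrel_le_one (W : ℝ) : jrel W ≤ 1 := by
  have := candidate_le_two W
  unfold jrel
  linarith

end Vale.Agent.P232.Gap
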