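import Vale.Agent.P232.Gap.BuildDefs
import Vale.Agent.P232.Gap.Jrel
import Vale.Agent.P232.Phase1.Bound
import Vale.Agent.P232.Phase1.Cover

/-!
# P232 gap: selection of the volume of maximal deficit

A failure of the bound gives admissible functions with small defect and energy below the candidate.
The infimum over `κ` of the largest such deficit at defect `≤ κ` is the deficit `m > 0`; a sequence
attains it at some volume `V`, which is at least `13/50` by the landed bound and, after the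
reflection `w ↦ 1 - w (1 - x)`, at most `1/2`.
-/

open MeasureTheory Set Filter
open scoped ENNReal NNReal Real Topology

noncomputable section

namespace Vale.Agent.P232.Gap

open Rigid (half)

/-- The reflected complement of a function. -/
def mirrorFun (w : R3 → ℝ) : R3 → ℝ := fun x => 1 - w (1 - x)

theorem integral_box_one_sub (f : R3 → ℝ) : ∫ x in box, f (1 - x) = ∫ x in box, f x := by
  have hmp : MeasurePreserving (fun x : R3 => 1 - x) volume volume :=
    Measure.measurePreserving_sub_left volume 1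
  have hpre : (fun x : R3 => 1 - x) ⁻¹' box = box := Set.ext fun _ => one_sub_mem_box
  have := hmp.setIntegral_preimage_emb (MeasurableEquiv.subLeft (1 : R3)).measurableEmbedding f box
  rwa [hpre] at this

theorem integrableOn_box_unit {f : R3 → ℝ} (hf : Continuous f) : IntegrableOn f box :=
  hf.continuousOn.integrableOn_compact isCompact_Icc

theorem Adm.continuous {w : R3 → ℝ} (h : Adm w) : Continuous w :=
  h.lipschitz.choose_spec.continuous

theorem Adm.mirrorFun {w : R3 → ℝ} (h : Adm w) : Adm (mirrorFun w) := by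
  obtain ⟨L, hL⟩ := h.lipschitz
  refine ⟨⟨L, LipschitzWith.of_dist_le_mul fun x y => ?_⟩, fun x => ?_, fun x hx y hy hyx => ?_⟩
  · simp only [Gap.mirrorFun, Real.dist_eq]
    have := hL.dist_le_mul (1 - y) (1 - x)
    rw [Real.dist_eq] at this
    rw [show (1 - w (1 - x)) - (1 - w (1 - y)) = w (1 - y) - w (1 - x) by ring]
    refine this.trans_eq ?_
    rw [dist_eq_norm, dist_eq_norm]
    congr 2
    abel
  · obtain ⟨h1, h2⟩ := h.mem (1 - x)
    exact ⟨by simp only [Gap.mirrorFun]; linarith, by simp only [Gap.mirrorFun]; linarith⟩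
  · have := h.anti (1 - y) (one_sub_mem_box.2 hy) (1 - x) (one_sub_mem_box.2 hx)
      (sub_le_sub_left hyx 1)
    simp only [Gap.mirrorFun]
    linarith

theorem vol_mirrorFun {w : R3 → ℝ} (h : Adm w) : vol (mirrorFun w) = 1 - vol w := by
  have h1 : IntegrableOn (fun x => w (1 - x)) box :=
    integrableOn_box_unit (h.continuous.comp (continuous_const.sub continuous_id))
  simp only [vol, mirrorFun]
  have h0 : IntegrableOn (fun _ => (1 : ℝ)) box := integrableOn_box_unit continuous_const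
  rw [integral_sub h0 h1, integral_box_one_sub,
    setIntegral_const, smul_eq_mul, mul_one, measureReal_def, volume_box, ENNReal.toReal_one]

theorem defect_mirrorFun (w : R3 → ℝ) : defect (mirrorFun w) = defect w := by
  simp only [defect, mirrorFun]
  rw [← integral_box_one_sub (fun x => w x * (1 - w x))]
  refine integral_congr_ae (ae_of_all _ fun x => ?_)
  ring

theorem energy_mirrorFun {w : R3 → ℝ} (h : Adm w) : energy (mirrorFun w) = energy w := by
  obtain ⟨L, hL⟩ := h.lipschitz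
  simp only [energy]
  rw [← integral_box_one_sub (gradNorm w)]
  refine integral_congr_ae (ae_restrict_of_ae ?_)
  filter_upwards [(Measure.measurePreserving_sub_left volume (1 : R3)).quasiMeasurePreserving.ae
    (hL.ae_differentiableAt (μ := volume))] with x hx
  have hd : HasFDerivAt (mirrorFun w)
      (-((fderiv ℝ w (1 - x)).comp (-ContinuousLinearMap.id ℝ R3))) x :=
    (hx.hasFDerivAt.comp x ((hasFDerivAt_id x).const_sub 1)).const_sub 1
  simp only [gradNorm, pd, hd.fderiv]
  simp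

/-- The candidates for the deficit at defect `κ`. -/
def deficitSet (κ : ℝ) : Set ℝ :=
  {r | ∃ w : R3 → ℝ, Adm w ∧ defect w ≤ κ ∧ vol w ∈ Icc (1 / 4 : ℝ) (3 / 4) ∧
    r = jrel (vol w) - energy w}

theorem deficitSet_bddAbove (κ : ℝ) : BddAbove (deficitSet κ) := by
  refine ⟨1, ?_⟩
  rintro _ ⟨w, -, -, -, rfl⟩
  have : 0 ≤ energy w := setIntegral_nonneg measurableSet_box fun x _ => gradNorm_nonneg w x
  linarith [jrel_le_one (vol w)]

/-- An admissible function from a set of finite perimeter. -/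
theorem exists_adm_of_set {E : Set R3} (hE : IsTorusSet E) (hfin : perimeter E ≠ ⊤) {ε : ℝ}
    (hε : 0 < ε) : ∃ w : R3 → ℝ, Adm w ∧ |vol w - torusVolume E| ≤ ε ∧ defect w ≤ ε ∧
      energy w ≤ (perimeter E).toReal / 2 + ε := by
  obtain ⟨u, L, huL, hup, hu01, huV, huQ, huP⟩ := hE.exists_smooth_approx hfin (ε := ε) hε
  obtain ⟨v, hv, hsd, hA, hQ, hM⟩ := exists_symmDecreasing (L := L) ⟨huL, hup, hu01⟩
  refine ⟨half v, ⟨⟨L, ?_⟩, fun x => hv.2.2 _, Rigid.half_antitone hsd⟩, ?_, ?_, ?_⟩
  · refine LipschitzWith.of_dist_le_mul fun x y => (hv.1.dist_le_mul _ _).trans ?_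
    rw [dist_smul₀]
    gcongr
    calc ‖(1 / 2 : ℝ)‖ * dist x y ≤ 1 * dist x y := by gcongr; norm_num
      _ = dist x y := one_mul _
  · have : vol (half v) = ∫ x in cell, u x := by
      rw [vol, Rigid.integral_box_half_comp hv hsd (φ := fun t => t) continuous_id, hA]
    rw [this]
    exact le_of_lt (by linarith)
  · rw [defect, Rigid.integral_box_half_comp hv hsd (φ := fun t => t * (1 - t)) (by fun_prop), hQ]
    linarith
  · rw [energy, Rigid.integral_gradNorm_half hv hsd]
    linarith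

/-- The selection. -/
theorem select : SelectSpec := by
  rintro ⟨W₀, hW₀, hlt⟩
  obtain ⟨E₀, hE₀, hEW, hP⟩ : ∃ E : Set R3, IsTorusSet E ∧ torusVolume E = W₀ ∧
      perimeter E < ENNReal.ofReal (candidate W₀) := by
    have h' : (⨅ (E : Set R3) (_ : IsTorusSet E) (_ : torusVolume E = W₀), perimeter E) <
        ENNReal.ofReal (candidate W₀) := hlt
    simp only [iInf_lt_iff] at h'
    obtain ⟨E, hE, hEW, hP⟩ := h'
    exact ⟨E, hE, hEW, hP⟩
  have hfin : perimeter E₀ ≠ ⊤ := hP.ne_top
  set d := jrel W₀ - (perimeter E₀).toReal / 2 with hd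
  have hdpos : 0 < d := by
    have := ENNReal.toReal_lt_of_lt_ofReal hP
    simp only [hd, jrel]
    linarith
  have hcont : Continuous jrel := by
    unfold jrel
    exact continuous_candidate.div_const 2
  obtain ⟨r, hr, hr'⟩ := Metric.continuous_iff.1 hcont W₀ (d / 4) (by linarith)
  have hne : ∀ κ : ℝ, 0 < κ → ∃ x ∈ deficitSet κ, d / 2 ≤ x := by
    intro κ hκ
    obtain ⟨w, hw, hv, hdef, hen⟩ := exists_adm_of_set hE₀ hfin
      (ε := min (min κ (r / 2)) (min (d / 4) (1 / 200)))
      (lt_min (lt_min hκ (by linarith)) (lt_min (by linarith) (by norm_num)))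
    rw [hEW] at hv
    have e1 := min_le_left (min κ (r / 2)) (min (d / 4) (1 / 200))
    have e2 := min_le_right (min κ (r / 2)) (min (d / 4) (1 / 200))
    have e3 := min_le_left κ (r / 2)
    have e4 := min_le_right κ (r / 2)
    have e5 := min_le_left (d / 4) (1 / 200 : ℝ)
    have e6 := min_le_right (d / 4) (1 / 200 : ℝ)
    have hj := hr' (vol w) (by rw [Real.dist_eq]; linarith)
    rw [Real.dist_eq, abs_lt] at hj
    rw [abs_le] at hv
    refine ⟨_, ⟨w, hw, by linarith, ⟨by linarith [hW₀.1], by linarith [hW₀.2]⟩, rfl⟩, ?_⟩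
    simp only [hd] at *
    linarith
  set F : ℝ → ℝ := fun κ => sSup (deficitSet κ) with hF
  set G := F '' Ioi 0 with hG
  have hGne : G.Nonempty := ⟨F 1, mem_image_of_mem F (by norm_num)⟩
  have hFd : ∀ κ : ℝ, 0 < κ → d / 2 ≤ F κ := fun κ hκ => by
    obtain ⟨x, hx, hdx⟩ := hne κ hκ
    exact hdx.trans (le_csSup (deficitSet_bddAbove κ) hx)
  have hGb : BddBelow G := ⟨d / 2, by rintro _ ⟨κ, hκ, rfl⟩; exact hFd κ hκ⟩
  set m := sInf G with hm
  have hdm : d / 2 ≤ m := le_csInf hGne (by rintro _ ⟨κ, hκ, rfl⟩; exact hFd κ hκ)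
  have hmpos : 0 < m := by linarith
  have hdef : ∀ η : ℝ, 0 < η → ∃ κ : ℝ, 0 < κ ∧ ∀ w : R3 → ℝ, Adm w →
      vol w ∈ Icc (1 / 4 : ℝ) (3 / 4) → defect w ≤ κ → jrel (vol w) - m - η ≤ energy w := by
    intro η hη
    obtain ⟨_, ⟨κ, hκ, rfl⟩, hlt'⟩ := exists_lt_of_csInf_lt hGne (show sInf G < m + η by linarith)
    refine ⟨κ, hκ, fun w hw hv hdw => ?_⟩
    have : jrel (vol w) - energy w ≤ F κ :=
      le_csSup (deficitSet_bddAbove κ) ⟨w, hw, hdw, hv, rfl⟩
    linarith
  have hseq : ∀ n : ℕ, ∃ w : R3 → ℝ, Adm w ∧ defect w ≤ 1 / (n + 1 : ℝ) ∧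
      vol w ∈ Icc (1 / 4 : ℝ) (3 / 4) ∧ m - 1 / (n + 1 : ℝ) < jrel (vol w) - energy w := by
    intro n
    have hpos : (0 : ℝ) < 1 / (n + 1 : ℝ) := by positivity
    obtain ⟨x, hx, -⟩ := hne _ hpos
    have hmF : m ≤ F (1 / (n + 1 : ℝ)) := csInf_le hGb (mem_image_of_mem F hpos)
    obtain ⟨_, ⟨w, hw, hdw, hv, rfl⟩, hlt'⟩ := exists_lt_of_lt_csSup ⟨x, hx⟩
      (show m - 1 / (n + 1 : ℝ) < sSup (deficitSet (1 / (n + 1 : ℝ))) by linarith)
    exact ⟨w, hw, hdw, hv, hlt'⟩
  choose u hu hud huv hum using hseq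
  obtain ⟨V, hV, φ, hφ, hlim⟩ := isCompact_Icc.tendsto_subseq huv
  have hdef0 : ∀ n, 0 ≤ defect (u n) := fun n => setIntegral_nonneg measurableSet_box fun x _ =>
    mul_nonneg ((hu n).mem x).1 (by linarith [((hu n).mem x).2])
  have hdt : Tendsto (fun n => defect (u (φ n))) atTop (𝓝 0) :=
    squeeze_zero (fun n => hdef0 _) (fun n => hud _)
      (tendsto_one_div_add_atTop_nhds_zero_nat.comp hφ.tendsto_atTop)
  have hval : Tendsto (fun n => jrel (vol (u (φ n))) - energy (u (φ n))) atTop (𝓝 m) := by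
    rw [Metric.tendsto_atTop]
    intro η hη
    obtain ⟨κ, hκ, hκb⟩ := hdef (η / 2) (by linarith)
    have h1 := (hdt.eventually (Iic_mem_nhds hκ)).and
      ((tendsto_one_div_add_atTop_nhds_zero_nat.comp hφ.tendsto_atTop).eventually
        (Iio_mem_nhds hη))
    obtain ⟨N, hN⟩ := eventually_atTop.1 h1
    refine ⟨N, fun n hn => ?_⟩
    obtain ⟨h2, h3⟩ := hN n hn
    have h4 := hκb _ (hu _) (huv _) h2
    have h5 := hum (φ n)
    simp only [Function.comp_apply] at h3
    rw [Real.dist_eq, abs_lt]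
    constructor <;> linarith
  have hen : Tendsto (fun n => energy (u (φ n))) atTop (𝓝 (jrel V - m)) := by
    have := ((hcont.tendsto V).comp hlim).sub hval
    simpa [Function.comp_def] using this
  -- the volume is at least `13/50`, also for the reflected complement
  have hlow : ∀ (X : ℝ) (w : ℕ → R3 → ℝ), 1 / 4 ≤ X → MinSeq X (jrel X - m) w → 13 / 50 ≤ X := by
    intro X w hX hw
    by_contra hlt'
    rw [not_le] at hlt'
    obtain ⟨δ, hδ, hδm, hδ2⟩ : ∃ δ : ℝ, 0 < δ ∧ δ ≤ m / 4 ∧ δ < 1 / 2 :=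
      ⟨min (m / 4) (1 / 4), lt_min (by linarith) (by norm_num), min_le_left _ _,
        (min_le_right _ _).trans_lt (by norm_num)⟩
    have hD : ∀ n, ∃ D : Set R3, IsReduced D (energy (w n) / (1 - 2 * δ)) ∧
        |boxVolume D - vol (w n)| ≤ defect (w n) / δ := fun n => by
      obtain ⟨L, hL⟩ := (hw.adm n).lipschitz
      exact exists_reduced_level hL (hw.adm n).mem (hw.adm n).anti hδ hδ2
    choose D hD hDv using hD
    have hDl : Tendsto (fun n => boxVolume (D n)) atTop (𝓝 X) := by
      refine tendsto_of_tendsto_of_dist hw.vol_tendsto ?_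
      refine squeeze_zero (fun n => dist_nonneg) (fun n => ?_)
        (by simpa using hw.defect_tendsto.div_const δ)
      rw [dist_comm, Real.dist_eq]
      exact hDv n
    have hev : ∀ᶠ n in atTop, jrel (boxVolume (D n)) * (1 - 2 * δ) ≤ energy (w n) := by
      filter_upwards [hDl.eventually (Ioo_mem_nhds (show (0 : ℝ) < X by linarith) hlt')] with n hn
      have hb := Phase1.bound_of_cover Phase1.Cover.coverSpec _ hn.1
        (hn.2.trans (by norm_num)) (Or.inl hn.2.le) (D n) _ (hD n) rfl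
      rw [← le_div_iff₀ (by linarith)]
      unfold jrel
      linarith
    have h := le_of_tendsto_of_tendsto (((hcont.tendsto X).comp hDl).mul_const (1 - 2 * δ))
      hw.energy_tendsto hev
    have h2 := jrel_le_one X
    nlinarith
  have hseqV : MinSeq V (jrel V - m) (fun n => u (φ n)) := ⟨fun n => hu _, hlim, hdt, hen⟩
  have hmir : MinSeq (1 - V) (jrel (1 - V) - m) (fun n => mirrorFun (u (φ n))) := by
    refine ⟨fun n => (hu _).mirrorFun, ?_, ?_, ?_⟩
    · simp only [vol_mirrorFun (hu _)]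
      exact tendsto_const_nhds.sub hlim
    · simpa only [defect_mirrorFun] using hdt
    · simpa only [energy_mirrorFun (hu _), jrel_one_sub] using hen
  have hdefic : ∀ X : ℝ, X ∈ Icc (13 / 50 : ℝ) (1 / 2) → Deficit X m := by
    intro X hX η hη
    obtain ⟨κ, hκ, h⟩ := hdef η hη
    refine ⟨κ, hκ, fun w hw hv hd' => h w hw ?_ hd'⟩
    rw [abs_lt] at hv
    exact ⟨by linarith [hX.1], by linarith [hX.2]⟩
  rcases le_total V (1 / 2) with h2 | h2
  · have hX : V ∈ Icc (13 / 50 : ℝ) (1 / 2) := ⟨hlow V _ hV.1 hseqV, h2⟩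
    exact ⟨V, m, _, hX, hmpos, hdefic V hX, hseqV⟩
  · have hX : 1 - V ∈ Icc (13 / 50 : ℝ) (1 / 2) :=
      ⟨hlow _ _ (by linarith [hV.2]) hmir, by linarith⟩
    exact ⟨1 - V, m, _, hX, hmpos, hdefic _ hX, hmir⟩

end Vale.Agent.P232.Gap
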