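import Vale.Agent.P232.Gap.BuildDefs

/-!
# P232 gap: the cuts

`w` is extended constantly beyond the plane `x d = c`; for almost every `c` the transverse gradient
of the extension is that of `w` on the plane.
-/

open MeasureTheory Set Filter
open scoped NNReal Real Topology

noncomputable section

namespace Vale.Agent.P232.Gap

open Rigid (planeInt gradPerp sliceFun)

/-- For almost every plane, `w` is differentiable at almost every point of it. -/
theorem ae_plane {w : R3 → ℝ} {L : ℝ≥0} (hw : LipschitzWith L w) (d : Fin 3) :
    ∀ᵐ c : ℝ, ∀ᵐ y : R2, DifferentiableAt ℝ w (facePoint d c y) := by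
  have hmp : MeasurePreserving (MeasurableEquiv.piFinSuccAbove (fun _ : Fin 3 => ℝ) d).symm
      (volume.prod volume) volume :=
    (volume_preserving_piFinSuccAbove (fun _ : Fin 3 => ℝ) d).symm _
  exact Measure.ae_ae_of_ae_prod
    (hmp.quasiMeasurePreserving.ae (hw.ae_differentiableAt (μ := volume)))

/-- `x ↦ w (x with x d replaced by m (x d))`. -/
def reparam (w : R3 → ℝ) (d : Fin 3) (m : ℝ → ℝ) : R3 → ℝ :=
  fun x => w (Function.update x d (m (x d)))

theorem reparam_facePoint (w : R3 → ℝ) (d : Fin 3) (m : ℝ → ℝ) (t : ℝ) (y : R2) :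
    reparam w d m (facePoint d t y) = w (facePoint d (m t) y) := by
  simp only [reparam, Rigid.facePoint_self, Rigid.facePoint_update]

theorem planeInt_reparam (φ : ℝ → ℝ) (w : R3 → ℝ) (d : Fin 3) (m : ℝ → ℝ) (t : ℝ) :
    planeInt (fun x => φ (reparam w d m x)) d t = planeInt (fun x => φ (w x)) d (m t) := by
  simp only [planeInt, reparam_facePoint]

theorem adm_reparam {w : R3 → ℝ} (h : Adm w) (d : Fin 3) {m : ℝ → ℝ} (hm : LipschitzWith 1 m)
    (hmono : Monotone m) (h01 : MapsTo m (Icc 0 1) (Icc 0 1)) : Adm (reparam w d m) := by
  obtain ⟨L, hL⟩ := h.lipschitz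
  refine ⟨⟨L * 1, hL.comp (LipschitzWith.mk_one fun x y => ?_)⟩, fun x => h.mem _,
    fun x hx y hy hyx => ?_⟩
  · refine (dist_pi_le_iff dist_nonneg).2 fun j => ?_
    by_cases hj : j = d
    · subst hj
      simp only [Function.update_self]
      refine ((hm.dist_le_mul _ _).trans ?_)
      simpa using dist_le_pi_dist x y j
    · simp only [Function.update_of_ne hj]
      exact dist_le_pi_dist x y j
  · have hb : ∀ z ∈ box, Function.update z d (m (z d)) ∈ box := fun z hz =>
      ⟨fun j => by
        by_cases hj : j = d
        · subst hj; rw [Function.update_self]; exact (h01 ⟨hz.1 j, hz.2 j⟩).1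
        · rw [Function.update_of_ne hj]; exact hz.1 j,
       fun j => by
        by_cases hj : j = d
        · subst hj; rw [Function.update_self]; exact (h01 ⟨hz.1 j, hz.2 j⟩).2
        · rw [Function.update_of_ne hj]; exact hz.2 j⟩
    refine h.anti _ (hb x hx) _ (hb y hy) fun j => ?_
    by_cases hj : j = d
    · subst hj; simp only [Function.update_self]; exact hmono (hyx j)
    · simp only [Function.update_of_ne hj]; exact hyx j

theorem gradNorm_reparam_id {w : R3 → ℝ} {d : Fin 3} {m : ℝ → ℝ} {x : R3}
    (hm : m =ᶠ[𝓝 (x d)] id) : gradNorm (reparam w d m) x = gradNorm w x := by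
  have he : reparam w d m =ᶠ[𝓝 x] w :=
    (((continuous_apply d).tendsto x).eventually hm).mono fun z hz => by
      simp only [reparam, hz, id, Function.update_eq_self]
  simp only [gradNorm, pd, he.fderiv_eq]

theorem gradNorm_reparam_const {w : R3 → ℝ} {d : Fin 3} {m : ℝ → ℝ} {c : ℝ} {x : R3}
    (hm : m =ᶠ[𝓝 (x d)] fun _ => c) (hw : DifferentiableAt ℝ w (Function.update x d c)) :
    gradNorm (reparam w d m) x = gradPerp d w (Function.update x d c) := by
  have he : reparam w d m =ᶠ[𝓝 x] sliceFun w d c :=
    (((continuous_apply d).tendsto x).eventually hm).mono fun z hz => by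
      simp only [reparam, sliceFun, hz]
  have hd : HasFDerivAt (sliceFun w d c) ((fderiv ℝ w (Function.update x d c)).comp
      (ContinuousLinearMap.id ℝ R3 -
        (ContinuousLinearMap.proj (R := ℝ) (φ := fun _ : Fin 3 => ℝ) d).smulRight (unit d))) x := by
    refine hw.hasFDerivAt.comp x ?_
    have h2 : (fun z : R3 => Function.update z d c) = fun z => z - z d • unit d + c • unit d := by
      funext z
      rw [Rigid.update_eq_add z d c, sub_smul]
      abel
    rw [h2]
    exact (ContinuousLinearMap.hasFDerivAt (x := x) (ContinuousLinearMap.id ℝ R3 -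
      (ContinuousLinearMap.proj (R := ℝ) (φ := fun _ : Fin 3 => ℝ) d).smulRight (unit d))).add_const _
  simp only [gradNorm, gradPerp, pd, (hd.congr_of_eventuallyEq he).fderiv,
    ContinuousLinearMap.comp_apply, FunLike.coe_sub, Pi.sub_apply, ContinuousLinearMap.id_apply,
    ContinuousLinearMap.smulRight_apply, ContinuousLinearMap.proj_apply, map_sub, map_smul]
  rw [← Finset.sum_erase_add _ _ (Finset.mem_univ d)]
  congr 1
  rw [unit_apply, if_pos rfl, one_smul, sub_self, zero_pow two_ne_zero, add_zero]
  refine Finset.sum_congr rfl fun i hi => ?_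
  rw [unit_apply, if_neg (Finset.ne_of_mem_erase hi).symm, zero_smul, sub_zero]

variable {w : R3 → ℝ} {d : Fin 3} {c : ℝ} {m : ℝ → ℝ}

theorem box_eq_planeInt {f : R3 → ℝ} (hf : Measurable f) {C : ℝ} (hC : ∀ x, |f x| ≤ C)
    (d : Fin 3) : ∫ x in box, f x = ∫ t in (0 : ℝ)..1, planeInt f d t := by
  rw [← Rigid.setIntegral_cell_eq_box, Rigid.integral_cell_eq_planeInt hf hC d]

/-- One cut: `m` is the identity on `id` and the constant `c` on `const`. -/
theorem cut_planes (hc : ∀ᵐ y : R2, DifferentiableAt ℝ w (facePoint d c y)) :
    (∀ t, m =ᶠ[𝓝 t] id → planeInt (gradNorm (reparam w d m)) d t = energyAt w d t) ∧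
    ∀ t, (m =ᶠ[𝓝 t] fun _ => c) →
      planeInt (gradNorm (reparam w d m)) d t = perpAt w d c := by
  refine ⟨fun t ht => ?_, fun t ht => ?_⟩
  · refine setIntegral_congr_fun measurableSet_square fun y _ => ?_
    exact gradNorm_reparam_id (by rwa [Rigid.facePoint_self])
  · refine integral_congr_ae (ae_restrict_of_ae ?_)
    filter_upwards [hc] with y hy
    rw [gradNorm_reparam_const (c := c) (by rwa [Rigid.facePoint_self])
      (by rwa [Rigid.facePoint_update]), Rigid.facePoint_update]

theorem vol_reparam (h : Adm w) (hm : LipschitzWith 1 m) (hmono : Monotone m)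
    (h01 : MapsTo m (Icc 0 1) (Icc 0 1)) :
    vol (reparam w d m) = (∫ t in (0 : ℝ)..1, areaAt w d (m t)) ∧
      defect (reparam w d m) = ∫ t in (0 : ℝ)..1, defectAt w d (m t) := by
  have h' := adm_reparam h d hm hmono h01
  obtain ⟨L, hL⟩ := h'.lipschitz
  refine ⟨?_, ?_⟩
  · rw [vol, box_eq_planeInt hL.continuous.measurable
      (fun x => Rigid.abs_le_one_of_mem (h'.mem x)) d]
    refine intervalIntegral.integral_congr fun t _ => planeInt_reparam id w d m t
  · rw [defect, box_eq_planeInt (f := fun x => reparam w d m x * (1 - reparam w d m x))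
      (hL.continuous.measurable.mul (measurable_const.sub hL.continuous.measurable))
      (fun x => Rigid.abs_le_one_of_mem (Rigid.mul_one_sub_mem (h'.mem x))) d]
    refine intervalIntegral.integral_congr fun t _ =>
      planeInt_reparam (fun r => r * (1 - r)) w d m t

/-- The two cuts. -/
theorem stop : StopSpec := by
  intro w h d
  obtain ⟨L, hL⟩ := h.lipschitz
  have hp := ae_plane hL d
  have hp1 : ∀ᵐ τ : ℝ, ∀ᵐ y : R2, DifferentiableAt ℝ w (facePoint d (1 - τ) y) :=
    (Measure.measurePreserving_sub_left volume (1 : ℝ)).quasiMeasurePreserving.ae hp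
  have hmA := Rigid.measurable_planeInt hL.continuous.measurable d
  have hQm : Measurable fun x => w x * (1 - w x) :=
    hL.continuous.measurable.mul (measurable_const.sub hL.continuous.measurable)
  have hQb : ∀ x, |w x * (1 - w x)| ≤ 1 := fun x =>
    Rigid.abs_le_one_of_mem (Rigid.mul_one_sub_mem (h.mem x))
  have hAb := Rigid.abs_planeInt_le (fun x => Rigid.abs_le_one_of_mem (h.mem x)) d
  have hA : ∀ a b, IntervalIntegrable (areaAt w d) volume a b :=
    Rigid.intervalIntegrable_of_bdd hmA 1 hAb
  have hQ : ∀ a b, IntervalIntegrable (defectAt w d) volume a b :=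
    Rigid.intervalIntegrable_planeInt hQm hQb d
  have hQ0 : ∀ t, 0 ≤ defectAt w d t := Rigid.planeInt_nonneg
    (fun x => mul_nonneg (h.mem x).1 (by linarith [(h.mem x).2])) d
  have hQtot : defect w = ∫ t in (0 : ℝ)..1, defectAt w d t := box_eq_planeInt hQm hQb d
  have hVtot : vol w = ∫ t in (0 : ℝ)..1, areaAt w d t :=
    box_eq_planeInt hL.continuous.measurable (fun x => Rigid.abs_le_one_of_mem (h.mem x)) d
  filter_upwards [ae_restrict_of_ae hp, ae_restrict_of_ae hp1,
    ae_restrict_mem measurableSet_Ioo] with τ hτ hτ1 hτmem
  obtain ⟨hτ0, hτlt⟩ := hτmem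
  constructor
  · set c := 1 - τ with hc
    set m : ℝ → ℝ := fun t => min t c with hmdef
    have hml : LipschitzWith 1 m := LipschitzWith.id.min_const c
    have hmono : Monotone m := fun a b hab => min_le_min hab le_rfl
    have h01 : MapsTo m (Icc 0 1) (Icc 0 1) := fun t ht =>
      ⟨le_min ht.1 (by linarith), (min_le_left _ _).trans ht.2⟩
    have h' := adm_reparam h d hml hmono h01
    obtain ⟨L', hL'⟩ := h'.lipschitz
    obtain ⟨hid, hconst⟩ := cut_planes (m := m) hτ1
    have hGb : ∀ x, |gradNorm (reparam w d m) x| ≤ 3 * L' := fun x => by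
      rw [abs_of_nonneg (gradNorm_nonneg _ x)]; exact gradNorm_le hL' x
    have hGi := Rigid.intervalIntegrable_planeInt (measurable_gradNorm _) hGb d
    obtain ⟨hv, hdf⟩ := vol_reparam (d := d) h hml hmono h01
    refine ⟨_, h', le_of_eq ?_, ?_, ?_⟩
    · rw [energy, box_eq_planeInt (measurable_gradNorm _) hGb d,
        ← intervalIntegral.integral_add_adjacent_intervals (hGi 0 c) (hGi c 1)]
      congr 1
      · refine intervalIntegral.integral_congr_uIoo fun t ht => ?_
        rw [uIoo_of_le (by linarith)] at ht
        exact hid t ((eventually_lt_nhds ht.2).mono fun s hs => min_eq_left hs.le)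
      · rw [intervalIntegral.integral_congr_uIoo (g := fun _ => perpAt w d c) fun t ht => ?_]
        · simp only [intervalIntegral.integral_const, smul_eq_mul]
          ring
        · rw [uIoo_of_le (by linarith)] at ht
          exact hconst t ((eventually_gt_nhds ht.1).mono fun s hs => min_eq_right hs.le)
    · rw [hv, hVtot, ← intervalIntegral.integral_add_adjacent_intervals (hA 0 c) (hA c 1),
        ← intervalIntegral.integral_add_adjacent_intervals
          (Rigid.intervalIntegrable_of_bdd (g := fun t => areaAt w d (m t))
            (hmA.comp hml.continuous.measurable) 1 (fun t => hAb _) 0 c)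
          (Rigid.intervalIntegrable_of_bdd (g := fun t => areaAt w d (m t))
            (hmA.comp hml.continuous.measurable) 1 (fun t => hAb _) c 1)]
      rw [intervalIntegral.integral_congr (g := areaAt w d)
          (a := (0 : ℝ)) (b := c) fun t ht => ?_,
        intervalIntegral.integral_congr (g := fun _ => areaAt w d c)
          (a := c) (b := (1 : ℝ)) fun t ht => ?_, add_sub_add_left_eq_sub,
        ← intervalIntegral.integral_sub intervalIntegrable_const (hA c 1)]
      · refine (intervalIntegral.abs_integral_le_integral_abs (by linarith)).trans (le_of_eq ?_)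
        simp only [abs_sub_comm]
      · rw [uIcc_of_le (by linarith)] at ht
        show areaAt w d (m t) = areaAt w d c
        rw [hmdef]; simp only [min_eq_right ht.1]
      · rw [uIcc_of_le (by linarith)] at ht
        show areaAt w d (m t) = areaAt w d t
        rw [hmdef]; simp only [min_eq_left ht.2]
    · rw [hdf, hQtot, ← intervalIntegral.integral_add_adjacent_intervals (hQ 0 c) (hQ c 1),
        ← intervalIntegral.integral_add_adjacent_intervals
          (Rigid.intervalIntegrable_of_bdd (g := fun t => defectAt w d (m t))
            ((Rigid.measurable_planeInt hQm d).comp hml.continuous.measurable) 1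
            (fun t => Rigid.abs_planeInt_le hQb d _) 0 c)
          (Rigid.intervalIntegrable_of_bdd (g := fun t => defectAt w d (m t))
            ((Rigid.measurable_planeInt hQm d).comp hml.continuous.measurable) 1
            (fun t => Rigid.abs_planeInt_le hQb d _) c 1)]
      have h0 : 0 ≤ ∫ t in c..1, defectAt w d t :=
        intervalIntegral.integral_nonneg (by linarith) fun t _ => hQ0 t
      rw [intervalIntegral.integral_congr (g := defectAt w d)
          (a := (0 : ℝ)) (b := c) fun t ht => ?_,
        intervalIntegral.integral_congr (g := fun _ => defectAt w d c)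
          (a := c) (b := (1 : ℝ)) fun t ht => ?_, intervalIntegral.integral_const, smul_eq_mul]
      · rw [show 1 - c = τ by rw [hc]; ring]
        linarith
      · rw [uIcc_of_le (by linarith)] at ht
        show defectAt w d (m t) = defectAt w d c
        rw [hmdef]; simp only [min_eq_right ht.1]
      · rw [uIcc_of_le (by linarith)] at ht
        show defectAt w d (m t) = defectAt w d t
        rw [hmdef]; simp only [min_eq_left ht.2]
  · set m : ℝ → ℝ := fun t => max t τ with hmdef
    have hml : LipschitzWith 1 m := LipschitzWith.id.max_const τ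
    have hmono : Monotone m := fun a b hab => max_le_max hab le_rfl
    have h01 : MapsTo m (Icc 0 1) (Icc 0 1) := fun t ht =>
      ⟨ht.1.trans (le_max_left _ _), max_le ht.2 hτlt.le⟩
    have h' := adm_reparam h d hml hmono h01
    obtain ⟨L', hL'⟩ := h'.lipschitz
    obtain ⟨hid, hconst⟩ := cut_planes (m := m) hτ
    have hGb : ∀ x, |gradNorm (reparam w d m) x| ≤ 3 * L' := fun x => by
      rw [abs_of_nonneg (gradNorm_nonneg _ x)]; exact gradNorm_le hL' x
    have hGi := Rigid.intervalIntegrable_planeInt (measurable_gradNorm _) hGb d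
    obtain ⟨hv, hdf⟩ := vol_reparam (d := d) h hml hmono h01
    refine ⟨_, h', le_of_eq ?_, ?_, ?_⟩
    · rw [energy, box_eq_planeInt (measurable_gradNorm _) hGb d,
        ← intervalIntegral.integral_add_adjacent_intervals (hGi 0 τ) (hGi τ 1), add_comm]
      congr 1
      · refine intervalIntegral.integral_congr_uIoo fun t ht => ?_
        rw [uIoo_of_le (by linarith)] at ht
        exact hid t ((eventually_gt_nhds ht.1).mono fun s hs => max_eq_left hs.le)
      · rw [intervalIntegral.integral_congr_uIoo (g := fun _ => perpAt w d τ) fun t ht => ?_]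
        · simp only [intervalIntegral.integral_const, smul_eq_mul, sub_zero]
        · rw [uIoo_of_le (by linarith)] at ht
          exact hconst t ((eventually_lt_nhds ht.2).mono fun s hs => max_eq_right hs.le)
    · rw [hv, hVtot, ← intervalIntegral.integral_add_adjacent_intervals (hA 0 τ) (hA τ 1),
        ← intervalIntegral.integral_add_adjacent_intervals
          (Rigid.intervalIntegrable_of_bdd (g := fun t => areaAt w d (m t))
            (hmA.comp hml.continuous.measurable) 1 (fun t => hAb _) 0 τ)
          (Rigid.intervalIntegrable_of_bdd (g := fun t => areaAt w d (m t))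
            (hmA.comp hml.continuous.measurable) 1 (fun t => hAb _) τ 1)]
      rw [intervalIntegral.integral_congr (g := fun _ => areaAt w d τ)
          (a := (0 : ℝ)) (b := τ) fun t ht => ?_,
        intervalIntegral.integral_congr (g := areaAt w d)
          (a := τ) (b := (1 : ℝ)) fun t ht => ?_, add_sub_add_right_eq_sub,
        ← intervalIntegral.integral_sub intervalIntegrable_const (hA 0 τ)]
      · refine (intervalIntegral.abs_integral_le_integral_abs hτ0.le).trans (le_of_eq ?_)
        simp only [abs_sub_comm]
      · rw [uIcc_of_le (by linarith)] at ht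
        show areaAt w d (m t) = areaAt w d t
        rw [hmdef]; simp only [max_eq_left ht.1]
      · rw [uIcc_of_le hτ0.le] at ht
        show areaAt w d (m t) = areaAt w d τ
        rw [hmdef]; simp only [max_eq_right ht.2]
    · rw [hdf, hQtot, ← intervalIntegral.integral_add_adjacent_intervals (hQ 0 τ) (hQ τ 1),
        ← intervalIntegral.integral_add_adjacent_intervals
          (Rigid.intervalIntegrable_of_bdd (g := fun t => defectAt w d (m t))
            ((Rigid.measurable_planeInt hQm d).comp hml.continuous.measurable) 1
            (fun t => Rigid.abs_planeInt_le hQb d _) 0 τ)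
          (Rigid.intervalIntegrable_of_bdd (g := fun t => defectAt w d (m t))
            ((Rigid.measurable_planeInt hQm d).comp hml.continuous.measurable) 1
            (fun t => Rigid.abs_planeInt_le hQb d _) τ 1)]
      have h0 : 0 ≤ ∫ t in (0 : ℝ)..τ, defectAt w d t :=
        intervalIntegral.integral_nonneg hτ0.le fun t _ => hQ0 t
      rw [intervalIntegral.integral_congr (g := fun _ => defectAt w d τ)
          (a := (0 : ℝ)) (b := τ) fun t ht => ?_,
        intervalIntegral.integral_congr (g := defectAt w d)
          (a := τ) (b := (1 : ℝ)) fun t ht => ?_, intervalIntegral.integral_const, smul_eq_mul,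
        sub_zero]
      · linarith
      · rw [uIcc_of_le (by linarith)] at ht
        show defectAt w d (m t) = defectAt w d t
        rw [hmdef]; simp only [max_eq_left ht.1]
      · rw [uIcc_of_le hτ0.le] at ht
        show defectAt w d (m t) = defectAt w d τ
        rw [hmdef]; simp only [max_eq_right ht.2]

end Vale.Agent.P232.Gap
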