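import Vale.Agent.P232.Gap.BuildDefs

/-!
# P232 gap: the inner variation along the three axes

The axes are reparametrised by `φ_d(t) = t + ε ∫₀ᵗ g_d`, and the function is pushed forward.
-/

open MeasureTheory Set Filter
open scoped NNReal Real Topology

noncomputable section

namespace Vale.Agent.P232.Gap

open Rigid (planeInt gradPerp)

namespace Variation

/-- The reparametrisation of one axis. -/
def phiAx (g : ℝ → ℝ) (ε t : ℝ) : ℝ := t + ε * ∫ s in (0 : ℝ)..t, g s

theorem hasDerivAt_phiAx {g : ℝ → ℝ} (hg : Continuous g) (ε t : ℝ) :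
    HasDerivAt (phiAx g ε) (1 + ε * g t) t :=
  (hasDerivAt_id t).add ((hg.integral_hasStrictDerivAt 0 t).hasDerivAt.const_mul ε)

theorem slope_mem {g : ℝ → ℝ} (hg1 : ∀ t, |g t| ≤ 1) {ε : ℝ} (hε : |ε| ≤ 1 / 8) (t : ℝ) :
    1 + ε * g t ∈ Icc (7 / 8 : ℝ) (9 / 8) := by
  have h : |ε * g t| ≤ 1 / 8 := by
    rw [abs_mul]
    exact (mul_le_of_le_one_right (abs_nonneg _) (hg1 t)).trans hε
  obtain ⟨h1, h2⟩ := abs_le.1 h
  constructor <;> linarith

/-- The inverse of the reparametrisation. -/
theorem exists_inverse {g : ℝ → ℝ} (hg : Continuous g) (hg1 : ∀ t, |g t| ≤ 1)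
    (hg0 : ∫ t in (0 : ℝ)..1, g t = 0) {ε : ℝ} (hε : |ε| ≤ 1 / 8) :
    ∃ ψ : ℝ → ℝ, (∀ t, ψ (phiAx g ε t) = t) ∧ LipschitzWith 2 ψ ∧ Monotone ψ ∧
      ψ 0 = 0 ∧ ψ 1 = 1 ∧ (∀ t, HasDerivAt ψ (1 + ε * g t)⁻¹ (phiAx g ε t)) := by
  have hd := hasDerivAt_phiAx hg ε
  have hpos : ∀ t, 0 < 1 + ε * g t := fun t => by linarith [(slope_mem hg1 hε t).1]
  have hmono : StrictMono (phiAx g ε) :=
    strictMono_of_deriv_pos fun t => by rw [(hd t).deriv]; exact hpos t
  have hslope : Monotone fun t => phiAx g ε t - 7 / 8 * t := by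
    refine monotone_of_hasDerivAt_nonneg
      (fun t => (hd t).sub ((hasDerivAt_id t).const_mul (7 / 8))) fun t => ?_
    simp only [Pi.zero_apply, mul_one, sub_nonneg]
    exact (slope_mem hg1 hε t).1
  have hsurj : Function.Surjective (phiAx g ε) := by
    refine (continuous_iff_continuousAt.2 fun t => (hd t).continuousAt).surjective ?_ ?_
    · refine tendsto_atTop_mono' _ ?_
        (tendsto_atTop_add_const_right _ (phiAx g ε 0) (tendsto_id.const_mul_atTop
          (by norm_num : (0 : ℝ) < 7 / 8)))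
      filter_upwards [eventually_ge_atTop (0 : ℝ)] with t ht
      have := hslope ht
      simp only [id_eq] at this ⊢
      linarith
    · refine tendsto_atBot_mono' _ ?_
        (tendsto_atBot_add_const_right _ (phiAx g ε 0) (tendsto_id.const_mul_atBot
          (by norm_num : (0 : ℝ) < 7 / 8)))
      filter_upwards [eventually_le_atBot (0 : ℝ)] with t ht
      have := hslope ht
      simp only [id_eq] at this ⊢
      linarith
  set ψ := Function.surjInv hsurj
  have hr : ∀ x, phiAx g ε (ψ x) = x := Function.surjInv_eq hsurj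
  have hl : ∀ t, ψ (phiAx g ε t) = t := fun t => hmono.injective (hr _)
  have hψm : Monotone ψ := fun a b hab => hmono.le_iff_le.1 (by rw [hr, hr]; exact hab)
  have hψL : LipschitzWith 2 ψ := by
    refine LipschitzWith.of_le_add_mul 2 fun a b => ?_
    rcases le_total a b with h | h
    · have := dist_nonneg (x := a) (y := b)
      push_cast
      linarith [hψm h]
    · have h1 := hψm h
      have h2 := hslope h1
      simp only [hr] at h2
      rw [Real.dist_eq, abs_of_nonneg (sub_nonneg.2 h)]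
      push_cast
      linarith
  have h0 : phiAx g ε 0 = 0 := by simp [phiAx]
  have h1 : phiAx g ε 1 = 1 := by simp [phiAx, hg0]
  refine ⟨ψ, hl, hψL, hψm, by simpa [h0] using hl 0, by simpa [h1] using hl 1, fun t => ?_⟩
  refine HasDerivAt.of_local_left_inverse hψL.continuous.continuousAt
    (by rw [hl]; exact hd t) (hpos t).ne' (Eventually.of_forall hr)

/-- Change of variables on the box. -/
theorem integral_comp_axes {φ φ' : Fin 3 → ℝ → ℝ} (hφ : ∀ d t, HasDerivAt (φ d) (φ' d t) t)
    (hpos : ∀ d t, 0 < φ' d t) (h0 : ∀ d, φ d 0 = 0) (h1 : ∀ d, φ d 1 = 1) (F : R3 → ℝ) :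
    ∫ x in box, F x = ∫ y in box, (∏ d, φ' d (y d)) * F (fun d => φ d (y d)) := by
  set Φ : R3 → R3 := fun y d => φ d (y d) with hΦ
  set L : R3 → R3 →L[ℝ] R3 := fun y =>
    ContinuousLinearMap.pi fun d => φ' d (y d) • ContinuousLinearMap.proj d with hL
  have hΦd : ∀ y, HasFDerivAt Φ (L y) y := fun y =>
    hasFDerivAt_pi.2 fun d => (hφ d (y d)).comp_hasFDerivAt y (hasFDerivAt_apply d y)
  have hmono : ∀ d, StrictMono (φ d) := fun d =>
    strictMono_of_deriv_pos fun t => by rw [(hφ d t).deriv]; exact hpos d t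
  have hcont : ∀ d, Continuous (φ d) := fun d =>
    continuous_iff_continuousAt.2 fun t => (hφ d t).continuousAt
  have himg : Φ '' box = box := by
    refine subset_antisymm ?_ fun x hx => ?_
    · rintro _ ⟨y, hy, rfl⟩
      exact ⟨fun d => (h0 d).ge.trans ((hmono d).monotone (hy.1 d)),
        fun d => ((hmono d).monotone (hy.2 d)).trans (h1 d).le⟩
    · have : ∀ d, ∃ t ∈ Icc (0 : ℝ) 1, φ d t = x d := fun d => by
        have := intermediate_value_Icc zero_le_one (hcont d).continuousOn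
        rw [h0, h1] at this
        exact this ⟨hx.1 d, hx.2 d⟩
      choose y hy hye using this
      exact ⟨y, ⟨fun d => (hy d).1, fun d => (hy d).2⟩, funext hye⟩
  have hinj : InjOn Φ box := fun a _ b _ h => funext fun d => (hmono d).injective (congrFun h d)
  have key := integral_image_eq_integral_abs_det_fderiv_smul volume measurableSet_box
    (fun y _ => (hΦd y).hasFDerivWithinAt) hinj F
  rw [himg] at key
  rw [key]
  refine setIntegral_congr_fun measurableSet_box fun y _ => ?_
  have hdet : (L y).det = ∏ d, φ' d (y d) := by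
    rw [ContinuousLinearMap.det, ← LinearMap.det_toMatrix']
    rw [show LinearMap.toMatrix' (L y : R3 →ₗ[ℝ] R3) = Matrix.diagonal fun d => φ' d (y d) from ?_,
      Matrix.det_diagonal]
    ext i j
    simp [hL, LinearMap.toMatrix'_apply, Matrix.diagonal, Pi.single_apply]
  rw [hdet, abs_of_pos (Finset.prod_pos fun d _ => hpos d (y d)), smul_eq_mul]

theorem prod_mem (a : Fin 3 → ℝ) {e : ℝ} (he : e ≤ 1 / 8) (ha : ∀ d, |a d| ≤ e) :
    |∏ d, (1 + a d) - 1 - ∑ d, a d| ≤ 20 * e ^ 2 ∧ ∏ d, (1 + a d) ≤ 2 := by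
  have he0 : 0 ≤ e := (abs_nonneg _).trans (ha 0)
  have hm : ∀ i j, |a i * a j| ≤ e ^ 2 := fun i j => by
    rw [abs_mul, sq]; exact mul_le_mul (ha i) (ha j) (abs_nonneg _) he0
  have h3 : |a 0 * a 1 * a 2| ≤ e ^ 2 := by
    rw [abs_mul]
    exact (mul_le_of_le_one_right (abs_nonneg _) ((ha 2).trans (he.trans (by norm_num)))).trans
      (hm 0 1)
  have he2 : e ^ 2 ≤ 1 / 64 := by nlinarith
  obtain ⟨p1, q1⟩ := abs_le.1 (hm 0 1)
  obtain ⟨p2, q2⟩ := abs_le.1 (hm 0 2)
  obtain ⟨p3, q3⟩ := abs_le.1 (hm 1 2)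
  obtain ⟨p4, q4⟩ := abs_le.1 h3
  have e1 : ∏ d, (1 + a d) = 1 + (∑ d, a d) + (a 0 * a 1 + a 0 * a 2 + a 1 * a 2) +
      a 0 * a 1 * a 2 := by
    simp [Fin.prod_univ_three, Fin.sum_univ_three]; ring
  refine ⟨abs_le.2 ⟨by linarith, by linarith⟩, ?_⟩
  have := fun d => (abs_le.1 (ha d)).2
  rw [e1, Fin.sum_univ_three]
  linarith [this 0, this 1, this 2]

theorem sq_pair {a b e : ℝ} (he : e ≤ 1 / 8) (ha : |a| ≤ e) (hb : |b| ≤ e) :
    ((1 + a) * (1 + b)) ^ 2 ≤ 1 + 2 * (a + b) + 40 * e ^ 2 := by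
  have he0 : 0 ≤ e := (abs_nonneg a).trans ha
  have hab : |a * b| ≤ e ^ 2 := by
    rw [abs_mul, sq]; exact mul_le_mul ha hb (abs_nonneg _) he0
  have h1 : |a + b + a * b| ≤ 3 * e := by
    have : |a * b| ≤ e := hab.trans (by nlinarith)
    linarith [abs_add_three a b (a * b)]
  have h2 : (a + b + a * b) ^ 2 ≤ (3 * e) ^ 2 := sq_le_sq' (abs_le.1 h1).1 (abs_le.1 h1).2
  nlinarith [(abs_le.1 hab).2]

/-- The density of the energy after the variation, to first order. -/
theorem density_le (w a : Fin 3 → ℝ) {e : ℝ} (he : e ≤ 1 / 8) (ha : ∀ d, |a d| ≤ e) :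
    Real.sqrt (∑ i, (w i * ∏ j ∈ Finset.univ.erase i, (1 + a j)) ^ 2) ≤
      Real.sqrt (∑ i, w i ^ 2) +
        (∑ j, a j * (Real.sqrt (∑ i ∈ Finset.univ.erase j, w i ^ 2) ^ 2 /
          Real.sqrt (∑ i, w i ^ 2))) + 20 * e ^ 2 * Real.sqrt (∑ i, w i ^ 2) := by
  have hsum : ∀ j, ∑ i ∈ Finset.univ.erase j, w i ^ 2 = (∑ i, w i ^ 2) - w j ^ 2 := fun j =>
    Finset.sum_erase_eq_sub (Finset.mem_univ j)
  have hnn : ∀ j, 0 ≤ ∑ i ∈ Finset.univ.erase j, w i ^ 2 :=
    fun j => Finset.sum_nonneg fun i _ => sq_nonneg _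
  have hT : ∑ i, (w i * ∏ j ∈ Finset.univ.erase i, (1 + a j)) ^ 2 ≤
      (∑ i, w i ^ 2) + 2 * (∑ j, a j * ((∑ i, w i ^ 2) - w j ^ 2)) +
        40 * e ^ 2 * ∑ i, w i ^ 2 := by
    rw [show (Finset.univ : Finset (Fin 3)) = {0, 1, 2} from rfl]
    simp only [Finset.sum_insert, Finset.mem_insert, Finset.mem_singleton, Finset.sum_singleton,
      show (0 : Fin 3) ≠ 1 by decide, show (0 : Fin 3) ≠ 2 by decide, show (1 : Fin 3) ≠ 2 by decide,
      or_self, not_false_eq_true]
    rw [show ({0, 1, 2} : Finset (Fin 3)).erase 0 = {1, 2} by decide,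
      show ({0, 1, 2} : Finset (Fin 3)).erase 1 = {0, 2} by decide,
      show ({0, 1, 2} : Finset (Fin 3)).erase 2 = {0, 1} by decide]
    simp only [Finset.prod_pair (show (1 : Fin 3) ≠ 2 by decide),
      Finset.prod_pair (show (0 : Fin 3) ≠ 2 by decide),
      Finset.prod_pair (show (0 : Fin 3) ≠ 1 by decide), mul_pow (w _)]
    linarith [mul_le_mul_of_nonneg_left (sq_pair he (ha 1) (ha 2)) (sq_nonneg (w 0)),
      mul_le_mul_of_nonneg_left (sq_pair he (ha 0) (ha 2)) (sq_nonneg (w 1)),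
      mul_le_mul_of_nonneg_left (sq_pair he (ha 0) (ha 1)) (sq_nonneg (w 2))]
  simp only [Real.sq_sqrt (hnn _)]
  simp only [hsum]
  set W := ∑ i, w i ^ 2 with hW
  set T := ∑ i, (w i * ∏ j ∈ Finset.univ.erase i, (1 + a j)) ^ 2
  have hT0 : 0 ≤ T := Finset.sum_nonneg fun i _ => sq_nonneg _
  have hW0 : 0 ≤ W := Finset.sum_nonneg fun i _ => sq_nonneg _
  rcases hW0.eq_or_lt with h | h
  · have hw : ∀ i, w i = 0 := fun i => by
      have := (Finset.sum_eq_zero_iff_of_nonneg fun i _ => sq_nonneg (w i)).1 (hW ▸ h.symm) i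
        (Finset.mem_univ i)
      exact sq_eq_zero_iff.1 this
    have : T = 0 := by simp [T, hw]
    simp [this, ← h, hw]
  · set S := Real.sqrt W with hS
    have hS0 : 0 < S := Real.sqrt_pos.2 h
    have hS2 : S ^ 2 = W := Real.sq_sqrt h.le
    have h1 : Real.sqrt T * (2 * S) ≤ T + W := by
      nlinarith [sq_nonneg (Real.sqrt T - S), Real.sq_sqrt hT0]
    have e1 : ∑ j, a j * ((W - w j ^ 2) / S) = (∑ j, a j * (W - w j ^ 2)) / S := by
      rw [Finset.sum_div]; exact Finset.sum_congr rfl fun j _ => (mul_div_assoc _ _ _).symm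
    rw [e1]
    refine le_of_mul_le_mul_right ?_ (show 0 < 2 * S by linarith)
    calc Real.sqrt T * (2 * S) ≤ T + W := h1
      _ ≤ 2 * W + 2 * (∑ j, a j * (W - w j ^ 2)) + 40 * e ^ 2 * W := by linarith
      _ = _ := by rw [← hS2]; field_simp; ring

end Variation

open Variation

/-- The inner variation. -/
theorem variation : VariationSpec := by
  intro w hw g hg hg1 hg0 ε hε
  obtain ⟨L, hLw⟩ := hw.lipschitz
  have hmem := fun d t => slope_mem (hg1 d) hε t
  have hpos : ∀ d t, 0 < 1 + ε * g d t := fun d t => by linarith [(hmem d t).1]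
  choose ψ hl hψL hψm hψ0 hψ1 hψd using fun d => exists_inverse (hg d) (hg1 d) (hg0 d) hε
  set Ψ : R3 → R3 := fun x d => ψ d (x d) with hΨ
  set Φ : R3 → R3 := fun y d => phiAx (g d) ε (y d) with hΦ
  set w' : R3 → ℝ := fun x => w (Ψ x) with hw'def
  have hΨΦ : ∀ y, Ψ (Φ y) = y := fun y => funext fun d => hl d (y d)
  have hΨL : LipschitzWith 2 Ψ := LipschitzWith.of_dist_le_mul fun x y =>
    (dist_pi_le_iff (by positivity)).2 fun d => ((hψL d).dist_le_mul _ _).trans
      (mul_le_mul_of_nonneg_left (dist_le_pi_dist x y d) (NNReal.coe_nonneg 2))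
  have hΨbox : ∀ x ∈ box, Ψ x ∈ box := fun x hx =>
    ⟨fun d => (hψ0 d).ge.trans (hψm d (hx.1 d)), fun d => (hψm d (hx.2 d)).trans (hψ1 d).le⟩
  have hwL' : LipschitzWith (L * 2) w' := hLw.comp hΨL
  have hadm : Adm w' := ⟨⟨_, hwL'⟩, fun x => hw.mem _, fun x hx y hy h =>
    hw.anti _ (hΨbox x hx) _ (hΨbox y hy) fun d => hψm d (h d)⟩
  have hcv : ∀ F : R3 → ℝ,
      ∫ x in box, F x = ∫ y in box, (∏ d, (1 + ε * g d (y d))) * F (Φ y) := fun F =>
    integral_comp_axes (fun d t => hasDerivAt_phiAx (hg d) ε t) hpos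
      (fun d => by simp [phiAx]) (fun d => by simp [phiAx, hg0 d]) F
  have ha : ∀ (y : R3) d, |ε * g d (y d)| ≤ |ε| := fun y d => by
    rw [abs_mul]; exact mul_le_of_le_one_right (abs_nonneg _) (hg1 d (y d))
  have hprod : ∀ y : R3, |∏ d, (1 + ε * g d (y d)) - 1 - ∑ d, ε * g d (y d)| ≤ 20 * ε ^ 2 ∧
      ∏ d, (1 + ε * g d (y d)) ≤ 2 := fun y => by
    simpa only [sq_abs] using prod_mem (fun d => ε * g d (y d)) hε (ha y)
  have hprod0 : ∀ y : R3, 0 ≤ ∏ d, (1 + ε * g d (y d)) := fun y =>
    Finset.prod_nonneg fun d _ => (hpos d _).le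
  have hJm : Measurable fun y : R3 => ∏ d, (1 + ε * g d (y d)) :=
    (continuous_finsetProd _ fun d _ => continuous_const.add
      (continuous_const.mul ((hg d).comp (continuous_apply d)))).measurable
  -- the first order terms
  have hfub : ∀ (d : Fin 3) (f : R3 → ℝ) (C : ℝ), Measurable f → (∀ x, |f x| ≤ C) →
      ∫ x in box, g d (x d) * f x = ∫ t in (0 : ℝ)..1, g d t * planeInt f d t := by
    intro d f C hf hC
    rw [← Rigid.setIntegral_cell_eq_box, Rigid.integral_cell_eq_planeInt (f := fun x => g d (x d) * f x) (C := C)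
      (((hg d).comp (continuous_apply d)).measurable.mul hf) (fun x => ?_) d]
    · refine intervalIntegral.integral_congr fun t _ => ?_
      simp only [Rigid.planeInt, Rigid.facePoint_self, integral_const_mul]
    · rw [abs_mul]
      exact (mul_le_mul (hg1 d _) (hC x) (abs_nonneg _) zero_le_one).trans (one_mul C).le
  refine ⟨w', hadm, ?_, ?_, ?_⟩
  · -- energy
    have hgS := measurable_gradNorm w
    have hPm : ∀ d, Measurable fun x => gradPerp d w x ^ 2 / gradNorm w x := fun d =>
      ((Finset.measurable_sum _ fun i _ => (measurable_pd i w).pow_const 2).sqrt.pow_const 2).div hgS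
    have hPC : ∀ d x, |gradPerp d w x ^ 2 / gradNorm w x| ≤ 3 * L := fun d x => by
      have h0 := gradNorm_nonneg w x
      rw [abs_of_nonneg (div_nonneg (sq_nonneg _) h0)]
      refine le_trans ?_ (gradNorm_le hLw x)
      rcases h0.eq_or_lt with h | h
      · rw [← h, div_zero]
      rw [div_le_iff₀ h]
      have hp : gradPerp d w x ≤ gradNorm w x :=
        Real.sqrt_le_sqrt (Finset.sum_le_univ_sum_of_nonneg fun i => sq_nonneg _)
      rw [sq]
      exact mul_le_mul hp hp (Real.sqrt_nonneg _) h0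
    have hpt : ∀ᵐ y, (∏ d, (1 + ε * g d (y d))) * gradNorm w' (Φ y) ≤
        gradNorm w y + (∑ d, ε * g d (y d) * (gradPerp d w y ^ 2 / gradNorm w y)) +
          20 * ε ^ 2 * gradNorm w y := by
      filter_upwards [hLw.ae_differentiableAt (μ := volume)] with y hy
      have hΨd : HasFDerivAt Ψ (ContinuousLinearMap.pi fun d =>
          (1 + ε * g d (y d))⁻¹ • ContinuousLinearMap.proj d : R3 →L[ℝ] R3) (Φ y) :=
        hasFDerivAt_pi.2 fun d =>
          (hψd d (y d)).comp_hasFDerivAt (Φ y) (hasFDerivAt_apply d (Φ y))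
      have hwy : HasFDerivAt w (fderiv ℝ w y) (Ψ (Φ y)) := by rw [hΨΦ]; exact hy.hasFDerivAt
      have hpd : ∀ i, pd i w' (Φ y) = (1 + ε * g i (y i))⁻¹ * pd i w y := fun i => by
        simp only [pd]
        rw [hw'def, show (fun x => w (Ψ x)) = w ∘ Ψ from rfl, (hwy.comp (Φ y) hΨd).fderiv,
          ContinuousLinearMap.comp_apply,
          show (ContinuousLinearMap.pi fun d =>
            (1 + ε * g d (y d))⁻¹ • ContinuousLinearMap.proj d : R3 →L[ℝ] R3) (unit i) =
              (1 + ε * g i (y i))⁻¹ • unit i from ?_, map_smul, smul_eq_mul]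
        funext j
        by_cases h : j = i
        · subst h; simp [unit_apply]
        · simp [unit_apply, h]
      have e : (∏ d, (1 + ε * g d (y d))) * gradNorm w' (Φ y) =
          Real.sqrt (∑ i, (pd i w y * ∏ j ∈ Finset.univ.erase i, (1 + ε * g j (y j))) ^ 2) := by
        rw [gradNorm]
        conv_lhs => rw [← Real.sqrt_sq (hprod0 y)]
        rw [← Real.sqrt_mul (sq_nonneg _), Finset.mul_sum]
        congr 1
        refine Finset.sum_congr rfl fun i _ => ?_
        rw [hpd, ← Finset.mul_prod_erase _ _ (Finset.mem_univ i)]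
        field_simp [(hpos i (y i)).ne']
      rw [e]
      simpa only [sq_abs, gradNorm, gradPerp] using density_le (fun i => pd i w y) _ hε (ha y)
    have hS : IntegrableOn (gradNorm w) box := integrableOn_box hgS (3 * L) fun x _ => by
      rw [abs_of_nonneg (gradNorm_nonneg w x)]; exact gradNorm_le hLw x
    have hterm : ∀ d, IntegrableOn
        (fun y => ε * g d (y d) * (gradPerp d w y ^ 2 / gradNorm w y)) box := fun d =>
      integrableOn_box (((continuous_const.mul ((hg d).comp (continuous_apply d))).measurable).mul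
        (hPm d)) (|ε| * (3 * L)) fun y _ => by
        rw [abs_mul]
        exact mul_le_mul (ha y d) (hPC d y) (abs_nonneg _) (abs_nonneg _)
    have hsum : IntegrableOn
        (fun y => ∑ d, ε * g d (y d) * (gradPerp d w y ^ 2 / gradNorm w y)) box :=
      integrable_finsetSum _ fun d _ => hterm d
    calc energy w' = ∫ y in box, (∏ d, (1 + ε * g d (y d))) * gradNorm w' (Φ y) := hcv _
      _ ≤ ∫ y in box, (gradNorm w y + (∑ d, ε * g d (y d) * (gradPerp d w y ^ 2 / gradNorm w y)) +
          20 * ε ^ 2 * gradNorm w y) := by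
        refine integral_mono_ae ?_ ((hS.add hsum).add (hS.const_mul _)) (ae_restrict_of_ae hpt)
        refine integrableOn_box (hJm.mul ((measurable_gradNorm w').comp ?_))
          (2 * (3 * (L * 2 : ℝ≥0))) fun y _ => ?_
        · exact (continuous_pi fun d => (continuous_iff_continuousAt.2 fun t =>
            (hasDerivAt_phiAx (hg d) ε t).continuousAt).comp (continuous_apply d)).measurable
        · rw [abs_mul, abs_of_nonneg (hprod0 y), abs_of_nonneg (gradNorm_nonneg _ _)]
          exact mul_le_mul (hprod y).2 (gradNorm_le hwL' _) (gradNorm_nonneg _ _) two_pos.le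
      _ = _ := by
        rw [integral_add (hS.fun_add hsum) (hS.const_mul _), integral_add hS hsum,
          integral_finsetSum _ fun d _ => hterm d, integral_const_mul, Finset.mul_sum]
        simp only [mul_assoc ε, integral_const_mul, energy, stressAt,
          hfub _ _ _ (hPm _) (hPC _)]
  · -- volume
    have hw1 : ∀ x, |w x| ≤ 1 := fun x => Rigid.abs_le_one_of_mem (hw.mem x)
    have hwm : Measurable w := hLw.continuous.measurable
    have hwI : IntegrableOn w box := integrableOn_box hwm 1 fun x _ => hw1 x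
    have hJI : IntegrableOn (fun y => (∏ d, (1 + ε * g d (y d))) * w y) box :=
      integrableOn_box (hJm.mul hwm) 2 fun y _ => by
        rw [abs_mul, abs_of_nonneg (hprod0 y), ← mul_one (2 : ℝ)]
        exact mul_le_mul (hprod y).2 (hw1 y) (abs_nonneg _) two_pos.le
    have hterm : ∀ d, IntegrableOn (fun y => ε * g d (y d) * w y) box := fun d =>
      integrableOn_box (((continuous_const.mul ((hg d).comp (continuous_apply d))).measurable).mul
        hwm) 1 fun y _ => by
        rw [abs_mul]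
        exact mul_le_one₀ ((ha y d).trans (hε.trans (by norm_num))) (abs_nonneg _) (hw1 y)
    have hsum : IntegrableOn (fun y => ∑ d, ε * g d (y d) * w y) box :=
      integrable_finsetSum _ fun d _ => hterm d
    have e : vol w' - vol w - ε * ∑ d, ∫ t in (0 : ℝ)..1, g d t * areaAt w d t =
        ∫ y in box, (∏ d, (1 + ε * g d (y d)) - 1 - ∑ d, ε * g d (y d)) * w y := by
      simp only [sub_mul, one_mul, Finset.sum_mul]
      rw [integral_sub (hJI.fun_sub hwI) hsum, integral_sub hJI hwI,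
        integral_finsetSum _ fun d _ => hterm d, Finset.mul_sum]
      simp only [mul_assoc ε, integral_const_mul, hfub _ _ _ hwm hw1, areaAt, vol]
      rw [hcv w']
      simp only [hw'def, hΨΦ]
    rw [e]
    have hb : ∀ y ∈ box,
        ‖(∏ d, (1 + ε * g d (y d)) - 1 - ∑ d, ε * g d (y d)) * w y‖ ≤ 20 * ε ^ 2 := fun y _ => by
      rw [Real.norm_eq_abs, abs_mul]
      exact (mul_le_of_le_one_right (abs_nonneg _) (hw1 y)).trans (hprod y).1
    have := norm_setIntegral_le_of_norm_le_const (μ := volume)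
      (by simp [volume_box]) hb
    simpa [measureReal_def, volume_box] using this
  · -- defect
    have hm : ∀ x, w x * (1 - w x) ∈ Icc (0 : ℝ) 1 := fun x => Rigid.mul_one_sub_mem (hw.mem x)
    have hwm : Measurable fun x => w x * (1 - w x) :=
      (hLw.continuous.mul (continuous_const.sub hLw.continuous)).measurable
    rw [defect, defect, hcv, ← integral_const_mul]
    simp only [hw'def, hΨΦ]
    refine setIntegral_mono_on ?_ ((integrableOn_box hwm 1 fun x _ =>
      Rigid.abs_le_one_of_mem (hm x)).const_mul 2) measurableSet_box fun y _ =>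
        mul_le_mul_of_nonneg_right (hprod y).2 (hm y).1
    refine integrableOn_box (hJm.mul hwm) 2 fun y _ => ?_
    rw [abs_of_nonneg (mul_nonneg (hprod0 y) (hm y).1), ← mul_one (2 : ℝ)]
    exact mul_le_mul (hprod y).2 (hm y).2 (hm y).1 two_pos.le

end Vale.Agent.P232.Gap
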