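import Vale.Agent.P232.Gap.Build.FirstIntegral
import Vale.Agent.P232.Gap.Limit
import Vale.Agent.P232.Gap.Select
import Vale.Agent.P232.Gap.Stop
import Vale.Agent.P232.Gap.Variation

/-!
# P232 gap: `BuildSpec`
-/

noncomputable section

namespace Vale.Agent.P232.Gap

/-- A failure of the bound gives data, given the limit step. -/
theorem build_of_limit (hL : LimitSpec) : BuildSpec :=
  build_of select (firstIntegral variation stop) hL

/-- **BuildSpec.** -/
theorem build : BuildSpec := build_of_limit (limit sliceBound)

end Vale.Agent.P232.Gap
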