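import Vale.Agent.P232.Gap.Spec
import Vale.Agent.P232.Corner

/-!
# P232 gap, D2: the tube corner
-/

open MeasureTheory Set Filter
open scoped Real Topology

noncomputable section

namespace Vale.Agent.P232.Gap

/-- **D2.** -/
theorem corner : CornerSpec := by
  intro ε hε
  refine ⟨min (1 / 20000) (ε / 4), lt_min (by norm_num) (by positivity), ?_⟩
  intro D M h hV i j k hij hki hkj au aw hau haw hu hw
  have hη1 : min (1 / 20000 : ℝ) (ε / 4) ≤ 1 / 20000 := min_le_left _ _
  have hη2 : min (1 / 20000 : ℝ) (ε / 4) ≤ ε / 4 := min_le_right _ _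
  have hπ := Real.pi_gt_d6
  have hπ' := Real.pi_lt_d6
  have h1 : (318309 / 1000000 : ℝ) ≤ 1 / π := by rw [le_div_iff₀ Real.pi_pos]; linarith
  have h2 : 1 / π ≤ (318311 / 1000000 : ℝ) := by rw [div_le_iff₀ Real.pi_pos]; linarith
  obtain ⟨hv1, hv2⟩ := abs_lt.1 hV
  have hall : ∀ l, l = i ∨ l = j ∨ l = k := by
    obtain ⟨k', hk'i, hk'j, hall'⟩ := exists_third hij
    rcases hall' k with e | e | e
    · exact absurd e hki
    · exact absurd e hkj
    · exact e ▸ hall'
  refine le_trans (le_min ?_ (by linarith))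
    (Vale.Agent.P232.Corner.tube_corner h hij hki hkj hall hau haw hu hw (by linarith) (by linarith))
  rcases le_or_gt (1 - ε) 0 with h0 | h0
  · exact h0.trans (Real.sqrt_nonneg _)
  refine Real.le_sqrt_of_sq_le ?_
  have hp : π * (1 / π - ε / 4) ≤ π * boxVolume D :=
    mul_le_mul_of_nonneg_left (by linarith) Real.pi_pos.le
  rw [mul_sub, mul_one_div_cancel Real.pi_ne_zero] at hp
  nlinarith

end Vale.Agent.P232.Gap
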