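import Vale.Agent.P232.Gap.Kink.DataBand0
import Vale.Agent.P232.Gap.Kink.DataBand1

/-!
# P232 gap, the kink: the forbidden band of flux constants (`KinkBandSpec`)
-/

open scoped Real

noncomputable section

namespace Vale.Agent.P232.Gap

open Kink

/-- `KinkBandSpec` with strict inequality. -/
theorem kinkBand_lt {H C : ℝ} (hH0 : 21 / 20 ≤ H) (hH1 : H ≤ π / 2) (hC0 : 4 / 125 ≤ C)
    (hC1 : C ≤ 8 / 25 ∨ (H ≤ 11 / 10 ∧ C ≤ 167 / 500)) : 1 - H / π < C + phi H C := by
  suffices h : 1 - H / π ≤ C + phi H C ∧ (0 < H + C → 1 - H / π < C + phi H C) from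
    h.2 (by linarith)
  have hH2 : H ≤ 1647104 / 1048576 := by linarith [Real.pi_lt_d6]
  by_cases hC : C ≤ 335616 / 1048576
  · set x : ℝ := (H - 1100928 / 1048576) / ((1647104 - 1100928) / 1048576) with hx
    set y : ℝ := (C - 33536 / 1048576) / ((335616 - 33536) / 1048576) with hy
    have hx0 : 0 ≤ x := div_nonneg (by linarith) (by norm_num)
    have hy0 : 0 ≤ y := div_nonneg (by linarith) (by norm_num)
    have hx1 : x ≤ 1 := by rw [hx, div_le_one (by norm_num)]; linarith
    have hy1 : y ≤ 1 := by rw [hy, div_le_one (by norm_num)]; linarith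
    rcases le_or_gt (x + y) 1 with h | h
    · refine tree_sound band0 _ _ _ band0_ok (1 - x - y) x y H C (by linarith) hx0 hy0 (by ring)
        ?_ ?_
      · simp only [P.H, hx]; push_cast; ring
      · simp only [P.C, hy]; push_cast; ring
    · refine tree_sound band1 _ _ _ band1_ok (x + y - 1) (1 - x) (1 - y) H C (by linarith)
        (by linarith) (by linarith) (by ring) ?_ ?_
      · simp only [P.H, hx]; push_cast; ring
      · simp only [P.C, hy]; push_cast; ring
  · obtain ⟨hH3, hC3⟩ : H ≤ 11 / 10 ∧ C ≤ 167 / 500 := by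
      rcases hC1 with h | h
      · exact absurd (h.trans (by norm_num)) hC
      · exact h
    set x : ℝ := (H - 1100928 / 1048576) / ((1153536 - 1100928) / 1048576) with hx
    set y : ℝ := (C - 335616 / 1048576) / ((350336 - 335616) / 1048576) with hy
    have hx0 : 0 ≤ x := div_nonneg (by linarith) (by norm_num)
    have hy0 : 0 ≤ y := div_nonneg (by linarith) (by norm_num)
    have hx1 : x ≤ 1 := by rw [hx, div_le_one (by norm_num)]; linarith
    have hy1 : y ≤ 1 := by rw [hy, div_le_one (by norm_num)]; linarith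
    rcases le_or_gt (x + y) 1 with h | h
    · refine tree_sound band2 _ _ _ band2_ok (1 - x - y) x y H C (by linarith) hx0 hy0 (by ring)
        ?_ ?_
      · simp only [P.H, hx]; push_cast; ring
      · simp only [P.C, hy]; push_cast; ring
    · refine tree_sound band3 _ _ _ band3_ok (x + y - 1) (1 - x) (1 - y) H C (by linarith)
        (by linarith) (by linarith) (by ring) ?_ ?_
      · simp only [P.H, hx]; push_cast; ring
      · simp only [P.C, hy]; push_cast; ring

/-- **KinkBandSpec.** -/
theorem kinkBand : KinkBandSpec := fun _ _ h0 h1 h2 h3 => (kinkBand_lt h0 h1 h2 h3).le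

end Vale.Agent.P232.Gap
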