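import Vale.Agent.P232.Gap.Kink.DataLow

/-!
# P232 gap, the kink: small slopes (`KinkLowSpec`)
-/

open scoped Real

noncomputable section

namespace Vale.Agent.P232.Gap

open Kink

/-- `KinkLowSpec`, and strictly away from the origin. -/
theorem kinkLow_aux {H C : ℝ} (hH0 : 0 ≤ H) (hH1 : H ≤ 21 / 20) (hC0 : 0 ≤ C)
    (hC1 : C ≤ 2 / 3 - H / π) :
    1 - H / π ≤ C + phi H C ∧ (0 < H + C → 1 - H / π < C + phi H C) := by
  have hp : H * (1000000 / 3141593) ≤ H / π := by
    rw [div_eq_mul_one_div H π]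
    refine mul_le_mul_of_nonneg_left ?_ hH0
    rw [div_le_div_iff₀ (by norm_num) Real.pi_pos]
    linarith [Real.pi_lt_d6]
  set x : ℝ := H / (1101056 / 1048576) with hx
  set y : ℝ := C / (699136 / 1048576) with hy
  have hx0 : 0 ≤ x := by positivity
  have hy0 : 0 ≤ y := by positivity
  rcases le_or_gt (x + y) 1 with h | h
  · refine tree_sound low0 _ _ _ low0_ok (1 - x - y) x y H C (by linarith) hx0 hy0 (by ring) ?_ ?_
    · simp only [P.H, hx]; push_cast; ring
    · simp only [P.C, hy]; push_cast; ring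
  · have hx1 : x ≤ 1 := by rw [hx, div_le_one (by norm_num)]; linarith
    set e : ℝ := (C - (1 - x) * (699136 / 1048576)) / (348672 / 1048576) with he
    have he0 : 0 ≤ e := by
      refine div_nonneg ?_ (by norm_num)
      rw [hy] at h
      linarith [h, mul_le_mul_of_nonneg_left (le_refl (1 : ℝ)) hy0]
    have hex : e ≤ x := by
      rw [he, div_le_iff₀ (by norm_num), hx]
      linarith
    refine tree_sound low1 _ _ _ low1_ok e (1 - x) (x - e) H C he0 (by linarith) (by linarith)
      (by ring) ?_ ?_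
    · simp only [P.H, hx]; push_cast; ring
    · simp only [P.C, he]; push_cast; ring

/-- **KinkLowSpec.** -/
theorem kinkLow : KinkLowSpec := fun _ _ h0 h1 h2 h3 => (kinkLow_aux h0 h1 h2 h3).1

/-- `KinkLowSpec` with strict inequality away from `H = C = 0`. -/
theorem kinkLow_lt {H C : ℝ} (h0 : 0 ≤ H) (h1 : H ≤ 21 / 20) (h2 : 0 ≤ C)
    (h3 : C ≤ 2 / 3 - H / π) (h : 0 < H ∨ 0 < C) : 1 - H / π < C + phi H C :=
  (kinkLow_aux h0 h1 h2 h3).2 (by rcases h with h | h <;> linarith)

end Vale.Agent.P232.Gap
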