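import Vale.Agent.P232.Gap.Window

/-!
# P232 gap: the slab range
-/

open scoped Real

noncomputable section

namespace Vale.Agent.P232.Gap

/-- First integrals give the slab bound above the kink. -/
theorem slab : SlabSpec := by
  intro V p hV hV' G
  have hV0 : 0 < V := lt_of_lt_of_le (one_div_pos.2 Real.pi_pos) hV
  have hl : lmin V = 1 := lmin_eq_one hV
    (by have : 1 / π ≤ 1 / 2 := by gcongr; linarith [Real.pi_gt_three]
        linarith)
  rcases le_or_gt (lmin V - 0 * V) (G.C 0) with hd | hd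
  · exact hl ▸ G.lmin_le hd
  have h := G.calib 0
  rw [G.window hV0.le (by linarith) hd, phi_eq le_rfl (G.C_nonneg 0)] at h
  linarith [one_le_add_phiFun_zero (G.C_nonneg 0)]

/-- Equality above the kink: the data of the slab. -/
theorem slab_eq {V p : ℝ} (hV : 1 / π ≤ V) (hV' : V ≤ 1 / 2) (G : GapData V 0 p) (hp : p ≤ 1) :
    p = 1 ∧ ∃ k, G.C k = 0 ∧ G.α k = 0 ∧ ∀ l, l ≠ k → G.C l = 1 := by
  have hp1 : p = 1 := le_antisymm hp (slab V p hV hV' G)
  subst hp1
  have hV0 : 0 < V := lt_of_lt_of_le (one_div_pos.2 Real.pi_pos) hV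
  have hl : lmin V = 1 := lmin_eq_one hV
    (by have : 1 / π ≤ 1 / 2 := by gcongr; linarith [Real.pi_gt_three]
        linarith)
  have hle : ∀ d, G.C d ≤ 1 := fun d => by
    have h := G.calib d
    have := intervalIntegral.integral_nonneg (μ := MeasureTheory.volume)
      ((G.α_le d).trans (G.le_β d)) fun A _ => sd_nonneg 0 (G.C d) A
    linarith
  have hcase : ∀ d, G.C d = 0 ∨ G.C d = 1 := fun d => by
    rcases (hle d).eq_or_lt with h1 | h1
    · exact Or.inr h1
    rcases (G.C_nonneg d).eq_or_lt with h0 | h0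
    · exact Or.inl h0.symm
    have h := G.calib d
    rw [G.window hV0.le (by linarith) (by linarith), phi_eq le_rfl h0.le] at h
    linarith [one_lt_add_phiFun_zero h0 h1]
  have hs := G.sum_C
  rw [Fin.sum_univ_three] at hs
  obtain ⟨k, hk, hk'⟩ : ∃ k, G.C k = 0 ∧ ∀ l, l ≠ k → G.C l = 1 := by
    rcases hcase 0 with h0 | h0
    · exact ⟨0, h0, fun l hl => by fin_cases l <;> first | exact absurd rfl hl | (simp; linarith [hle 1, hle 2])⟩
    rcases hcase 1 with h1 | h1
    · exact ⟨1, h1, fun l hl => by fin_cases l <;> first | exact absurd rfl hl | (simp; linarith [hle 0, hle 2])⟩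
    exact ⟨2, by linarith, fun l hl => by
      fin_cases l <;> first | exact absurd rfl hl | assumption⟩
  refine ⟨rfl, k, hk, ?_, hk'⟩
  by_contra hne
  have ha : 0 < G.α k := lt_of_le_of_ne (G.α_nonneg k) (Ne.symm hne)
  have hT := G.end_α k
  linarith [lmin_pos ha (lt_of_le_of_lt (G.α_le k) (by linarith))]

end Vale.Agent.P232.Gap
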