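import Vale.Agent.P232.Gap.Window

/-!
# P232 gap: the tube range
-/

open scoped Real

noncomputable section

namespace Vale.Agent.P232.Gap

theorem belowKink {V H : ℝ} (hV : 1 / 4 ≤ V) (hV' : V ≤ 1 / π)
    (hH : H = Real.sqrt π / (2 * Real.sqrt V)) : BelowKink V (Real.sqrt (π * V)) H := by
  have hV0 : 0 < V := lt_of_lt_of_le (by norm_num) hV
  refine ⟨hV, hV', rfl, ?_⟩
  have hs : 0 < Real.sqrt V := Real.sqrt_pos.2 hV0
  rw [hH, Real.sqrt_mul Real.pi_nonneg, div_eq_div_iff (by positivity) (by positivity)]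
  linear_combination (-2 * Real.sqrt π) * Real.sq_sqrt hV0.le

theorem BelowKink.H_mul {V j H : ℝ} (h : BelowKink V j H) : H * V = j / 2 := by
  have := h.V_pos
  rw [h.hdef]; field_simp

/-- The bound below the kink, and the data in the case of equality. -/
theorem tube_cases {V H p : ℝ} (hV : 1 / 4 ≤ V) (hV' : V < 1 / π)
    (hH : H = Real.sqrt π / (2 * Real.sqrt V)) (G : GapData V H p) :
    Real.sqrt (π * V) < p ∨ ∃ k, Real.sqrt (π * V) - H * V ≤ G.C k := by
  have hπ3 := Real.pi_gt_three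
  have hV0 : 0 < V := lt_of_lt_of_le (by norm_num) hV
  have hV1 : V ≤ 1 := hV'.le.trans ((div_le_one Real.pi_pos).2 (by linarith))
  have hB := belowKink hV hV'.le hH
  set j := Real.sqrt (π * V)
  have hl : lmin V = j := lmin_eq_sqrt hV'.le
  by_cases hbig : ∃ d, lmin V - H * V ≤ G.C d
  · exact Or.inr (hl ▸ hbig)
  push_neg at hbig
  left
  have hw : ∀ d, ∫ A in G.α d..G.β d, sd H (G.C d) A = phiFun H (G.C d) := fun d => by
    rw [G.window hV0.le hV1 (hbig d), phi_eq hB.H_pos.le (G.C_nonneg d)]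
  by_cases hmid : ∃ d, 3 / 10 * (j / 2) ≤ G.C d
  · obtain ⟨d, hd⟩ := hmid
    have h := G.calib d
    have hlt := hbig d
    rw [hl, hB.H_mul] at hlt
    rw [hw, hB.H_mul] at h
    linarith [hB.lt_add_phiFun hd (by linarith)]
  push_neg at hmid
  have h := G.total
  simp only [hw, Fin.sum_univ_three] at h
  have hs := fun d => hB.phiFun_small (G.C_nonneg d) (hmid d).le
  linarith [hs 0, hs 1, hs 2, hB.j_pos]

/-- First integrals give the tube bound below the kink. -/
theorem tube : TubeSpec := by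
  intro V H p hV hV' hH G
  rcases tube_cases hV hV' hH G with h | ⟨k, hk⟩
  · exact h.le
  · rw [← lmin_eq_sqrt hV'.le] at hk ⊢
    exact G.lmin_le hk

/-- Equality below the kink: the data of the tube. -/
theorem tube_eq {V H p : ℝ} (hV : 1 / 4 ≤ V) (hV' : V < 1 / π)
    (hH : H = Real.sqrt π / (2 * Real.sqrt V)) (G : GapData V H p)
    (hp : p ≤ Real.sqrt (π * V)) :
    p = Real.sqrt (π * V) ∧ ∃ k, G.C k = Real.sqrt (π * V) - H * V ∧
      ∀ l, l ≠ k → G.C l = 0 ∧ G.α l = 0 := by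
  have hV0 : 0 < V := lt_of_lt_of_le (by norm_num) hV
  have hB := belowKink hV hV'.le hH
  set j := Real.sqrt (π * V) with hj
  obtain ⟨k, hk⟩ := (tube_cases hV hV' hH G).resolve_left (not_lt.2 hp)
  have hHV := hB.H_mul
  have hs := G.sum_C
  rw [hHV] at hk hs
  have hsum : ∀ l, l ≠ k → G.C k + G.C l ≤ ∑ d, G.C d := fun l hl =>
    (Finset.sum_pair hl.symm).symm.trans_le
      (Finset.sum_le_univ_sum_of_nonneg G.C_nonneg)
  have hone : G.C k ≤ ∑ d, G.C d :=
    Finset.single_le_sum (fun d _ => G.C_nonneg d) (Finset.mem_univ k)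
  rw [hHV]
  refine ⟨le_antisymm hp (by linarith), k, by linarith, fun l hl => ?_⟩
  have hCl : G.C l = 0 := le_antisymm (by linarith [hsum l hl]) (G.C_nonneg l)
  refine ⟨hCl, ?_⟩
  by_contra hne
  have ha : 0 < G.α l := lt_of_le_of_ne (G.α_nonneg l) (Ne.symm hne)
  have hT := G.end_α l
  rw [hCl, lmin_eq_sqrt ((G.α_le l).trans hV'.le)] at hT
  have hr : 0 < Real.sqrt (π * G.α l) := Real.sqrt_pos.2 (mul_pos Real.pi_pos ha)
  have hrj : Real.sqrt (π * G.α l) ≤ j :=
    Real.sqrt_le_sqrt (mul_le_mul_of_nonneg_left (G.α_le l) Real.pi_nonneg)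
  have hsq : Real.sqrt (π * G.α l) ^ 2 = π * G.α l :=
    Real.sq_sqrt (mul_nonneg Real.pi_nonneg ha.le)
  -- `√(π a) ≤ H a = π a / (2 j)`
  have h1 : H * G.α l = Real.sqrt (π * G.α l) ^ 2 / (2 * j) := by
    have key : ∀ a, H * a = j / (2 * V) * a := fun a => congrArg (· * a) hB.hdef
    rw [hsq, key, div_mul_eq_mul_div,
      div_eq_div_iff (mul_pos two_pos hV0).ne' (mul_pos two_pos hB.j_pos).ne']
    linear_combination (2 * G.α l) * hB.j_sq
  have h2 : Real.sqrt (π * G.α l) ^ 2 / (2 * j) ≤ Real.sqrt (π * G.α l) / 2 := by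
    rw [div_le_div_iff₀ (mul_pos two_pos hB.j_pos) two_pos, sq]
    linarith [mul_le_mul_of_nonneg_left hrj hr.le]
  linarith

end Vale.Agent.P232.Gap
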