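import Vale.Agent.P232.Gap.Kink
import Vale.Agent.P232.Gap.Tube
import Vale.Agent.P232.Gap.Slab
import Vale.Agent.P232.Gap.Corner
import Vale.Agent.P232.Gap.KinkBand
import Vale.Agent.P232.Gap.KinkLow
import Vale.Agent.P232.Gap.Build
import Vale.Agent.P232.Phase1.Bound
import Vale.Agent.P232.Phase1.Cover

/-!
# P232: the profile at every volume from the pieces of the gap proof
-/

open MeasureTheory Set Filter
open scoped Real Topology

noncomputable section

namespace Vale.Agent.P232.Gap

theorem gap_of (hBuild : BuildSpec) (hTube : TubeSpec) (hSlab : SlabSpec) (hKink : KinkSpec) :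
    GapSpec := by
  intro W hW
  by_contra hlt
  obtain ⟨V, hV, H, p, hs, hp, ⟨G⟩⟩ := hBuild ⟨W, hW, not_le.1 hlt⟩
  rcases hs with ⟨h1, hH⟩ | ⟨h1, hH⟩ | ⟨h1, hH0, hH1⟩
  · linarith [hTube V H p hV.1 h1 hH G, jrel_le_tube hV.2]
  · subst hH
    linarith [hSlab V p h1.le hV.2 G, jrel_le_one V]
  · subst h1
    linarith [hKink H p hH0 hH1 G, jrel_le_one (1 / π)]

/-- The gap bound from the piece still open. -/
theorem gap_of_open (hSplit : KinkSplitSpec) : GapSpec :=
  gap_of build tube slab (kink_of kinkLow kinkBand corner hSplit)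

/-- The profile of the cubic torus at every volume. -/
theorem profile_eq_of (hGap : GapSpec) {V : ℝ} (h0 : 0 < V) (h1 : V < 1) :
    profile V = ENNReal.ofReal (candidate V) := by
  by_cases hV : V < 13 / 50 ∨ 37 / 50 < V
  · exact Phase1.profile_eq_of_cover Phase1.Cover.coverSpec h0 h1 hV
  push_neg at hV
  exact le_antisymm (profile_le_candidate ⟨h0, h1⟩) (hGap V hV)

end Vale.Agent.P232.Gap
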