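import Vale.Agent.P232.UpperBound

/-!
# P232: the profile is attained once it equals the candidate
-/

open MeasureTheory Set
open scoped ENNReal Real

noncomputable section

namespace Vale.Agent.P232

/-- A minimiser exists at every volume where the profile is the candidate. -/
theorem exists_minimiser_of_profile {V : ℝ} (hV : V ∈ Ioo (0 : ℝ) 1)
    (h : profile V = ENNReal.ofReal (candidate V)) :
    ∃ E : Set R3, IsTorusSet E ∧ torusVolume E = V ∧ perimeter E = profile V := by
  have hv0 : 0 < min V (1 - V) := lt_min hV.1 (by linarith [hV.2])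
  have hv2 : min V (1 - V) ≤ 1 / 2 := by
    linarith [min_le_left V (1 - V), min_le_right V (1 - V)]
  have hset : ∀ P : ℝ, (∃ E, IsTorusSet E ∧ torusVolume E = min V (1 - V) ∧
      perimeter E ≤ ENNReal.ofReal P) →
      ∃ E, IsTorusSet E ∧ torusVolume E = V ∧ perimeter E ≤ ENNReal.ofReal P := by
    rintro P ⟨E, hE, hEv, hEP⟩
    rcases min_choice V (1 - V) with h' | h'
    · exact ⟨E, hE, hEv.trans h', hEP⟩
    · exact ⟨Eᶜ, hE.compl, by rw [hE.torusVolume_compl, hEv, h', sub_sub_cancel],
        hE.perimeter_compl_le.trans hEP⟩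
  obtain ⟨h1, h2, h3⟩ := exists_three_regions hv0 hv2
  obtain ⟨E, hE, hEv, hEP⟩ : ∃ E, IsTorusSet E ∧ torusVolume E = V ∧
      perimeter E ≤ ENNReal.ofReal (candidate V) := by
    refine hset _ ?_
    simp only [candidate]
    rcases min_choice (min ((36 * π) ^ ((1 : ℝ) / 3) * min V (1 - V) ^ ((2 : ℝ) / 3))
        (2 * Real.sqrt (π * min V (1 - V)))) 2 with e | e <;> rw [e]
    · rcases min_choice ((36 * π) ^ ((1 : ℝ) / 3) * min V (1 - V) ^ ((2 : ℝ) / 3))
          (2 * Real.sqrt (π * min V (1 - V))) with e | e <;> rw [e]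
      · exact h1
      · exact h2
    · exact h3
  exact ⟨E, hE, hEv, le_antisymm (hEP.trans h.ge)
    (iInf_le_of_le E (iInf_le_of_le hE (iInf_le_of_le hEv le_rfl)))⟩

end Vale.Agent.P232
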