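import Vale.Agent.P232.Gap.Spec
import Vale.Agent.P232.Rigid.SidePlanes

/-!
# P232 gap: statements of the pieces of `BuildSpec`

Everything is at finite stage: monotone Lipschitz functions on the cube with small defect
`∫ w (1 - w)`.  No level sets of competitors, no weak limits and no functions of bounded variation
are needed: the first integral holds in `L¹` along the sequence.
-/

open MeasureTheory Set Filter
open scoped NNReal Real Topology

noncomputable section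

namespace Vale.Agent.P232.Gap

open Rigid (planeInt gradPerp)

/-- Admissible functions: Lipschitz, values in `[0,1]`, decreasing on the cube. -/
structure Adm (w : R3 → ℝ) : Prop where
  lipschitz : ∃ L : ℝ≥0, LipschitzWith L w
  mem : ∀ x, w x ∈ Icc (0 : ℝ) 1
  anti : ∀ x ∈ box, ∀ y ∈ box, y ≤ x → w x ≤ w y

/-- The relative perimeter of a function. -/
def energy (w : R3 → ℝ) : ℝ := ∫ x in box, gradNorm w x

/-- The volume of a function. -/
def vol (w : R3 → ℝ) : ℝ := ∫ x in box, w x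

/-- The distance of a function from being an indicator. -/
def defect (w : R3 → ℝ) : ℝ := ∫ x in box, w x * (1 - w x)

/-- Area of the slice `x d = t`. -/
def areaAt (w : R3 → ℝ) (d : Fin 3) (t : ℝ) : ℝ := planeInt w d t

/-- Defect of the slice. -/
def defectAt (w : R3 → ℝ) (d : Fin 3) (t : ℝ) : ℝ := planeInt (fun x => w x * (1 - w x)) d t

/-- Energy density along the axis `d`. -/
def energyAt (w : R3 → ℝ) (d : Fin 3) (t : ℝ) : ℝ := planeInt (gradNorm w) d t

/-- Length of the slice. -/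
def perpAt (w : R3 → ℝ) (d : Fin 3) (t : ℝ) : ℝ := planeInt (gradPerp d w) d t

/-- The transverse stress density `∫ r² / |∇w|` (zero where the gradient vanishes). -/
def stressAt (w : R3 → ℝ) (d : Fin 3) (t : ℝ) : ℝ :=
  planeInt (fun x => gradPerp d w x ^ 2 / gradNorm w x) d t

/-- `m` bounds the deficit near `V`. -/
def Deficit (V m : ℝ) : Prop :=
  ∀ η : ℝ, 0 < η → ∃ κ : ℝ, 0 < κ ∧ ∀ w : R3 → ℝ, Adm w → |vol w - V| < 1 / 200 → defect w ≤ κ →
    jrel (vol w) - m - η ≤ energy w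

/-- A sequence of functions realising `(V, p)`. -/
structure MinSeq (V p : ℝ) (w : ℕ → R3 → ℝ) : Prop where
  adm : ∀ n, Adm (w n)
  vol_tendsto : Tendsto (fun n => vol (w n)) atTop (𝓝 V)
  defect_tendsto : Tendsto (fun n => defect (w n)) atTop (𝓝 0)
  energy_tendsto : Tendsto (fun n => energy (w n)) atTop (𝓝 p)

/-- What stationarity gives along a sequence: the first integrals and the cuts at both ends. -/
structure FirstIntegral (V H p : ℝ) (C : Fin 3 → ℝ) (w : ℕ → R3 → ℝ) : Prop where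
  sum_C : ∑ d, C d = 2 * p - 3 * (H * V)
  stress : ∀ d, Tendsto
    (fun n => ∫ t in (0 : ℝ)..1, |stressAt (w n) d t - (H * areaAt (w n) d t + C d)|) atTop (𝓝 0)
  stop_hi : ∀ d, ∀ η : ℝ, 0 < η → ∃ κ : ℝ, 0 < κ ∧ ∀ᶠ n in atTop,
    ∀ᵐ τ ∂(volume.restrict (Ioo (0 : ℝ) (1 / 400))), τ * defectAt (w n) d (1 - τ) ≤ κ →
      ∫ t in (1 - τ)..1, energyAt (w n) d t ≤ τ * perpAt (w n) d (1 - τ) +
        2 * (∫ t in (1 - τ)..1, |areaAt (w n) d t - areaAt (w n) d (1 - τ)|) + η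
  stop_lo : ∀ d, ∀ η : ℝ, 0 < η → ∃ κ : ℝ, 0 < κ ∧ ∀ᶠ n in atTop,
    ∀ᵐ τ ∂(volume.restrict (Ioo (0 : ℝ) (1 / 400))), τ * defectAt (w n) d τ ≤ κ →
      ∫ t in (0 : ℝ)..τ, energyAt (w n) d t ≤ τ * perpAt (w n) d τ +
        2 * (∫ t in (0 : ℝ)..τ, |areaAt (w n) d t - areaAt (w n) d τ|) + η

/-- Selection: a failure of the bound gives a volume of maximal deficit and a sequence. -/
def SelectSpec : Prop :=
  (∃ W ∈ Icc (13 / 50 : ℝ) (37 / 50), profile W < ENNReal.ofReal (candidate W)) →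
    ∃ (V m : ℝ) (w : ℕ → R3 → ℝ), V ∈ Icc (13 / 50 : ℝ) (1 / 2) ∧ 0 < m ∧ Deficit V m ∧
      MinSeq V (jrel V - m) w

/-- The inner variation along the three axes, with exact first order terms. -/
def VariationSpec : Prop :=
  ∀ w : R3 → ℝ, Adm w → ∀ g : Fin 3 → ℝ → ℝ, (∀ d, Continuous (g d)) → (∀ d t, |g d t| ≤ 1) →
    (∀ d, ∫ t in (0 : ℝ)..1, g d t = 0) → ∀ ε : ℝ, |ε| ≤ 1 / 8 →
      ∃ w' : R3 → ℝ, Adm w' ∧
        energy w' ≤ energy w + ε * (∑ d, ∫ t in (0 : ℝ)..1, g d t * stressAt w d t) +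
          20 * ε ^ 2 * energy w ∧
        |vol w' - vol w - ε * ∑ d, ∫ t in (0 : ℝ)..1, g d t * areaAt w d t| ≤ 20 * ε ^ 2 ∧
        defect w' ≤ 2 * defect w

/-- The two cuts: `w` extended constantly beyond a plane near either face. -/
def StopSpec : Prop :=
  ∀ w : R3 → ℝ, Adm w → ∀ d : Fin 3, ∀ᵐ τ ∂(volume.restrict (Ioo (0 : ℝ) 1)),
    (∃ w' : R3 → ℝ, Adm w' ∧
      energy w' ≤ (∫ t in (0 : ℝ)..(1 - τ), energyAt w d t) + τ * perpAt w d (1 - τ) ∧
      |vol w' - vol w| ≤ ∫ t in (1 - τ)..1, |areaAt w d t - areaAt w d (1 - τ)| ∧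
      defect w' ≤ defect w + τ * defectAt w d (1 - τ)) ∧
    ∃ w' : R3 → ℝ, Adm w' ∧
      energy w' ≤ (∫ t in τ..1, energyAt w d t) + τ * perpAt w d τ ∧
      |vol w' - vol w| ≤ ∫ t in (0 : ℝ)..τ, |areaAt w d t - areaAt w d τ| ∧
      defect w' ≤ defect w + τ * defectAt w d τ

/-- The planar bound on almost all slices. -/
def SliceBoundSpec : Prop :=
  ∀ η : ℝ, 0 < η → ∃ κ : ℝ, 0 < κ ∧ ∀ w : R3 → ℝ, Adm w → defect w ≤ κ → ∀ d : Fin 3,
    ∫ t in (0 : ℝ)..1, max 0 (lmin (areaAt w d t) - perpAt w d t) ≤ η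

/-- Stationarity along an arbitrary minimising sequence, after a subsequence (`m = 0` allowed). -/
def FirstIntegralSpec : Prop :=
  ∀ (V m : ℝ) (w : ℕ → R3 → ℝ), V ∈ Icc (13 / 50 : ℝ) (1 / 2) → Deficit V m →
    MinSeq V (jrel V - m) w →
      ∃ (σ : ℕ → ℕ) (H : ℝ) (C : Fin 3 → ℝ), StrictMono σ ∧ IsSlope V H ∧
        MinSeq V (jrel V - m) (fun n => w (σ n)) ∧
        FirstIntegral V H (jrel V - m) C (fun n => w (σ n))

/-- The limit: end areas, calibrations and sets. -/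
def LimitSpec : Prop :=
  ∀ (V H p : ℝ) (C : Fin 3 → ℝ) (w : ℕ → R3 → ℝ), 1 / 4 ≤ V → V ≤ 1 / 2 → IsSlope V H →
    MinSeq V p w → FirstIntegral V H p C w → Nonempty (GapData V H p)

/-- `BuildSpec` from selection, stationarity and limit. -/
theorem build_of (hS : SelectSpec) (hF : FirstIntegralSpec) (hL : LimitSpec) : BuildSpec := by
  intro h
  obtain ⟨V, m, w, hV, hm, hD, hw⟩ := hS h
  obtain ⟨σ, H, C, -, hH, hw', hC⟩ := hF V m w hV hD hw
  have h4 : (1 / 4 : ℝ) ≤ V := le_trans (by norm_num) hV.1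
  exact ⟨V, ⟨h4, hV.2⟩, H, jrel V - m, hH, by linarith, hL V H _ C _ h4 hV.2 hH hw' hC⟩

end Vale.Agent.P232.Gap
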