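import Vale.Agent.P232.Gap.FaceGap
import Vale.Agent.P232.Rigid.Phase1
import Vale.Agent.P232.Unfold

/-!
# P232: every minimiser at every volume, from the profile and the first integrals
-/

open MeasureTheory Set Filter
open scoped Real Topology

noncomputable section

namespace Vale.Agent.P232.Gap

/-- Classification at every volume. -/
theorem classified_of (hprof : ∀ V ∈ Ioo (0 : ℝ) 1, profile V = ENNReal.ofReal (candidate V))
    (hF : FirstIntegralSpec) (hD : LimitDataSpec) (hK : KinkEqSpec) (hC : CornerEqSpec) {V : ℝ}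
    (hV : V ∈ Ioo (0 : ℝ) 1) : Rigid.ClassifiedAt V := by
  rcases lt_or_ge (min V (1 - V)) (13 / 50) with h | h
  · exact Rigid.classified_phase1 hV.1 hV.2 h
  have hB : ∀ W ∈ Ioo (0 : ℝ) 1, ReducedBoundAt W := fun W hW =>
    reducedBoundAt_of_profile (hprof W hW).ge
  have hv : min V (1 - V) ∈ Ioo (0 : ℝ) 1 :=
    ⟨lt_min hV.1 (by linarith [hV.2]), (min_le_left _ _).trans_lt hV.2⟩
  exact Rigid.classifiedAt_of_face hV (eventually_of_mem (isOpen_Ioo.mem_nhds hv) hB)
    (faceSpec_gap Rigid.partialSymm Rigid.levelSel hB hF hD hK hC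
      ⟨h, by linarith [min_le_left V (1 - V), min_le_right V (1 - V)]⟩)

end Vale.Agent.P232.Gap
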