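import Vale.Agent.P232.Gap.FaceGap
import Vale.Agent.P232.Corner.Sides

/-!
# P232 gap: the equality case of the tube corner
-/

noncomputable section

namespace Vale.Agent.P232.Gap

theorem cornerEq : CornerEqSpec := fun _ε hε => Corner.tube_eq hε

end Vale.Agent.P232.Gap
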