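import Vale.Agent.P232.Gap.Flat
import Vale.Agent.P232.Gap.Tube
import Vale.Agent.P232.Gap.Slab
import Vale.Agent.P232.Rigid.Layers
import Vale.Agent.P232.Rigid.FaceStable
import Vale.Agent.P232.Rigid.Stable

/-!
# P232 gap: stability of faces from the first integrals

Along nearly optimal symmetric functions at `V ∈ [13/50, 1/2]` the first integrals force the far
faces of a tube or of a slab; at the kink the tube needs the planar corner facts.
-/

open MeasureTheory Set Filter
open scoped ENNReal NNReal Real Topology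

noncomputable section

namespace Vale.Agent.P232.Gap

open Rigid (planeInt half faceArea clampFun shapePerimeter FaceSpec PartialSpec LevelSpec endArea)
open Phase1 (endTop endBot)

/-- The limit data, with the far faces of the sequence below `α`. -/
def LimitDataSpec : Prop :=
  ∀ (V H p : ℝ) (C : Fin 3 → ℝ) (w : ℕ → R3 → ℝ), 1 / 4 ≤ V → V ≤ 1 / 2 → IsSlope V H →
    MinSeq V p w → FirstIntegral V H p C w →
      ∃ (s : ℕ → ℕ) (G : GapData V H p), StrictMono s ∧ G.C = C ∧
        ∀ d : Fin 3, ∀ η : ℝ, 0 < η → ∀ᶠ n in atTop, areaAt (w (s n)) d 1 ≤ G.α d + η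

/-- The equality cases at the kink. -/
def KinkEqSpec : Prop :=
  ∀ H : ℝ, 0 ≤ H → H ≤ π / 2 → ∀ G : GapData (1 / π) H 1,
    H = 0 ∨ ∃ k, ∀ l, l ≠ k → G.α l ≤ 339 / 1000000

/-- Near equality in the tube corner: the big direction is flat and the others are empty. -/
def CornerEqSpec : Prop :=
  ∀ ε : ℝ, 0 < ε → ∃ η : ℝ, 0 < η ∧ ∀ (D : Set R3) (M : ℝ), IsReduced D M →
    |boxVolume D - 1 / π| < η → M ≤ 1 + η →
      ∀ i j k : Fin 3, i ≠ j → k ≠ i → k ≠ j → ∀ a b au aw : ℝ,
        Tendsto (sliceArea D i j) (𝓝[<] 1) (𝓝 a) → Tendsto (sliceArea D i j) (𝓝[>] 0) (𝓝 b) →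
          Tendsto (sliceArea D k j) (𝓝[<] 1) (𝓝 au) → Tendsto (sliceArea D k i) (𝓝[<] 1) (𝓝 aw) →
            au ≤ 17 / 50000 → aw ≤ 17 / 50000 → b - a ≤ ε ∧ au ≤ ε ∧ aw ≤ ε

/-! ## The candidate on the gap -/

theorem candidate_of_tube {V : ℝ} (h1 : 13 / 50 ≤ V) (h2 : V ≤ 1 / π) :
    candidate V = 2 * Real.sqrt (π * V) := by
  have hπ := Real.pi_pos
  have hπ1 := Real.pi_lt_d4
  have hπ2 := Real.pi_gt_three
  have hV2 : V ≤ 1 / 2 := h2.trans (by rw [div_le_iff₀ hπ]; linarith)
  have hs : Real.sqrt (π * V) ≤ 1 := Real.sqrt_le_one.2 (by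
    rw [le_div_iff₀ hπ] at h2; linarith)
  have hball : 2 * Real.sqrt (π * V) ≤ (36 * π) ^ ((1 : ℝ) / 3) * V ^ ((2 : ℝ) / 3) := by
    refine le_of_pow_le_pow_left₀ (n := 6) (by norm_num) (by positivity) ?_
    rw [mul_pow, mul_pow, ← Real.rpow_natCast ((36 * π) ^ _), ← Real.rpow_mul (by positivity),
      ← Real.rpow_natCast (V ^ ((2 : ℝ) / 3)), ← Real.rpow_mul (by linarith),
      show Real.sqrt (π * V) ^ 6 = (Real.sqrt (π * V) ^ 2) ^ 3 by ring,
      Real.sq_sqrt (by positivity)]
    norm_num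
    nlinarith [mul_pos (pow_pos hπ 2) (pow_pos (lt_of_lt_of_le (by norm_num) h1) 3)]
  rw [candidate, min_eq_left (by linarith : V ≤ 1 - V), min_eq_right hball, min_eq_left]
  linarith

theorem candidate_of_slab {V : ℝ} (h1 : 1 / π ≤ V) (h2 : V ≤ 1 / 2) : candidate V = 2 := by
  have hπ := Real.pi_pos
  have hπ1 := Real.pi_lt_d4
  have hV0 : 13 / 50 ≤ V := le_trans (by rw [le_div_iff₀ hπ]; linarith) h1
  have hs : 1 ≤ Real.sqrt (π * V) := by
    rw [Real.one_le_sqrt]
    rw [div_le_iff₀ hπ] at h1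
    linarith
  have hball : 2 * Real.sqrt (π * V) ≤ (36 * π) ^ ((1 : ℝ) / 3) * V ^ ((2 : ℝ) / 3) := by
    refine le_of_pow_le_pow_left₀ (n := 6) (by norm_num) (by positivity) ?_
    rw [mul_pow, mul_pow, ← Real.rpow_natCast ((36 * π) ^ _), ← Real.rpow_mul (by positivity),
      ← Real.rpow_natCast (V ^ ((2 : ℝ) / 3)), ← Real.rpow_mul (by linarith),
      show Real.sqrt (π * V) ^ 6 = (Real.sqrt (π * V) ^ 2) ^ 3 by ring,
      Real.sq_sqrt (by positivity)]
    norm_num
    nlinarith [mul_pos (pow_pos hπ 2) (pow_pos (lt_of_lt_of_le (by norm_num) hV0) 3)]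
  rw [candidate, min_eq_left (by linarith : V ≤ 1 - V), min_eq_right]
  exact le_min (by linarith) (by linarith)

/-! ## No deficit once the profile is known -/

theorem deficit_zero (hL : LevelSpec) (hB : ∀ W ∈ Ioo (0 : ℝ) 1, ReducedBoundAt W) {V : ℝ}
    (hV : V ∈ Icc (1 / 4 : ℝ) (1 / 2)) : Deficit V 0 := by
  intro η hη
  obtain ⟨r, hr, hr'⟩ := Metric.uniformContinuousOn_iff.1
    (isCompact_Icc.uniformContinuousOn_of_continuous (continuous_candidate.continuousOn
      (s := Icc (0 : ℝ) 1))) (η / 2) (half_pos hη)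
  set δ := min (1 / 4) (η / 8) with hδ
  have hδ0 : 0 < δ := lt_min (by norm_num) (by positivity)
  have hδ4 : δ ≤ 1 / 4 := min_le_left _ _
  have hδη : δ ≤ η / 8 := min_le_right _ _
  refine ⟨δ * min r (1 / 100) / 2, by positivity, fun w hw hvol hdef => ?_⟩
  obtain ⟨L, hLw⟩ := hw.lipschitz
  have hE0 : 0 ≤ energy w := setIntegral_nonneg measurableSet_box fun x _ => gradNorm_nonneg w x
  have hlev : ∀ t, δ ≤ t → t ≤ 1 - δ →
      |boxVolume (box ∩ {x | t < w x}) - vol w| ≤ min r (1 / 100) / 2 := fun t h1 h2 => by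
    refine (Rigid.abs_level_sub_integral (μ := volume) (K := box) (by simp [volume_box])
      hLw.continuous.measurable hw.mem hδ0 h1 h2).trans ?_
    rw [div_le_iff₀ hδ0]
    calc (∫ x in box, w x * (1 - w x)) ≤ δ * min r (1 / 100) / 2 := hdef
      _ = min r (1 / 100) / 2 * δ := by ring
  obtain ⟨s, hs, hred⟩ := hL L w hLw hw.mem hw.anti δ 0 δ (1 - δ) hδ0 le_rfl (by linarith)
    le_rfl le_rfl fun t _ M hM => by
      have := hM.bound (fun _ _ => 0) (fun _ => contDiff_const) (fun _ _ => by simp)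
      simpa [flux, divergence, pd] using this
  rw [zero_mul, sub_zero] at hred
  have hv := hlev s hs.1.le hs.2.le
  have hvW := abs_lt.1 hvol
  have hv' := abs_le.1 hv
  have hW : boxVolume (box ∩ {x | s < w x}) ∈ Ioo (0 : ℝ) 1 := by
    have : min r (1 / 100) ≤ 1 / 100 := min_le_right _ _
    constructor <;> linarith [hV.1, hV.2]
  have h1 := hB _ hW _ _ hred rfl
  have hd : dist (boxVolume (box ∩ {x | s < w x})) (vol w) < r := by
    rw [Real.dist_eq]
    linarith [min_le_left r (1 / 100)]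
  have h2 := hr' _ (Ioo_subset_Icc_self hW) (vol w)
    ⟨by linarith [hV.1], by linarith [hV.2]⟩ hd
  rw [Real.dist_eq, abs_lt] at h2
  have hc : candidate (vol w) ≤ 2 := min_le_right _ _
  rw [← mul_div_assoc, le_div_iff₀ (by linarith)] at h1
  have hcW : candidate (boxVolume (box ∩ {x | s < w x})) ≤ 2 := min_le_right _ _
  have : candidate (boxVolume (box ∩ {x | s < w x})) * (1 - δ - δ) ≥
      candidate (boxVolume (box ∩ {x | s < w x})) - 4 * δ := by
    nlinarith
  simp only [jrel, energy, sub_zero] at *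
  linarith

/-! ## A layer of a failing sequence -/

theorem trace_eq {L : ℝ≥0} {g : R3 → ℝ} (hg : g ∈ lipClass L) (hsd : IsSymmDecreasing g)
    (d : Fin 3) : areaAt (half g) d 1 = planeInt g d (1 / 2) := by
  rw [Rigid.planeInt_face hg hsd (φ := fun r => r) continuous_id d]
  rfl

theorem faceSpec_gap (hP : PartialSpec) (hL : LevelSpec)
    (hB : ∀ W ∈ Ioo (0 : ℝ) 1, ReducedBoundAt W) (hF : FirstIntegralSpec) (hD : LimitDataSpec)
    (hK : KinkEqSpec) (hC : CornerEqSpec) {V : ℝ} (hV : V ∈ Icc (13 / 50 : ℝ) (1 / 2)) :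
    FaceSpec V := by
  intro p q hp hpq hq η₀ hη₀
  by_contra hcon
  push_neg at hcon
  have hπ := Real.pi_pos
  have hπ3 := Real.pi_gt_three
  have hV14 : (1 / 4 : ℝ) ≤ V := le_trans (by norm_num) hV.1
  have hV0 : 0 < V := by linarith
  have hV1 : V ≤ 1 := by linarith [hV.2]
  have hV01 : V ∈ Ioo (0 : ℝ) 1 := ⟨hV0, by linarith [hV.2]⟩
  have hev : ∀ᶠ W in 𝓝 V, ReducedBoundAt W := eventually_of_mem (isOpen_Ioo.mem_nhds hV01) hB
  set m := (p + q) / 2 with hm
  have hpm : p < m := by linarith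
  have hmq : m < q := by linarith
  choose L w hw hsd hA hQ hE hfail using fun n : ℕ =>
    hcon (1 / ((n : ℝ) + 1)) (by positivity)
  have hone : Tendsto (fun n : ℕ => 1 / ((n : ℝ) + 1)) atTop (𝓝 0) :=
    tendsto_one_div_add_atTop_nhds_zero_nat
  set g : ℕ → R3 → ℝ := fun n x => clampFun p m (w n x) with hg
  have hgm : ∀ n, g n ∈ lipClass (Real.toNNReal (1 / (m - p)) * L n) := fun n =>
    Rigid.mem_clamp hpm (hw n)
  have hgs : ∀ n, IsSymmDecreasing (g n) := fun n => Rigid.symm_clamp hpm (hsd n)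
  set W : ℕ → R3 → ℝ := fun n => half (g n) with hW
  have hWadm : ∀ n, Adm (W n) := fun n =>
    ⟨⟨_, (Rigid.lipClass_half (hgm n)).1⟩, (Rigid.lipClass_half (hgm n)).2,
      Rigid.half_antitone (hgs n)⟩
  have hvol : ∀ n, vol (W n) = ∫ x in cell, g n x := fun n =>
    Rigid.integral_box_half_comp (hgm n) (hgs n) (φ := fun r => r) continuous_id
  have hdef : ∀ n, defect (W n) = ∫ x in cell, g n x * (1 - g n x) := fun n =>
    Rigid.integral_box_half_comp (hgm n) (hgs n) (φ := fun r => r * (1 - r)) (by fun_prop)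
  have hen : ∀ n, energy (W n) = (∫ x in cell, gradNorm (g n) x) / 2 := fun n =>
    Rigid.integral_gradNorm_half (hgm n) (hgs n)
  have hlayer : ∀ ε : ℝ, 0 < ε → ∀ᶠ n in atTop, |vol (W n) - V| < ε ∧ defect (W n) < ε ∧
      energy (W n) ≤ jrel V + ε := fun ε hε => by
    obtain ⟨δ, hδ, h⟩ := Rigid.layer_spec hP hV0.le hV1 hev hp hpm (hmq.trans hq) hε
    filter_upwards [hone.eventually (eventually_lt_nhds hδ)] with n hn
    obtain ⟨e1, e2, e3⟩ := h (L n) (w n) (hw n) ((hA n).trans hn) ((hQ n).trans hn)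
      ((hE n).trans (by linarith))
    rw [hvol, hdef, hen]
    exact ⟨e1, e2, by simp only [jrel]; linarith⟩
  have hdefz : Deficit V 0 := deficit_zero hL hB ⟨hV14, hV.2⟩
  have hvolT : Tendsto (fun n => vol (W n)) atTop (𝓝 V) := Metric.tendsto_nhds.2 fun ε hε => by
    filter_upwards [hlayer ε hε] with n hn
    rw [Real.dist_eq]; exact hn.1
  have hdefT : Tendsto (fun n => defect (W n)) atTop (𝓝 0) := Metric.tendsto_nhds.2 fun ε hε => by
    filter_upwards [hlayer ε hε] with n hn
    have h0 : 0 ≤ defect (W n) := setIntegral_nonneg measurableSet_box fun x _ =>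
      mul_nonneg ((hWadm n).mem x).1 (sub_nonneg.2 ((hWadm n).mem x).2)
    rw [Real.dist_eq, sub_zero, abs_of_nonneg h0]
    exact hn.2.1
  have hMS : MinSeq V (jrel V - 0) W := ⟨hWadm, hvolT, hdefT, by
    refine Metric.tendsto_nhds.2 fun ε hε => ?_
    obtain ⟨κ, hκ, hlow⟩ := hdefz (ε / 4) (by positivity)
    obtain ⟨r, hr, hr'⟩ := Metric.continuous_iff.1 continuous_candidate V (ε / 4) (by positivity)
    filter_upwards [hlayer (ε / 2) (half_pos hε), hlayer r hr, hlayer κ hκ,
      hlayer (1 / 200) (by norm_num)] with n h1 h2 h3 h4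
    have e1 := hlow (W n) (hWadm n) h4.1 h3.2.1.le
    have e2 := hr' (vol (W n)) (by rw [Real.dist_eq]; exact h2.1)
    rw [Real.dist_eq, abs_lt] at e2
    rw [Real.dist_eq, sub_zero, abs_lt]
    simp only [jrel] at e1 h1 ⊢
    constructor <;> linarith [h1.2.2]⟩
  obtain ⟨σ, H, C, hσ, hH, hMS', hFI⟩ := hF V 0 W hV hdefz hMS
  obtain ⟨s, G, hs, hGC, hGα⟩ := hD V H _ C _ hV14 hV.2 hH hMS' hFI
  have hφ : StrictMono fun n => σ (s n) := hσ.comp hs
  have htr : ∀ n d, faceArea (w n) d m ≤ areaAt (W n) d 1 ∧ areaAt (W n) d 1 ≤ faceArea (w n) d p :=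
    fun n d => by
      rw [hW, trace_eq (hgm n) (hgs n) d]
      exact Rigid.trace_layer hpm (hw n) (hsd n) d
  have hqm : ∀ n d, faceArea (w n) d q ≤ faceArea (w n) d m := fun n d =>
    measureReal_mono (inter_subset_inter_right _ fun y hy => hmq.trans hy)
      (ne_top_of_le_ne_top (by simp [volume_square]) (measure_mono inter_subset_left))
  have hflat : ∀ d, H * V + G.C d = jrel V - 0 →
      Tendsto (fun n => areaAt (W (σ (s n))) d 1) atTop (𝓝 V) := fun d hd =>
    (flat_trace hMS' hFI d (by rwa [← hGC])).comp hs.tendsto_atTop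
  -- a shape with the right perimeter and the matching traces is a contradiction
  have finish : ∀ S : Finset (Fin 3), S.Nonempty → shapePerimeter S.card V = candidate V →
      (∀ i ∈ S, G.α i = 0) → (∀ i, i ∉ S → H * V + G.C i = jrel V - 0) → False := by
    intro S hSne hSper hin hout
    have key : ∀ᶠ n in atTop, ∀ i,
        faceArea (w (σ (s n))) i q < (if i ∈ S then 0 else V) + η₀ ∧
          (if i ∈ S then 0 else V) - η₀ < faceArea (w (σ (s n))) i p := by
      refine eventually_all.2 fun i => ?_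
      by_cases hi : i ∈ S
      · filter_upwards [hGα i (η₀ / 2) (half_pos hη₀)] with n hn
        simp only [if_pos hi]
        rw [hin i hi, zero_add] at hn
        exact ⟨by linarith [(htr (σ (s n)) i).1, hqm (σ (s n)) i],
          by linarith [show (0:ℝ) ≤ faceArea (w (σ (s n))) i p from measureReal_nonneg]⟩
      · filter_upwards [(hflat i (hout i hi)).eventually (Metric.ball_mem_nhds V hη₀)] with n hn
        rw [Real.dist_eq, abs_lt] at hn
        simp only [if_neg hi]
        exact ⟨by linarith [(htr (σ (s n)) i).1, hqm (σ (s n)) i, hn.2],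
          by linarith [(htr (σ (s n)) i).2, hn.1]⟩
    obtain ⟨n, hn⟩ := key.exists
    obtain ⟨i, hi⟩ := hfail (σ (s n)) S hSne hSper
    exact absurd (hn i).2 (not_lt.2 (hi (hn i).1))
  have slabCase : 1 / π ≤ V → H = 0 → False := by
    intro h1 hH0
    subst hH0
    obtain ⟨-, k, hk, hkα, hl⟩ := slab_eq h1 hV.2 G (by rw [jrel, candidate_of_slab h1 hV.2]; norm_num)
    refine finish {k} (Finset.singleton_nonempty k) ?_ (fun i hi => ?_) fun i hi => ?_
    · rw [Finset.card_singleton, candidate_of_slab h1 hV.2]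
      simp [shapePerimeter]
    · rw [Finset.mem_singleton.1 hi]; exact hkα
    · rw [hl i (by simpa using hi), jrel, candidate_of_slab h1 hV.2]
      ring
  rcases hH with ⟨h1, hH1⟩ | ⟨h1, hH1⟩ | ⟨h1, hH0, hH2⟩
  · have hj : jrel V - 0 = Real.sqrt (π * V) := by
      rw [jrel, candidate_of_tube hV.1 h1.le]; ring
    obtain ⟨-, k, hk, hl⟩ := tube_eq hV14 h1 hH1 G hj.le
    refine finish (Finset.univ.erase k) (Finset.card_pos.1 (by simp)) ?_
      (fun i hi => (hl i (Finset.ne_of_mem_erase hi)).2) fun i hi => ?_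
    · rw [Finset.card_erase_of_mem (Finset.mem_univ k), candidate_of_tube hV.1 h1.le]
      simp [shapePerimeter]
    · have : i = k := by simpa using hi
      rw [this, hk, hj]; ring
  · exact slabCase h1.le hH1
  · subst h1
    by_cases hH' : H = 0
    · exact slabCase le_rfl hH'
    have hcand : candidate (1 / π) = 2 := candidate_of_slab le_rfl hV.2
    have hp1 : jrel (1 / π) - 0 = 1 := by rw [jrel, hcand]; norm_num
    obtain ⟨k, hk⟩ : ∃ k, ∀ l, l ≠ k → G.α l ≤ 339 / 1000000 := by
      have : ∀ (p' : ℝ) (G' : GapData (1 / π) H p'), p' = 1 →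
          ∃ k, ∀ l, l ≠ k → G'.α l ≤ 339 / 1000000 := fun p' G' hp' => by
        subst hp'
        exact (hK H hH0 hH2 G').resolve_left hH'
      exact this _ G hp1
    obtain ⟨i, j, hij, hki, hkj⟩ : ∃ i j : Fin 3, i ≠ j ∧ k ≠ i ∧ k ≠ j := by
      fin_cases k
      exacts [⟨1, 2, by decide⟩, ⟨0, 2, by decide⟩, ⟨0, 1, by decide⟩]
    obtain ⟨η', hη', hcor⟩ := hC (η₀ / 3) (by positivity)
    obtain ⟨δ, hδ, hlev⟩ := Rigid.level_set hL hV0.le hV1 hev (p := m) (q := q) (by linarith) hmq hq
      (lt_min hη' (show 0 < η₀ / 3 by positivity))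
    have e := hσ.comp hs
    obtain ⟨n, ⟨ha1, ha2⟩, hn⟩ := (((hGα i (1 / 1000000) (by norm_num)).and
      (hGα j (1 / 1000000) (by norm_num))).and
        ((hone.comp e.tendsto_atTop).eventually (eventually_lt_nhds hδ))).exists
    simp only [Function.comp_apply] at hn
    set N := σ (s n) with hN
    obtain ⟨D, M, hDr, hDv, hDM, hends⟩ := hlev (L N) (w N) (hw N) (hsd N) ((hA N).trans hn)
      ((hQ N).trans hn) ((hE N).trans (by linarith))
    have hdown := hDr.down
    have hiαl : G.α i ≤ 339 / 1000000 := hk i hki.symm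
    have hjαl : G.α j ≤ 339 / 1000000 := hk j hkj.symm
    have ei : endArea D i = endTop D k j :=
      Rigid.endArea_eq_endTop hdown hDr.measurable hkj hki.symm hij
    have ej : endArea D j = endTop D k i :=
      Rigid.endArea_eq_endTop hdown hDr.measurable hki hkj.symm hij.symm
    have ek : endArea D k = endTop D i j :=
      Rigid.endArea_eq_endTop hdown hDr.measurable hij hki hkj
    have hui : endArea D i ≤ 17 / 50000 := by linarith [(hends i).2, (htr N i).1]
    have huj : endArea D j ≤ 17 / 50000 := by linarith [(hends j).2, (htr N j).1]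
    have hmin1 := min_le_left η' (η₀ / 3)
    have hmin2 := min_le_right η' (η₀ / 3)
    obtain ⟨hflatD, hau, haw⟩ := hcor D M hDr (hDv.trans_le hmin1) (by rw [hcand] at hDM; linarith)
      i j k hij hki hkj _ _ _ _ (Phase1.tendsto_ends hdown).1 (Phase1.tendsto_ends hdown).2
      (Phase1.tendsto_ends hdown).1 (Phase1.tendsto_ends hdown).1 (ei ▸ hui) (ej ▸ huj)
    rw [← ei] at hau
    rw [← ej] at haw
    have hvolD := boxVolume_eq hdown hDr.subset hDr.measurable hij
    have hint : IntervalIntegrable (sliceArea D i j) volume 0 1 :=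
      (antitone_sliceArea hdown).intervalIntegrable
    have hbot : boxVolume D ≤ endBot D i j := by
      rw [hvolD]
      refine le_trans (intervalIntegral.integral_mono_on_of_le_Ioo zero_le_one hint
        intervalIntegrable_const fun z hz => (Phase1.sliceArea_mem_ends hdown hz).2)
        (le_of_eq (by simp))
    have htop : endTop D i j ≤ boxVolume D := by
      rw [hvolD]
      refine le_trans (le_of_eq (by simp)) (intervalIntegral.integral_mono_on_of_le_Ioo zero_le_one
        intervalIntegrable_const hint fun z hz => (Phase1.sliceArea_mem_ends hdown hz).1)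
    have hDv' := abs_lt.1 hDv
    have hall : ∀ l, l = i ∨ l = j ∨ l = k := fun l => by
      obtain ⟨k', hk'i, hk'j, h⟩ := exists_third hij
      have hkk : k = k' := by rcases h k with e | e | e <;> simp_all
      rw [hkk]; exact h l
    obtain ⟨l, hl⟩ := hfail N (Finset.univ.erase k) (Finset.card_pos.1 (by simp)) (by
      rw [Finset.card_erase_of_mem (Finset.mem_univ k), hcand]
      simp [shapePerimeter, mul_inv_cancel₀ hπ.ne'])
    have hmp : faceArea (w N) l m ≤ faceArea (w N) l p :=
      (htr N l).1.trans (htr N l).2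
    have h0 : 0 ≤ faceArea (w N) l p := measureReal_nonneg
    have hq' := (hends l).1
    have hm' := (hends l).2
    rcases hall l with rfl | rfl | rfl
    · simp only [Finset.mem_erase, Finset.mem_univ, and_true, ne_eq, hki.symm, not_false_eq_true,
        if_true] at hl
      linarith [hl (by linarith)]
    · simp only [Finset.mem_erase, Finset.mem_univ, and_true, ne_eq, hkj.symm, not_false_eq_true,
        if_true] at hl
      linarith [hl (by linarith)]
    · simp only [Finset.mem_erase, ne_eq, not_true, false_and, if_false] at hl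
      rw [ek] at hq' hm'
      linarith [hl (by linarith)]

end Vale.Agent.P232.Gap
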