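import Vale.Agent.P232.Gap.Window

/-!
# P232 gap: elementary facts for the assembly
-/

open MeasureTheory Set Filter
open scoped Real Topology

noncomputable section

namespace Vale.Agent.P232.Gap

theorem jrel_le_tube {V : ℝ} (hV : V ≤ 1 / 2) : jrel V ≤ Real.sqrt (π * V) := by
  have : candidate V ≤ 2 * Real.sqrt (π * min V (1 - V)) :=
    (min_le_left _ _).trans (min_le_right _ _)
  rw [min_eq_left (by linarith : V ≤ 1 - V)] at this
  unfold jrel; linarith

theorem lmin_inv_pi : lmin (1 / π) = 1 := by
  have h : π * (1 / π) = 1 := by field_simp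
  have h2 : (1 : ℝ) ≤ π * (1 - 1 / π) := by
    rw [mul_sub, h]; linarith [Real.pi_gt_three]
  unfold lmin
  rw [h, Real.sqrt_one, min_self, min_eq_left (Real.one_le_sqrt.2 h2)]

end Vale.Agent.P232.Gap
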