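import Vale.Agent.P232.Gap.BuildDefs
import Vale.Agent.P232.Rigid.SideGradient

/-!
# P232 gap: a direction carrying all the energy as transverse stress is flat
-/

open MeasureTheory Set Filter
open scoped NNReal Real Topology

noncomputable section

namespace Vale.Agent.P232.Gap

open Rigid (planeInt gradPerp)

variable {w : R3 → ℝ} {d : Fin 3}

theorem stressFun_le (w : R3 → ℝ) (d : Fin 3) (x : R3) :
    gradPerp d w x ^ 2 / gradNorm w x ≤ gradNorm w x := by
  rcases (gradNorm_nonneg w x).eq_or_lt with h | h
  · rw [← h, div_zero]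
  · rw [div_le_iff₀ h, ← sq]
    refine pow_le_pow_left₀ (Rigid.gradPerp_nonneg d w x) ?_ 2
    rw [Rigid.gradNorm_eq d]
    exact Real.le_sqrt_of_sq_le (le_add_of_nonneg_right (sq_nonneg _))

theorem abs_pd_le_stress (w : R3 → ℝ) (d : Fin 3) (x : R3) {θ : ℝ} (hθ : 0 < θ) :
    |pd d w x| ≤ θ * gradNorm w x +
      (gradNorm w x - gradPerp d w x ^ 2 / gradNorm w x) / θ := by
  have hsq : gradNorm w x ^ 2 = gradPerp d w x ^ 2 + pd d w x ^ 2 := by
    rw [gradPerp, gradNorm, Real.sq_sqrt (Finset.sum_nonneg fun _ _ => sq_nonneg _),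
      Real.sq_sqrt (Finset.sum_nonneg fun _ _ => sq_nonneg _),
      Finset.sum_erase_add _ _ (Finset.mem_univ d)]
  set S := gradNorm w x with hS
  set u := pd d w x with hu
  rcases (gradNorm_nonneg w x).eq_or_lt with h | h
  · have h0 : S = 0 := h.symm
    have hu0 : u ^ 2 = 0 := le_antisymm (by nlinarith [sq_nonneg (gradPerp d w x)]) (sq_nonneg u)
    simp [pow_eq_zero_iff (two_ne_zero) |>.1 hu0, h0]
  · rw [show S - gradPerp d w x ^ 2 / S = u ^ 2 / S by rw [sub_div' h.ne']; congr 1; nlinarith,
      show θ * S + u ^ 2 / S / θ = ((θ * S) ^ 2 + u ^ 2) / (S * θ) by field_simp,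
      le_div_iff₀ (by positivity)]
    nlinarith [sq_nonneg (θ * S - |u|), sq_abs u]

theorem intervalIntegrable_area (hw : Adm w) (d : Fin 3) :
    IntervalIntegrable (areaAt w d) volume 0 1 := by
  obtain ⟨L, hL⟩ := hw.lipschitz
  exact Rigid.intervalIntegrable_planeInt hL.continuous.measurable
    (fun x => Rigid.abs_le_one_of_mem (hw.mem x)) d 0 1

theorem integral_area (hw : Adm w) (d : Fin 3) :
    ∫ t in (0 : ℝ)..1, areaAt w d t = vol w := by
  obtain ⟨L, hL⟩ := hw.lipschitz
  rw [vol, ← Rigid.setIntegral_cell_eq_box, Rigid.integral_cell_eq_planeInt hL.continuous.measurable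
    (fun x => Rigid.abs_le_one_of_mem (hw.mem x)) d]
  rfl

theorem area_anti (hw : Adm w) (d : Fin 3) : AntitoneOn (areaAt w d) (Icc 0 1) := by
  intro s hs t ht hst
  obtain ⟨L, hL⟩ := hw.lipschitz
  have hc : ∀ r, ContinuousOn (fun y => w (facePoint d r y)) square := fun r =>
    (hL.continuous.comp (continuous_facePoint' d r)).continuousOn
  refine setIntegral_mono_on ((hc t).integrableOn_compact isCompact_Icc)
    ((hc s).integrableOn_compact isCompact_Icc) measurableSet_square fun y hy => ?_
  refine hw.anti _ (facePoint_mem_box.2 ⟨ht, hy⟩) _ (facePoint_mem_box.2 ⟨hs, hy⟩) ?_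
  rw [Pi.le_def]
  refine d.forall_iff_succAbove.2 ⟨?_, fun j => ?_⟩ <;> simp [facePoint, hst]

theorem area_between (hw : Adm w) (d : Fin 3) :
    areaAt w d 1 ≤ vol w ∧ vol w ≤ areaAt w d 0 := by
  have hA := area_anti hw d
  rw [← integral_area hw d]
  constructor
  · refine le_trans (le_of_eq (by simp)) (intervalIntegral.integral_mono_on zero_le_one
      intervalIntegrable_const (intervalIntegrable_area hw d) fun t ht =>
        hA ht (right_mem_Icc.2 zero_le_one) ht.2)
  · refine le_trans (intervalIntegral.integral_mono_on zero_le_one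
      (intervalIntegrable_area hw d) intervalIntegrable_const fun t ht =>
        hA (left_mem_Icc.2 zero_le_one) ht ht.1) (le_of_eq (by simp))

/-- The drop of the slice areas is controlled by the missing stress. -/
theorem area_drop_le (hw : Adm w) (d : Fin 3) {θ : ℝ} (hθ : 0 < θ) :
    areaAt w d 0 - areaAt w d 1 ≤
      θ * energy w + (energy w - ∫ t in (0 : ℝ)..1, stressAt w d t) / θ := by
  obtain ⟨L, hL⟩ := hw.lipschitz
  set f : R3 → ℝ := fun x => gradPerp d w x ^ 2 / gradNorm w x with hf
  have hmf : Measurable f := ((Rigid.measurable_gradPerp d w).pow_const 2).div (measurable_gradNorm w)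
  have hfC : ∀ x, |f x| ≤ 3 * L := fun x => by
    rw [abs_of_nonneg (div_nonneg (sq_nonneg _) (gradNorm_nonneg w x))]
    exact (stressFun_le w d x).trans (gradNorm_le hL x)
  have hstress : ∫ t in (0 : ℝ)..1, stressAt w d t = ∫ x in box, f x := by
    rw [← Rigid.setIntegral_cell_eq_box, Rigid.integral_cell_eq_planeInt hmf hfC d]
    rfl
  obtain ⟨hpd, hftc⟩ := integral_box_pd hL.locallyLipschitz (hL.ae_differentiableAt) d
  have iS : IntegrableOn (gradNorm w) box := integrableOn_box (measurable_gradNorm w) (3 * L)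
    fun x _ => by rw [abs_of_nonneg (gradNorm_nonneg w x)]; exact gradNorm_le hL x
  have if' : IntegrableOn f box := integrableOn_box hmf (3 * L) fun x _ => hfC x
  have key : -(∫ x in box, pd d w x) ≤
      ∫ x in box, (θ * gradNorm w x + (gradNorm w x - f x) / θ) := by
    rw [← integral_neg]
    refine setIntegral_mono_on hpd.neg ((iS.const_mul θ).add ((iS.sub if').div_const θ))
      measurableSet_box fun x _ => ?_
    exact (neg_le_abs _).trans (abs_pd_le_stress w d x hθ)
  rw [integral_add (f := fun x => θ * gradNorm w x) (g := fun x => (gradNorm w x - f x) / θ)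
      (iS.const_mul θ) ((iS.sub if').div_const θ), integral_const_mul, integral_div,
    integral_sub iS if', ← hstress] at key
  rw [hftc] at key
  simp only [areaAt, planeInt, energy] at key ⊢
  linarith

/-- Along a sequence: if `H V + C d = p` the far trace tends to `V`. -/
theorem flat_trace {V H p : ℝ} {C : Fin 3 → ℝ} {w : ℕ → R3 → ℝ} (hM : MinSeq V p w)
    (hF : FirstIntegral V H p C w) (d : Fin 3) (hd : H * V + C d = p) :
    Tendsto (fun n => areaAt (w n) d 1) atTop (𝓝 V) := by
  refine Metric.tendsto_nhds.2 fun η hη => ?_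
  have hE0 : ∀ n, 0 ≤ energy (w n) := fun n =>
    setIntegral_nonneg measurableSet_box fun x _ => gradNorm_nonneg _ x
  have hp : 0 ≤ p := ge_of_tendsto hM.energy_tendsto (Eventually.of_forall hE0)
  set θ := η / (4 * (p + 1)) with hθ
  have hθ0 : 0 < θ := by positivity
  have hlim : Tendsto (fun n => energy (w n) - ∫ t in (0 : ℝ)..1, stressAt (w n) d t) atTop
      (𝓝 0) := by
    have h1 : Tendsto (fun n => energy (w n) - (H * vol (w n) + C d)) atTop (𝓝 0) := by
      simpa [hd] using hM.energy_tendsto.sub ((hM.vol_tendsto.const_mul H).add_const (C d))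
    have h2 : Tendsto (fun n => (∫ t in (0 : ℝ)..1, stressAt (w n) d t) -
        (H * vol (w n) + C d)) atTop (𝓝 0) := by
      refine squeeze_zero_norm (fun n => ?_) (hF.stress d)
      obtain ⟨L, hL⟩ := (hM.adm n).lipschitz
      have is : IntervalIntegrable (stressAt (w n) d) volume 0 1 :=
        Rigid.intervalIntegrable_planeInt (C := 3 * L)
          (f := fun x => gradPerp d (w n) x ^ 2 / gradNorm (w n) x)
          (((Rigid.measurable_gradPerp d _).pow_const 2).div (measurable_gradNorm _))
          (fun x => by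
            rw [abs_of_nonneg (div_nonneg (sq_nonneg _) (gradNorm_nonneg _ x))]
            exact (stressFun_le _ d x).trans (gradNorm_le hL x)) d 0 1
      have ia := ((intervalIntegrable_area (hM.adm n) d).const_mul H).add
        (intervalIntegrable_const (c := C d))
      have e : (∫ t in (0 : ℝ)..1, stressAt (w n) d t) - (H * vol (w n) + C d) =
          ∫ t in (0 : ℝ)..1, (stressAt (w n) d t - (H * areaAt (w n) d t + C d)) := by
        rw [intervalIntegral.integral_sub is ia,
          intervalIntegral.integral_add ((intervalIntegrable_area (hM.adm n) d).const_mul H)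
            intervalIntegrable_const, intervalIntegral.integral_const_mul,
          integral_area (hM.adm n) d]
        simp
      rw [e, Real.norm_eq_abs]
      exact intervalIntegral.abs_integral_le_integral_abs zero_le_one
    simpa using h1.sub h2
  filter_upwards [hM.vol_tendsto.eventually (Metric.ball_mem_nhds V (by positivity : 0 < η / 4)),
    hlim.eventually (eventually_lt_nhds (by positivity : (0 : ℝ) < θ * (η / 4))),
    hM.energy_tendsto.eventually (eventually_lt_nhds (lt_add_one p))] with n hv hs he
  obtain ⟨h1, h2⟩ := area_between (hM.adm n) d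
  have h3 := area_drop_le (hM.adm n) d hθ0
  have h4 : (energy (w n) - ∫ t in (0 : ℝ)..1, stressAt (w n) d t) / θ ≤ η / 4 :=
    (div_le_iff₀ hθ0).2 (by linarith)
  have h5 : θ * energy (w n) ≤ η / 4 := by
    calc θ * energy (w n) ≤ θ * (p + 1) := mul_le_mul_of_nonneg_left he.le hθ0.le
      _ = η / 4 := by rw [hθ]; field_simp
  rw [Real.dist_eq, abs_lt] at hv ⊢
  constructor <;> linarith [hv.1, hv.2]

end Vale.Agent.P232.Gap
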