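import Vale.Agent.P232.Gap.Kink
import Vale.Agent.P232.Gap.KinkLow
import Vale.Agent.P232.Gap.KinkBand
import Vale.Agent.P232.Gap.FaceGap

/-!
# P232 gap: the equality cases at the kink `V = 1/π`
-/

open MeasureTheory Set
open scoped Real

noncomputable section

namespace Vale.Agent.P232.Gap

/-- The strict form of the split case. -/
def KinkSplitLtSpec : Prop :=
  ∀ (H p : ℝ) (G : GapData (1 / π) H p) (i j k : Fin 3), i ≠ j → k ≠ i → k ≠ j →
    21 / 20 ≤ H → H ≤ 179 / 125 → G.C i ≤ 4 / 125 → 8 / 25 ≤ G.C j → 8 / 25 ≤ G.C k →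
      1 < p

theorem kinkSplit_of_lt (h : KinkSplitLtSpec) : KinkSplitSpec :=
  fun H p G i j k a b c d e f g l => (h H p G i j k a b c d e f g l).le

/-- At equality every constant below `1 - H/π` obeys the calibration. -/
theorem phi_le_of_eq {H : ℝ} (G : GapData (1 / π) H 1) (d : Fin 3) (hC : G.C d < 1 - H / π) :
    G.C d + phi H (G.C d) ≤ 1 - H / π := by
  have hc := G.calib d
  have e : H * (1 / π) = H / π := by ring
  have hW : (1 : ℝ) / π ≤ 1 := by rw [div_le_one Real.pi_pos]; linarith [Real.pi_gt_three]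
  rw [G.window (by positivity) hW (by rw [lmin_inv_pi, e]; exact hC), e] at hc
  linarith

/-- A slab (`H = 0`) or two almost empty far faces. -/
theorem kink_eq (hSplit : KinkSplitLtSpec) : KinkEqSpec := by
  intro H h0 hH G
  rcases h0.eq_or_lt with hz | hpos
  · exact Or.inl hz.symm
  refine Or.inr ?_
  have hπ := Real.pi_pos
  have hπ1 := Real.pi_gt_d6
  have hsum : G.C 0 + G.C 1 + G.C 2 = 2 - 3 * (H / π) := by
    have := G.sum_C
    rw [Fin.sum_univ_three, mul_one_div] at this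
    linarith
  rcases le_total H (21 / 20) with hH1 | hH1
  · exfalso
    have hall : ∀ d, 2 / 3 - H / π < G.C d := fun d => by
      by_contra hle
      push Not at hle
      linarith [phi_le_of_eq G d (by linarith),
        kinkLow_lt h0 hH1 (G.C_nonneg d) hle (Or.inl hpos)]
    linarith [hall 0, hall 1, hall 2]
  have hHπ : H / π ≤ 1 / 2 := by rw [div_le_iff₀ hπ]; linarith
  have hsplit : ∀ d, G.C d ≤ 4 / 125 ∨
      (8 / 25 < G.C d ∧ (H ≤ 11 / 10 → 167 / 500 < G.C d)) := fun d => by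
    by_cases hs : G.C d ≤ 4 / 125
    · exact Or.inl hs
    have hs' : (4 : ℝ) / 125 ≤ G.C d := (not_le.1 hs).le
    refine Or.inr ⟨?_, fun hH2 => ?_⟩ <;> by_contra hle <;> push Not at hle
    · linarith [phi_le_of_eq G d (by linarith), kinkBand_lt hH1 hH hs' (Or.inl hle)]
    · linarith [phi_le_of_eq G d (by linarith), kinkBand_lt hH1 hH hs' (Or.inr ⟨hH2, hle⟩)]
  have two : ∀ i j k : Fin 3, (∀ l, l ≠ k → l = i ∨ l = j) → G.C i ≤ 4 / 125 →
      G.C j ≤ 4 / 125 → ∃ k, ∀ l, l ≠ k → G.α l ≤ 339 / 1000000 := by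
    intro i j k hall hi hj
    refine ⟨k, fun l hl => ?_⟩
    rcases hall l hl with rfl | rfl
    · exact (alpha_lt G h0 hH hi).le
    · exact (alpha_lt G h0 hH hj).le
  have one : ∀ i j k : Fin 3, i ≠ j → k ≠ i → k ≠ j → G.C i ≤ 4 / 125 → 8 / 25 < G.C j →
      8 / 25 < G.C k → G.C i + G.C j + G.C k = G.C 0 + G.C 1 + G.C 2 → False := by
    intro i j k hij hki hkj hi hj hk hs
    have hH3 : H ≤ 179 / 125 := by
      have h5 : H / π ≤ 34 / 75 := by linarith [G.C_nonneg i]
      rw [div_le_iff₀ hπ] at h5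
      nlinarith [Real.pi_lt_d6]
    exact lt_irrefl _ (hSplit H 1 G i j k hij hki hkj hH1 hH3 hi hj.le hk.le)
  rcases hsplit 0 with h0' | h0' <;> rcases hsplit 1 with h1' | h1' <;>
    rcases hsplit 2 with h2' | h2'
  · exact two 0 1 2 (by decide) h0' h1'
  · exact two 0 1 2 (by decide) h0' h1'
  · exact two 0 2 1 (by decide) h0' h2'
  · exact (one 0 1 2 (by decide) (by decide) (by decide) h0' h1'.1 h2'.1 rfl).elim
  · exact two 1 2 0 (by decide) h1' h2'
  · exact (one 1 0 2 (by decide) (by decide) (by decide) h1' h0'.1 h2'.1 (by ring)).elim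
  · exact (one 2 0 1 (by decide) (by decide) (by decide) h2' h0'.1 h1'.1 (by ring)).elim
  · exfalso
    rcases le_total H (11 / 10) with hH2 | hH2
    · have : (21 : ℝ) / 20 / π ≤ H / π := by gcongr
      have h3 : (334 : ℝ) / 1000 ≤ 21 / 20 / π := by
        rw [le_div_iff₀ hπ]; linarith [Real.pi_lt_d6]
      linarith [h0'.2 hH2, h1'.2 hH2, h2'.2 hH2]
    · have : (11 : ℝ) / 10 / π ≤ H / π := by gcongr
      have h3 : (35 : ℝ) / 100 ≤ 11 / 10 / π := by
        rw [le_div_iff₀ hπ]; linarith [Real.pi_lt_d6]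
      linarith [h0'.1, h1'.1, h2'.1]

end Vale.Agent.P232.Gap
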