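import Vale.Agent.P232.Gap.Assembly
import Vale.Agent.P232.Gap.KinkLow
import Vale.Agent.P232.Gap.KinkBand
import Vale.Agent.P232.Gap.Build
import Vale.Agent.P232.Gap.Classify
import Vale.Agent.P232.Gap.CornerEq
import Vale.Agent.P232.Gap.KinkEq

/-!
# P232: profile and minimisers at every volume, from the kink statements
-/

open MeasureTheory Set
open scoped Real

noncomputable section

namespace Vale.Agent.P232.Gap

theorem limitData : LimitDataSpec := fun _ _ _ _ _ a b c d e => limit_data sliceBound a b c d e

/-- The profile at every volume. -/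
theorem profile_full (hSplit : KinkSplitSpec) {V : ℝ} (hV : V ∈ Ioo (0 : ℝ) 1) :
    profile V = ENNReal.ofReal (candidate V) :=
  profile_eq_of (gap_of_open hSplit) hV.1 hV.2

/-- The minimisers at every volume. -/
theorem classified_full (hSplit : KinkSplitSpec) (hEq : KinkEqSpec) {V : ℝ}
    (hV : V ∈ Ioo (0 : ℝ) 1) : Rigid.ClassifiedAt V :=
  classified_of (fun _ hW => profile_full hSplit hW) (firstIntegral variation stop) limitData hEq
    cornerEq hV

/-- Both halves of the conjecture, from the strict split case. -/
theorem full_of_split (hSplit : KinkSplitLtSpec) {V : ℝ} (hV : V ∈ Ioo (0 : ℝ) 1) :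
    profile V = ENNReal.ofReal (candidate V) ∧ Rigid.ClassifiedAt V :=
  ⟨profile_full (kinkSplit_of_lt hSplit) hV,
    classified_full (kinkSplit_of_lt hSplit) (kink_eq hSplit) hV⟩

end Vale.Agent.P232.Gap
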