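import Vale.Agent.P232.Gap.Spec

/-!
# P232 gap: growth of the projected area near an end, and the chain rule for the calibration
-/

open MeasureTheory Set Filter
open scoped Real Topology NNReal

noncomputable section

namespace Vale.Agent.P232.Gap

/-- If `τ r(τ)` exceeds the primitive `F(τ)` of `r` by `κ τ - D - z(τ)` on `[t₁, t₂]`, then
`F / τ` grows logarithmically. -/
theorem log_le_of_growth {r z : ℝ → ℝ} {t₁ t₂ κ D P : ℝ} (hr : IntervalIntegrable r volume 0 t₂)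
    (hz : IntervalIntegrable z volume t₁ t₂) (hz0 : ∀ t, 0 ≤ z t)
    (ht₁ : 0 < t₁) (h12 : t₁ ≤ t₂) (hD : 0 ≤ D) (hr0 : ∀ t ∈ Icc 0 t₁, 0 ≤ r t)
    (hP : ∫ t in (0 : ℝ)..t₂, r t ≤ P)
    (hstop : ∀ᵐ τ : ℝ, τ ∈ Ioo t₁ t₂ → (∫ t in (0 : ℝ)..τ, r t) + κ * τ - D - z τ ≤ τ * r τ) :
    κ * Real.log (t₂ / t₁) ≤ P / t₂ + D / t₁ + (∫ t in t₁..t₂, z t) / t₁ ^ 2 := by
  set F : ℝ → ℝ := fun τ => ∫ t in (0 : ℝ)..τ, r t with hF
  set h : ℝ → ℝ := fun τ => F τ * τ⁻¹ - (κ * Real.log τ + D * τ⁻¹) with hh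
  have ht₂ : 0 < t₂ := ht₁.trans_le h12
  have hne : ∀ τ ∈ uIcc t₁ t₂, τ ≠ 0 := fun τ hτ => by
    rw [uIcc_of_le h12] at hτ
    exact (ht₁.trans_le hτ.1).ne'
  have hFac : AbsolutelyContinuousOnInterval F t₁ t₂ :=
    (hr.absolutelyContinuousOnInterval_intervalIntegral (c := 0) left_mem_uIcc).mono
      (by
        rw [uIcc_of_le h12, uIcc_of_le ht₂.le]
        exact Icc_subset_Icc ht₁.le le_rfl)
  have hinv : ContDiffOn ℝ 1 (fun τ : ℝ => τ⁻¹) (uIcc t₁ t₂) := contDiffOn_id.inv hne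
  have hlog : ContDiffOn ℝ 1 (fun τ : ℝ => κ * Real.log τ + D * τ⁻¹) (uIcc t₁ t₂) :=
    (contDiffOn_const.mul (contDiffOn_id.log hne)).add (contDiffOn_const.mul hinv)
  have hac : AbsolutelyContinuousOnInterval h t₁ t₂ :=
    (hFac.mul hinv.absolutelyContinuousOnInterval).sub hlog.absolutelyContinuousOnInterval
  have hmono : 0 ≤ h t₂ - h t₁ + (∫ t in t₁..t₂, z t) / t₁ ^ 2 := by
    rw [← hac.integral_deriv_eq_sub, ← intervalIntegral.integral_div,
      ← intervalIntegral.integral_add hac.intervalIntegrable_deriv (hz.div_const _)]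
    refine intervalIntegral.integral_nonneg_of_ae_restrict h12 ?_
    refine (ae_restrict_iff' measurableSet_Icc).2 ?_
    have h₁ : ∀ᵐ τ : ℝ, τ ≠ t₁ := by simp [ae_iff, measure_singleton]
    have h₂ : ∀ᵐ τ : ℝ, τ ≠ t₂ := by simp [ae_iff, measure_singleton]
    filter_upwards [hstop, hr.ae_hasDerivAt_integral, h₁, h₂] with τ hst hder hn1 hn2 hτ
    have hτ' : τ ∈ Ioo t₁ t₂ := ⟨lt_of_le_of_ne hτ.1 (Ne.symm hn1), lt_of_le_of_ne hτ.2 hn2⟩
    have hτ0 : 0 < τ := ht₁.trans hτ'.1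
    have hF' : HasDerivAt F (r τ) τ :=
      hder (by rw [uIcc_of_le ht₂.le]; exact ⟨hτ0.le, hτ.2⟩) 0 left_mem_uIcc
    have hd : HasDerivAt h (r τ * τ⁻¹ + F τ * -(τ ^ 2)⁻¹ - (κ * τ⁻¹ + D * -(τ ^ 2)⁻¹)) τ :=
      (hF'.mul (hasDerivAt_inv hτ0.ne')).sub
        (((Real.hasDerivAt_log hτ0.ne').const_mul κ).add ((hasDerivAt_inv hτ0.ne').const_mul D))
    have hval : r τ * τ⁻¹ + F τ * -(τ ^ 2)⁻¹ - (κ * τ⁻¹ + D * -(τ ^ 2)⁻¹) =
        (τ * r τ - (F τ + κ * τ - D)) / τ ^ 2 := by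
      field_simp
      ring
    show 0 ≤ deriv h τ + z τ / t₁ ^ 2
    rw [hd.deriv, hval]
    have h1 : -z τ / τ ^ 2 ≤ (τ * r τ - (F τ + κ * τ - D)) / τ ^ 2 :=
      div_le_div_of_nonneg_right (by linarith [hst hτ']) (sq_nonneg _)
    have h2 : z τ / τ ^ 2 ≤ z τ / t₁ ^ 2 :=
      div_le_div_of_nonneg_left (hz0 τ) (pow_pos ht₁ 2) (pow_le_pow_left₀ ht₁.le hτ'.1.le 2)
    rw [neg_div] at h1
    linarith
  have hF1 : 0 ≤ F t₁ * t₁⁻¹ :=
    mul_nonneg (intervalIntegral.integral_nonneg ht₁.le hr0) (inv_nonneg.2 ht₁.le)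
  have hF2 : F t₂ * t₂⁻¹ ≤ P * t₂⁻¹ := mul_le_mul_of_nonneg_right hP (inv_nonneg.2 ht₂.le)
  have hD2 : 0 ≤ D * t₂⁻¹ := mul_nonneg hD (inv_nonneg.2 ht₂.le)
  rw [Real.log_div ht₂.ne' ht₁.ne', div_eq_mul_inv P, div_eq_mul_inv D]
  simp only [hh] at hmono
  linarith

/-- The chain rule for a bounded weight, continuous inside, along a Lipschitz path in `[0,1]`. -/
theorem integral_comp_mul_neg_deriv {g A : ℝ → ℝ} {L : ℝ≥0} (hg : Measurable g)
    (hg01 : ∀ x, g x ∈ Icc (0 : ℝ) 1) (hgc : ContinuousOn g (Ioo 0 1)) (hA : LipschitzWith L A)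
    (hA01 : ∀ t, A t ∈ Icc (0 : ℝ) 1) (p q : ℝ) :
    ∫ t in p..q, g (A t) * -deriv A t = ∫ x in A q..A p, g x := by
  have hgi : ∀ a b, IntervalIntegrable g volume a b := fun a b => by
    rw [intervalIntegrable_iff]
    exact IntegrableOn.of_bound (by simp [uIoc]) hg.aestronglyMeasurable 1
      (ae_of_all _ fun x => by rw [Real.norm_eq_abs, abs_of_nonneg (hg01 x).1]; exact (hg01 x).2)
  set G : ℝ → ℝ := fun x => ∫ y in (0 : ℝ)..x, g y with hG
  have hGlip : ∀ x y, |G x - G y| ≤ |x - y| := fun x y => by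
    rw [hG, intervalIntegral.integral_interval_sub_left (hgi _ _) (hgi _ _)]
    refine ((Real.norm_eq_abs _).ge.trans
      (intervalIntegral.norm_integral_le_of_norm_le_const (C := 1) fun z _ => ?_)).trans_eq (one_mul _)
    rw [Real.norm_eq_abs, abs_of_nonneg (hg01 z).1]
    exact (hg01 z).2
  have hk : LipschitzWith L fun t => -G (A t) := LipschitzWith.of_dist_le_mul fun s t => by
    rw [dist_neg_neg, Real.dist_eq]
    exact (hGlip _ _).trans ((Real.dist_eq _ _).ge.trans (hA.dist_le_mul s t))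
  have hftc := (hk.lipschitzOnWith (s := uIcc p q)).absolutelyContinuousOnInterval.integral_deriv_eq_sub
  have hrhs : ∫ x in A q..A p, g x = G (A p) - G (A q) :=
    (intervalIntegral.integral_interval_sub_left (hgi _ _) (hgi _ _)).symm
  rw [hrhs, show G (A p) - G (A q) = -G (A q) - -G (A p) by ring, ← hftc]
  refine intervalIntegral.integral_congr_ae ?_
  filter_upwards [hA.ae_differentiableAt_real] with t ht _
  symm
  rcases eq_or_ne (deriv A t) 0 with h0 | h0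
  · rw [h0, neg_zero, mul_zero]
    have hd : HasDerivAt A 0 t := h0 ▸ ht.hasDerivAt
    refine HasDerivAt.deriv ?_
    rw [hasDerivAt_iff_isLittleO] at hd ⊢
    refine Asymptotics.IsBigO.trans_isLittleO (Asymptotics.isBigO_of_le _ fun s => ?_) hd
    simp only [smul_zero, sub_zero, Real.norm_eq_abs]
    rw [show -G (A s) - -G (A t) = -(G (A s) - G (A t)) by ring, abs_neg]
    exact hGlip _ _
  · have hin : A t ∈ Ioo (0 : ℝ) 1 := by
      refine ⟨lt_of_le_of_ne (hA01 t).1 fun h => h0 ?_, lt_of_le_of_ne (hA01 t).2 fun h => h0 ?_⟩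
      · exact IsLocalMin.deriv_eq_zero (Eventually.of_forall fun s => h ▸ (hA01 s).1)
      · exact IsLocalMax.deriv_eq_zero (Eventually.of_forall fun s => h ▸ (hA01 s).2)
    have hcont : ContinuousAt g (A t) := hgc.continuousAt (isOpen_Ioo.mem_nhds hin)
    have hGd : HasDerivAt G (g (A t)) (A t) := intervalIntegral.integral_hasDerivAt_right (hgi _ _)
      hg.stronglyMeasurable.stronglyMeasurableAtFilter hcont
    rw [show deriv (fun t => -G (A t)) t = -(g (A t) * deriv A t) from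
      (hGd.comp t ht.hasDerivAt).neg.deriv, mul_neg]

end Vale.Agent.P232.Gap
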