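import Mathlib

/-!
# P232 gap: the one-variable inequality below the kink, in scaled form

With `A = V (1 + X)²` the integrand of `Φ` on the island branch is `√((u² - X²)((X + 2)² - u²))`,
cut at `X = v` where `A = 1/π`; the flat branch beyond pays the loss of the chord of the island.
-/

open MeasureTheory Set intervalIntegral
open scoped Real

noncomputable section

namespace Vale.Agent.P232.Gap

theorem integral_sqrt_quarter' : ∫ x in (0 : ℝ)..1, Real.sqrt (1 - x ^ 2) = π / 4 := by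
  have hc : Continuous fun x : ℝ => Real.sqrt (1 - x ^ 2) := by fun_prop
  have h := integral_sqrt_one_sub_sq
  rw [← integral_add_adjacent_intervals (b := (0 : ℝ)) (hc.intervalIntegrable _ _)
    (hc.intervalIntegrable _ _)] at h
  have e : ∫ x in (-1 : ℝ)..0, Real.sqrt (1 - x ^ 2) = ∫ x in (0 : ℝ)..1, Real.sqrt (1 - x ^ 2) := by
    have := intervalIntegral.integral_comp_neg (a := (0 : ℝ)) (b := 1)
      (fun x => Real.sqrt (1 - x ^ 2))
    simpa using this.symm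
  rw [e] at h
  linarith

/-- The area under the circle of radius `u` up to `θ u`. -/
theorem circle_part {u θ : ℝ} (hu : 0 < u) (hθ : 0 ≤ θ) (hθ1 : θ ≤ 1) :
    u ^ 2 * (π / 4 + θ - θ ^ 3 / 3) ≤ ∫ X in -u..θ * u, Real.sqrt (u ^ 2 - X ^ 2) := by
  have hc : Continuous fun X : ℝ => Real.sqrt (u ^ 2 - X ^ 2) := by fun_prop
  have h0 : ∫ X in -u..0, Real.sqrt (u ^ 2 - X ^ 2) = u ^ 2 * (π / 4) := by
    have e : ∀ X, Real.sqrt (u ^ 2 - X ^ 2) = u * Real.sqrt (1 - (X / u) ^ 2) := fun X => by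
      conv_rhs => rw [← Real.sqrt_sq hu.le, ← Real.sqrt_mul (sq_nonneg u), Real.sqrt_sq hu.le]
      congr 1
      field_simp
    simp only [e]
    rw [intervalIntegral.integral_const_mul,
      intervalIntegral.integral_comp_div (fun t => Real.sqrt (1 - t ^ 2)) hu.ne', zero_div, neg_div,
      div_self hu.ne', smul_eq_mul]
    have := intervalIntegral.integral_comp_neg (a := (0 : ℝ)) (b := 1)
      (fun x => Real.sqrt (1 - x ^ 2))
    simp only [neg_sq, neg_zero] at this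
    rw [← this, integral_sqrt_quarter']
    ring
  have h1 : u ^ 2 * (θ - θ ^ 3 / 3) ≤ ∫ X in (0 : ℝ)..θ * u, Real.sqrt (u ^ 2 - X ^ 2) := by
    have hle : ∫ X in (0 : ℝ)..θ * u, (u - X ^ 2 / u) ≤
        ∫ X in (0 : ℝ)..θ * u, Real.sqrt (u ^ 2 - X ^ 2) := by
      refine integral_mono_on (mul_nonneg hθ hu.le)
        ((by fun_prop : Continuous fun X : ℝ => u - X ^ 2 / u).intervalIntegrable _ _)
        (hc.intervalIntegrable _ _) fun X hX => Real.le_sqrt_of_sq_le ?_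
      have hXu : X ≤ u := hX.2.trans (mul_le_of_le_one_left hu.le hθ1)
      have hb : X ^ 2 ≤ u ^ 2 := pow_le_pow_left₀ hX.1 hXu 2
      rw [show (u - X ^ 2 / u) ^ 2 = (u ^ 2 - X ^ 2) * ((u ^ 2 - X ^ 2) / u ^ 2) by field_simp]
      exact mul_le_of_le_one_right (sub_nonneg.2 hb)
        ((div_le_one (by positivity)).2 (sub_le_self _ (sq_nonneg X)))
    refine le_trans (le_of_eq ?_) hle
    rw [intervalIntegral.integral_sub intervalIntegrable_const
      ((by fun_prop : Continuous fun X : ℝ => X ^ 2 / u).intervalIntegrable _ _),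
      intervalIntegral.integral_const, intervalIntegral.integral_div, integral_pow, smul_eq_mul]
    norm_num
    field_simp
  rw [← integral_add_adjacent_intervals (b := (0 : ℝ)) (hc.intervalIntegrable _ _)
    (hc.intervalIntegrable _ _), h0]
  linarith

/-- The first moment. -/
theorem circle_moment {u θ : ℝ} (hu : 0 < u) (hθ : 0 ≤ θ) (hθ1 : θ ≤ 1) :
    ∫ X in -u..θ * u, X * Real.sqrt (u ^ 2 - X ^ 2) = -(u ^ 3 / 3) * (1 - θ ^ 2) ^ ((3 : ℝ) / 2) := by
  have hd : ∀ X ∈ uIcc (-u) (θ * u), HasDerivAt (fun X => -((u ^ 2 - X ^ 2) ^ ((3 : ℝ) / 2)) / 3)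
      (X * Real.sqrt (u ^ 2 - X ^ 2)) X := fun X _ => by
    refine ((((hasDerivAt_pow 2 X).const_sub (u ^ 2)).rpow_const (p := (3 : ℝ) / 2)
      (Or.inr (by norm_num))).neg.div_const 3).congr_deriv ?_
    rw [Real.sqrt_eq_rpow]
    norm_num
    ring
  rw [integral_eq_sub_of_hasDerivAt hd
    ((by fun_prop : Continuous fun X : ℝ => X * Real.sqrt (u ^ 2 - X ^ 2)).intervalIntegrable _ _)]
  have h1 : 0 ≤ 1 - θ ^ 2 := sub_nonneg.2 (pow_le_one₀ hθ hθ1)
  have e : (u ^ 2 - (θ * u) ^ 2) ^ ((3 : ℝ) / 2) = u ^ 3 * (1 - θ ^ 2) ^ ((3 : ℝ) / 2) := by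
    rw [show u ^ 2 - (θ * u) ^ 2 = u ^ 2 * (1 - θ ^ 2) by ring,
      Real.mul_rpow (sq_nonneg u) h1, ← Real.rpow_natCast u 2, ← Real.rpow_mul hu.le,
      ← Real.rpow_natCast u 3]
    norm_num
  rw [e, neg_sq, sub_self, Real.zero_rpow (by norm_num)]
  ring

/-- The chord of `√(y² - u²)` on the island branch. -/
theorem chord_island {u X : ℝ} (hu : 0 < u) (hu1 : u ≤ 1) (hX : X ∈ Icc (-u) u) :
    (Real.sqrt (1 - u) + Real.sqrt (1 + u)) + 2 / (Real.sqrt (1 - u) + Real.sqrt (1 + u)) * X ≤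
      Real.sqrt ((X + 2) ^ 2 - u ^ 2) := by
  set p := Real.sqrt (1 - u)
  set q := Real.sqrt (1 + u)
  have hp : p ^ 2 = 1 - u := Real.sq_sqrt (by linarith)
  have hq : q ^ 2 = 1 + u := Real.sq_sqrt (by linarith)
  have hp0 : 0 ≤ p := Real.sqrt_nonneg _
  have hq0 : 0 < q := Real.sqrt_pos.2 (by linarith)
  have hb : 2 / (p + q) = (q - p) / u := by
    rw [div_eq_div_iff (by positivity) hu.ne']; linear_combination hp - hq
  rw [hb]
  set w := (X + u) / (2 * u) with hw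
  have hw0 : 0 ≤ w := div_nonneg (by linarith [hX.1]) (by linarith)
  have hw1 : w ≤ 1 := (div_le_one (by linarith)).2 (by linarith [hX.2])
  have eX : X = u * (2 * w - 1) := by rw [hw]; field_simp; ring
  have e : p + q + (q - p) / u * X = (1 - w) * (2 * p) + w * (2 * q) := by
    rw [eX]; field_simp; ring
  rw [e]
  refine Real.le_sqrt_of_sq_le ?_
  have hcross : 4 * p * q ≤ (2 - u) * (2 + u) - u ^ 2 := by
    nlinarith [sq_nonneg (p - q), two_mul_le_add_sq p q, mul_nonneg hu.le (sub_nonneg.2 hu1)]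
  have := mul_le_mul_of_nonneg_left hcross (mul_nonneg (sub_nonneg.2 hw1) hw0)
  rw [eX]
  linear_combination 2 * this + 4 * (1 - w) ^ 2 * hp + 4 * w ^ 2 * hq

/-- Lower bound for the island branch. -/
theorem island_ge {u θ : ℝ} (hu : 0 < u) (hu1 : u ≤ 1) (hθ : 0 ≤ θ) (hθ1 : θ ≤ 1) :
    u ^ 2 * ((Real.sqrt (1 - u) + Real.sqrt (1 + u)) * (π / 4 + θ - θ ^ 3 / 3)) -
        2 / (Real.sqrt (1 - u) + Real.sqrt (1 + u)) * (u ^ 3 / 3) * (1 - θ ^ 2) ^ ((3 : ℝ) / 2) ≤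
      ∫ X in -u..θ * u, Real.sqrt ((u ^ 2 - X ^ 2) * ((X + 2) ^ 2 - u ^ 2)) := by
  set a := Real.sqrt (1 - u) + Real.sqrt (1 + u)
  have ha : 0 < a := add_pos_of_nonneg_of_pos (Real.sqrt_nonneg _) (Real.sqrt_pos.2 (by linarith))
  have hle : -u ≤ θ * u := le_trans (by linarith) (mul_nonneg hθ hu.le)
  have h1 : ∫ X in -u..θ * u, (a * Real.sqrt (u ^ 2 - X ^ 2) + 2 / a * (X * Real.sqrt (u ^ 2 - X ^ 2))) ≤
      ∫ X in -u..θ * u, Real.sqrt ((u ^ 2 - X ^ 2) * ((X + 2) ^ 2 - u ^ 2)) := by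
    refine integral_mono_on hle (Continuous.intervalIntegrable (by fun_prop) _ _)
      (Continuous.intervalIntegrable (by fun_prop) _ _) fun X hX => ?_
    have hXu : X ∈ Icc (-u) u := ⟨hX.1, hX.2.trans (mul_le_of_le_one_left hu.le hθ1)⟩
    rw [Real.sqrt_mul (sub_nonneg.2 (sq_le_sq.2 (by rw [abs_of_pos hu]; exact abs_le.2 hXu)))]
    calc _ = Real.sqrt (u ^ 2 - X ^ 2) * (a + 2 / a * X) := by ring
      _ ≤ _ := mul_le_mul_of_nonneg_left (chord_island hu hu1 hXu) (Real.sqrt_nonneg _)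
  rw [intervalIntegral.integral_add (Continuous.intervalIntegrable (by fun_prop) _ _)
    (Continuous.intervalIntegrable (by fun_prop) _ _), intervalIntegral.integral_const_mul,
    intervalIntegral.integral_const_mul, circle_moment hu hθ hθ1] at h1
  nlinarith [mul_le_mul_of_nonneg_left (circle_part hu hθ hθ1) ha.le]

/-- Lower bound for the flat branch. -/
theorem flat_ge {e : ℝ} (he : 0 < e) (he2 : e ≤ 2) :
    e * Real.sqrt e * (4 / 15 * Real.sqrt 2 + 2 / 5 * Real.sqrt (2 - e)) ≤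
      ∫ s in (0 : ℝ)..e, Real.sqrt (s * (2 - s)) := by
  set p := Real.sqrt 2
  set q := Real.sqrt (2 - e)
  have hp : p ^ 2 = 2 := Real.sq_sqrt (by norm_num)
  have hq : q ^ 2 = 2 - e := Real.sq_sqrt (by linarith)
  have hp0 : 0 ≤ p := Real.sqrt_nonneg _
  have hq0 : 0 ≤ q := Real.sqrt_nonneg _
  have hle : ∫ s in (0 : ℝ)..e, (p * Real.sqrt s - (p - q) / e * (s * Real.sqrt s)) ≤
      ∫ s in (0 : ℝ)..e, Real.sqrt (s * (2 - s)) := by
    refine integral_mono_on he.le (Continuous.intervalIntegrable (by fun_prop) _ _)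
      (Continuous.intervalIntegrable (by fun_prop) _ _) fun s hs => ?_
    rw [Real.sqrt_mul hs.1]
    calc _ = Real.sqrt s * (p - (p - q) / e * s) := by ring
      _ ≤ _ := ?_
    refine mul_le_mul_of_nonneg_left (Real.le_sqrt_of_sq_le ?_) (Real.sqrt_nonneg _)
    set w := s / e
    have hw0 : 0 ≤ w := div_nonneg hs.1 he.le
    have hw1 : w ≤ 1 := (div_le_one he).2 hs.2
    have es : s = w * e := by simp only [w]; field_simp
    rw [show p - (p - q) / e * s = (1 - w) * p + w * q by simp only [w]; ring, es]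
    nlinarith [mul_nonneg (mul_nonneg (sub_nonneg.2 hw1) hw0) (sq_nonneg (p - q))]
  refine le_trans (le_of_eq ?_) hle
  have h1 : ∀ X ∈ uIcc (0 : ℝ) e, HasDerivAt (fun s : ℝ => 2 / 3 * p * s ^ ((3 : ℝ) / 2) -
      (p - q) / e * (2 / 5) * s ^ ((5 : ℝ) / 2))
      (p * Real.sqrt X - (p - q) / e * (X * Real.sqrt X)) X := fun X hX => by
    rw [uIcc_of_le he.le] at hX
    refine (((Real.hasDerivAt_rpow_const (x := X) (p := (3 : ℝ) / 2)
      (Or.inr (by norm_num))).const_mul (2 / 3 * p)).sub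
      ((Real.hasDerivAt_rpow_const (x := X) (p := (5 : ℝ) / 2)
        (Or.inr (by norm_num))).const_mul ((p - q) / e * (2 / 5)))).congr_deriv ?_
    rw [Real.sqrt_eq_rpow, show (5 : ℝ) / 2 - 1 = 1 + 1 / 2 by norm_num,
      Real.rpow_add_of_nonneg hX.1 zero_le_one (by norm_num), Real.rpow_one]
    norm_num
    ring
  rw [integral_eq_sub_of_hasDerivAt h1 (Continuous.intervalIntegrable (by fun_prop) _ _),
    Real.zero_rpow (by norm_num), Real.zero_rpow (by norm_num),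
    show (5 : ℝ) / 2 = 1 + 3 / 2 by norm_num, Real.rpow_add he, Real.rpow_one,
    show (3 : ℝ) / 2 = 1 + 1 / 2 by norm_num, Real.rpow_add he, Real.rpow_one, ← Real.sqrt_eq_rpow]
  field_simp
  ring

/-- The scalar inequality: island plus flat branch cover the target. -/
theorem island_scalar {u θ a : ℝ} (hu : 0 < u) (hu1 : u ≤ 8367 / 10000) (hθ : 0 ≤ θ)
    (hθ1 : θ ≤ 1) (hv : θ * u ≤ 1284 / 10000) (ha : 2 - 346 / 1000 * u ^ 2 ≤ a) :
    π / 2 * (1 + θ * u) < a * (π / 4 + θ - θ ^ 3 / 3) +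
      ((1 - θ * u / 2) * (2 / 3 - 5241 / 100000 * u ^ 2) - 2 / (3 * a)) * u * (1 - 3 / 2 * θ ^ 2) := by
  have hπ := Real.pi_lt_d4
  have hπ' := Real.pi_gt_d4
  have hu2 : u ^ 2 ≤ 7001 / 10000 := by nlinarith
  set A0 := 2 - 346 / 1000 * u ^ 2 with hA0
  have hA01 : 1757 / 1000 ≤ A0 := by simp only [A0]; linarith
  have ha0 : 0 < a := by linarith
  set M := 2 / 3 - 5241 / 100000 * u ^ 2 with hM
  have hM0 : 0 ≤ M := by simp only [M]; linarith
  have hM1 : M ≤ 2 / 3 := by simp only [M]; nlinarith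
  have hia : 2 / (3 * a) ≤ 2 / (3 * A0) := by gcongr
  have hia0 : 0 ≤ 2 / (3 * a) := by positivity
  -- at `θ = 0`
  have h0 : π / 2 < a * (π / 4) + (M - 2 / (3 * a)) * u := by
    have h1 : π / 2 - A0 * (π / 4) < (M - 2 / (3 * A0)) * u := by
      have e : (M - 2 / (3 * A0)) * u = u * (3 * M * A0 - 2) / (3 * A0) := by field_simp
      rw [e, lt_div_iff₀ (by linarith)]
      have h2 : (π / 2 - A0 * (π / 4)) * (3 * A0) ≤
          3 * (7854 / 10000) * (346 / 1000) * u ^ 2 * A0 := by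
        have : π / 2 - A0 * (π / 4) ≤ 7854 / 10000 * (346 / 1000) * u ^ 2 := by
          simp only [A0]; nlinarith
        nlinarith
      refine h2.trans_lt ?_
      have h3 : 3 * (7854 / 10000) * (346 / 1000) * u * A0 < 3 * M * A0 - 2 := by
        simp only [M, A0]
        nlinarith [mul_le_mul_of_nonneg_left hu2 hu.le, sq_nonneg (u ^ 2)]
      nlinarith [mul_lt_mul_of_pos_left h3 hu]
    nlinarith [mul_le_mul_of_nonneg_right ha (show (0 : ℝ) ≤ π / 4 by positivity),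
      mul_le_mul_of_nonneg_right hia hu.le]
  -- the slope in `θ`
  have hθ2 : θ ^ 2 ≤ 1 := pow_le_one₀ hθ hθ1
  have hslope : π / 2 * u + u ^ 2 / 3 + θ * u * (3 / 2) * (2 / 3) ≤ A0 * (1 - θ ^ 2 / 3) := by
    rcases le_total u (2 / 5) with h | h
    · simp only [A0]; nlinarith
    · have : θ ≤ 321 / 1000 := by nlinarith
      simp only [A0]; nlinarith
  have hK : (M - 2 / (3 * a)) * u - θ * (u ^ 2 / 3 + θ * u * (3 / 2) * (2 / 3)) ≤
      ((1 - θ * u / 2) * M - 2 / (3 * a)) * u * (1 - 3 / 2 * θ ^ 2) := by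
    have h1 : 0 ≤ θ * u ^ 2 := by positivity
    have h2 : 0 ≤ θ ^ 2 * u := by positivity
    nlinarith [mul_le_mul_of_nonneg_left hM1 h1, mul_le_mul_of_nonneg_left hM1 h2,
      mul_nonneg h2 hia0, mul_nonneg (mul_nonneg h1 hM0) (sq_nonneg θ)]
  have h3 : A0 * (1 - θ ^ 2 / 3) ≤ a * (1 - θ ^ 2 / 3) :=
    mul_le_mul_of_nonneg_right ha (by linarith)
  nlinarith [mul_le_mul_of_nonneg_left (hslope.trans h3) hθ]

/-- The flat branch in terms of `u`, `θ`. -/
theorem flat_scaled {u θ j e : ℝ} (hu : 0 < u) (hu1 : u ≤ 8367 / 10000) (hθ : 0 ≤ θ)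
    (hθ1 : θ ≤ 1) (hv : θ * u ≤ 1284 / 10000) (hj : j * (1 + θ * u) = 1) (hj0 : 0 < j)
    (he : e = j / 2 * (u ^ 2 * (1 - θ ^ 2))) :
    u ^ 3 * (1 - θ ^ 2) ^ ((3 : ℝ) / 2) * ((1 - θ * u / 2) * (2 / 3 - 5241 / 100000 * u ^ 2)) ≤
      2 / j * ∫ s in (0 : ℝ)..e, Real.sqrt (s * (2 - s)) := by
  have hθu : 0 ≤ θ * u := mul_nonneg hθ hu.le
  have hj1 : j ≤ 1 := by nlinarith
  have hu2 : u ^ 2 ≤ 7001 / 10000 := by nlinarith
  set M := 2 / 3 - 5241 / 100000 * u ^ 2 with hM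
  set W := (1 - θ ^ 2) ^ ((3 : ℝ) / 2) with hWdef
  set K := (1 - θ * u / 2) * M with hK
  rcases hθ1.eq_or_lt with rfl | hlt
  · have : e = 0 := by rw [he]; ring
    simp [W, this, Real.zero_rpow]
  have h1 : 0 < 1 - θ ^ 2 := by nlinarith
  have he0 : 0 < e := he ▸ by positivity
  have hen : e ≤ u ^ 2 / 2 := by
    rw [he]
    calc j / 2 * (u ^ 2 * (1 - θ ^ 2)) ≤ 1 / 2 * (u ^ 2 * 1) := by
          gcongr; nlinarith
      _ = _ := by ring
  refine le_trans ?_ (mul_le_mul_of_nonneg_left (flat_ge he0 (by linarith)) (by positivity))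
  have hes : Real.sqrt e = Real.sqrt j / Real.sqrt 2 * u * Real.sqrt (1 - θ ^ 2) := by
    rw [he, Real.sqrt_mul (by positivity), Real.sqrt_mul (sq_nonneg u), Real.sqrt_sq hu.le,
      Real.sqrt_div hj0.le]
    ring
  have hW2 : W = (1 - θ ^ 2) * Real.sqrt (1 - θ ^ 2) := by
    simp only [W]
    rw [show (3 : ℝ) / 2 = 1 + 1 / 2 by norm_num, Real.rpow_add h1, Real.rpow_one,
      Real.sqrt_eq_rpow]
  set p := Real.sqrt 2
  have hp : p ^ 2 = 2 := Real.sq_sqrt (by norm_num)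
  have hp0 : 0 < p := Real.sqrt_pos.2 (by norm_num)
  have hr : p * (1 - 26202 / 100000 * e) ≤ Real.sqrt (2 - e) := by
    refine Real.le_sqrt_of_sq_le ?_
    rw [mul_pow, hp]
    have hen' : e ≤ 35004 / 100000 := by nlinarith
    nlinarith [mul_le_mul_of_nonneg_left hen' he0.le]
  have hsj : 1 - θ * u / 2 ≤ Real.sqrt j := by
    refine Real.le_sqrt_of_sq_le ?_
    have e1 : (1 - θ * u / 2) ^ 2 * (1 + θ * u) ≤ 1 := by nlinarith [mul_nonneg hθu hθu]
    nlinarith [mul_le_mul_of_nonneg_left e1 hj0.le]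
  have hKle : K ≤ Real.sqrt j * (4 / 15 + 2 / 5 * Real.sqrt (2 - e) / p) := by
    refine mul_le_mul hsj ?_ (by simp only [M]; linarith) (Real.sqrt_nonneg _)
    have h2 : 1 - 26202 / 100000 * e ≤ Real.sqrt (2 - e) / p := by
      rw [le_div_iff₀ hp0]; linarith
    simp only [M]
    rw [mul_div_assoc]
    nlinarith
  refine (mul_le_mul_of_nonneg_left hKle (mul_nonneg (pow_nonneg hu.le 3)
    (Real.rpow_nonneg h1.le _))).trans (le_of_eq ?_)
  rw [show (1 - θ ^ 2) ^ ((3 : ℝ) / 2) = (1 - θ ^ 2) * Real.sqrt (1 - θ ^ 2) from hW2, hes, he]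
  have := hj0.ne'
  field_simp

/-- The island branch and the flat branch together. -/
theorem island_flat {u θ j e : ℝ} (hu : 0 < u) (hu1 : u ≤ 8367 / 10000) (hθ : 0 ≤ θ)
    (hθ1 : θ ≤ 1) (hv : θ * u ≤ 1284 / 10000) (hj : j * (1 + θ * u) = 1)
    (he : e = j / 2 * (u ^ 2 * (1 - θ ^ 2))) :
    π / (2 * j) * u ^ 2 <
      (∫ X in -u..θ * u, Real.sqrt ((u ^ 2 - X ^ 2) * ((X + 2) ^ 2 - u ^ 2))) +
        2 / j * ∫ s in (0 : ℝ)..e, Real.sqrt (s * (2 - s)) := by
  have hu' : u ≤ 1 := by linarith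
  have hθu : 0 ≤ θ * u := mul_nonneg hθ hu.le
  have hj0 : 0 < j := by
    by_contra hc
    nlinarith [mul_nonpos_of_nonpos_of_nonneg (not_lt.1 hc) (show 0 ≤ 1 + θ * u by linarith)]
  have hj1 : j ≤ 1 := by nlinarith
  set a := Real.sqrt (1 - u) + Real.sqrt (1 + u) with ha
  set q := Real.sqrt ((1 - u) * (1 + u))
  have hq : q ^ 2 = 1 - u ^ 2 := by rw [Real.sq_sqrt (by nlinarith)]; ring
  have haq : a ^ 2 = 2 + 2 * q := by
    rw [ha, add_sq, Real.sq_sqrt (by linarith), Real.sq_sqrt (by linarith), mul_assoc,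
      ← Real.sqrt_mul (by linarith)]
    ring
  have hu2 : u ^ 2 ≤ 7001 / 10000 := by nlinarith
  have hq0 : 0 ≤ q := Real.sqrt_nonneg _
  have ha0 : 0 ≤ a := by positivity
  have hq1 : q ≤ 1 := by nlinarith [sq_nonneg u]
  have ha2 : a ≤ 2 := by nlinarith
  have hql : 1 - 6462 / 10000 * u ^ 2 ≤ q := by
    refine Real.le_sqrt_of_sq_le ?_
    nlinarith [mul_le_mul_of_nonneg_left hu2 (sq_nonneg u)]
  have hal : 2 - 346 / 1000 * u ^ 2 ≤ a := by
    nlinarith [sq_nonneg (u ^ 2), mul_le_mul_of_nonneg_left hu2 (sq_nonneg u)]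
  have hi := island_ge hu hu' hθ hθ1
  rw [← ha] at hi
  have hsc := island_scalar hu hu1 hθ hθ1 hv hal
  have hW : 1 - 3 / 2 * θ ^ 2 ≤ (1 - θ ^ 2) ^ ((3 : ℝ) / 2) := by
    have := one_add_mul_self_le_rpow_one_add (s := -θ ^ 2) (by nlinarith)
      (p := (3 : ℝ) / 2) (by norm_num)
    rw [← sub_eq_add_neg (1 : ℝ) (θ ^ 2)] at this
    linarith
  set M := 2 / 3 - 5241 / 100000 * u ^ 2 with hM
  set W := (1 - θ ^ 2) ^ ((3 : ℝ) / 2) with hWdef
  set K := (1 - θ * u / 2) * M with hK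
  have hK0 : 0 ≤ K - 2 / (3 * a) := by
    have h1 : 2 / (3 * a) ≤ 2 / (3 * (1757 / 1000)) := by gcongr; linarith
    have h2 : (1 - 1284 / 20000) * (2 / 3 - 5241 / 100000 * (7001 / 10000)) ≤ K := by
      simp only [K, M]
      exact mul_le_mul (by linarith) (by linarith) (by norm_num) (by linarith)
    norm_num at h1 h2 ⊢
    linarith
  have hflat : u ^ 3 * W * K ≤ 2 / j * ∫ s in (0 : ℝ)..e, Real.sqrt (s * (2 - s)) :=
    flat_scaled hu hu1 hθ hθ1 hv hj hj0 he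
  have hmul := mul_lt_mul_of_pos_left hsc (pow_pos hu 2)
  have hKW : (K - 2 / (3 * a)) * u * (1 - 3 / 2 * θ ^ 2) ≤ (K - 2 / (3 * a)) * u * W :=
    mul_le_mul_of_nonneg_left hW (mul_nonneg hK0 hu.le)
  have etarget : π / (2 * j) * u ^ 2 = u ^ 2 * (π / 2 * (1 + θ * u)) := by
    have : 1 / j = 1 + θ * u := by rw [div_eq_iff hj0.ne']; linarith
    rw [← this]; ring
  rw [etarget]
  have e2 : 2 / a * (u ^ 3 / 3) * W = u ^ 2 * (2 / (3 * a) * u * W) := by ring
  rw [e2] at hi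
  linear_combination hi + hflat + hmul + u ^ 2 * hKW

end Vale.Agent.P232.Gap
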