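import Vale.Agent.P232.Gap.Facts

/-!
# P232 gap: the kink `V = 1/π` from its pieces
-/

open MeasureTheory Set Filter
open scoped Real Topology

noncomputable section

namespace Vale.Agent.P232.Gap

variable {H p : ℝ}

/-- At the kink a failure keeps every constant out of the band allowed by `phi`. -/
theorem phi_lt (G : GapData (1 / π) H p) (hp : p < 1) (d : Fin 3) :
    G.C d + phi H (G.C d) < 1 - H / π ∧ G.C d < 1 - H / π := by
  have hc := G.calib d
  have hint : 0 ≤ ∫ A in G.α d..G.β d, sd H (G.C d) A :=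
    intervalIntegral.integral_nonneg ((G.α_le d).trans (G.le_β d)) fun A _ => sd_nonneg _ _ _
  have e : H * (1 / π) = H / π := by ring
  have hC : G.C d < 1 - H / π := by rw [e] at hc; linarith
  have hW : (1 : ℝ) / π ≤ 1 := by rw [div_le_one Real.pi_pos]; linarith [Real.pi_gt_three]
  rw [G.window (by positivity) hW (by rw [lmin_inv_pi, e]; exact hC), e] at hc
  exact ⟨by linarith, hC⟩

/-- A small constant forces an almost empty far face. -/
theorem alpha_lt (G : GapData (1 / π) H p) (h0 : 0 ≤ H) (hH : H ≤ π / 2) {d : Fin 3}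
    (hC : G.C d ≤ 4 / 125) : G.α d < 339 / 1000000 := by
  by_contra hlt
  push_neg at hlt
  have hπ1 := Real.pi_gt_d6
  have hπ2 := Real.pi_lt_d6
  have hW : (1 : ℝ) / π ≤ 1 := by rw [div_le_one Real.pi_pos]; linarith
  have hW0 : (339 / 1000000 : ℝ) ≤ 1 / π := by
    rw [le_div_iff₀ Real.pi_pos]; linarith
  have hlow : (4 : ℝ) / 125 < lmin (339 / 1000000) - H * (339 / 1000000) := by
    have hs : (3262 / 100000 : ℝ) ≤ Real.sqrt (π * (339 / 1000000)) := by
      apply Real.le_sqrt_of_sq_le; nlinarith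
    have h2 : (3262 / 100000 : ℝ) ≤ Real.sqrt (π * (1 - 339 / 1000000)) := by
      apply Real.le_sqrt_of_sq_le; nlinarith
    have : (3262 / 100000 : ℝ) ≤ lmin (339 / 1000000) :=
      le_min (le_min hs (by norm_num)) h2
    nlinarith
  have hmid : (4 : ℝ) / 125 < lmin (1 / π) - H * (1 / π) := by
    rw [lmin_inv_pi]
    have : H * (1 / π) ≤ 1 / 2 := by
      rw [mul_one_div, div_le_iff₀ Real.pi_pos]; linarith
    linarith
  have h := (concaveOn_T H).ge_on_segment (x := 339 / 1000000) (y := 1 / π) (z := G.α d)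
    ⟨by norm_num, by norm_num⟩ ⟨by positivity, hW⟩
    (by rw [segment_eq_Icc hW0]; exact ⟨hlt, G.α_le d⟩)
  have := G.end_α d
  linarith [lt_min hlow hmid]

theorem kink_of (hLow : KinkLowSpec) (hBand : KinkBandSpec) (hCorner : CornerSpec)
    (hSplit : KinkSplitSpec) : KinkSpec := by
  intro H p h0 hH G
  by_contra hlt
  push_neg at hlt
  have hp : p < 1 := hlt
  have hπ := Real.pi_pos
  have hπ1 := Real.pi_gt_d6
  have hπ2 := Real.pi_lt_d6
  have hsum : G.C 0 + G.C 1 + G.C 2 < 2 - 3 * (H / π) := by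
    have := G.sum_C
    rw [Fin.sum_univ_three, mul_one_div] at this
    linarith
  rcases le_total H (21 / 20) with hH1 | hH1
  · have hall : ∀ d, 2 / 3 - H / π < G.C d := fun d => by
      by_contra hle
      push_neg at hle
      linarith [(phi_lt G hp d).1, hLow H (G.C d) h0 hH1 (G.C_nonneg d) hle]
    linarith [hall 0, hall 1, hall 2]
  have hsplit : ∀ d, G.C d ≤ 4 / 125 ∨
      (8 / 25 < G.C d ∧ (H ≤ 11 / 10 → 167 / 500 < G.C d)) := fun d => by
    by_cases hs : G.C d ≤ 4 / 125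
    · exact Or.inl hs
    have hs' : (4 : ℝ) / 125 ≤ G.C d := (not_le.1 hs).le
    refine Or.inr ⟨?_, fun hH2 => ?_⟩ <;> by_contra hle <;> push_neg at hle
    · linarith [(phi_lt G hp d).1, hBand H (G.C d) hH1 hH hs' (Or.inl hle)]
    · linarith [(phi_lt G hp d).1, hBand H (G.C d) hH1 hH hs' (Or.inr ⟨hH2, hle⟩)]
  have corner : ∀ i j k : Fin 3, i ≠ j → k ≠ i → k ≠ j → G.C i ≤ 4 / 125 → G.C j ≤ 4 / 125 →
      False := by
    intro i j k hij hki hkj hi hj
    obtain ⟨η, hη, hbound⟩ := hCorner ((1 - p) / 2) (by linarith)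
    set η' := min η (min (1 / 1000000) ((1 - p) / 4)) with hη'
    obtain ⟨D, M, hD, hvol, hM, hends⟩ := G.sets η' (lt_min hη (lt_min (by norm_num) (by linarith)))
    have hlim : ∀ a b : Fin 3, ∃ x y : ℝ, Tendsto (sliceArea D a b) (𝓝[<] 1) (𝓝 x) ∧
        Tendsto (sliceArea D a b) (𝓝[>] 0) (𝓝 y) := fun a b =>
      ⟨_, _, ((antitone_sliceArea hD.down).antitoneOn _).tendsto_nhdsWithin_Ioo_left
        (nonempty_Ioo.2 zero_lt_one) ⟨0, by rintro _ ⟨c, -, rfl⟩; exact (sliceArea_mem hD.down c).1⟩,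
        ((antitone_sliceArea hD.down).antitoneOn _).tendsto_nhdsWithin_Ioo_right
        (nonempty_Ioo.2 zero_lt_one) ⟨1, by rintro _ ⟨c, -, rfl⟩; exact (sliceArea_mem hD.down c).2⟩⟩
    obtain ⟨au, yu, hu1, hu2⟩ := hlim k j
    obtain ⟨aw, yw, hw1, hw2⟩ := hlim k i
    have e1 := (hends k j i hkj hki.symm hij au yu hu1 hu2).1
    have e2 := (hends k i j hki hkj.symm hij.symm aw yw hw1 hw2).1
    have a1 := alpha_lt G h0 hH hi
    have a2 := alpha_lt G h0 hH hj
    have m1 : η' ≤ 1 / 1000000 := (min_le_right _ _).trans (min_le_left _ _)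
    have m2 : η' ≤ (1 - p) / 4 := (min_le_right _ _).trans (min_le_right _ _)
    have := hbound D M hD (hvol.trans_le (min_le_left _ _)) i j k hij hki hkj au aw hu1 hw1
      (by linarith) (by linarith)
    linarith
  have split : ∀ i j k : Fin 3, i ≠ j → k ≠ i → k ≠ j → G.C i ≤ 4 / 125 → 8 / 25 < G.C j →
      8 / 25 < G.C k → G.C i + G.C j + G.C k = G.C 0 + G.C 1 + G.C 2 → False := by
    intro i j k hij hki hkj hi hj hk hs
    have hH3 : H ≤ 179 / 125 := by
      have h5 : H / π < 34 / 75 := by linarith [G.C_nonneg i]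
      rw [div_lt_iff₀ hπ] at h5
      nlinarith
    exact absurd (hSplit H p G i j k hij hki hkj hH1 hH3 hi hj.le hk.le) (not_le.2 hp)
  rcases hsplit 0 with h0' | h0' <;> rcases hsplit 1 with h1' | h1' <;>
    rcases hsplit 2 with h2' | h2'
  · exact corner 0 1 2 (by decide) (by decide) (by decide) h0' h1'
  · exact corner 0 1 2 (by decide) (by decide) (by decide) h0' h1'
  · exact corner 0 2 1 (by decide) (by decide) (by decide) h0' h2'
  · exact split 0 1 2 (by decide) (by decide) (by decide) h0' h1'.1 h2'.1 rfl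
  · exact corner 1 2 0 (by decide) (by decide) (by decide) h1' h2'
  · exact split 1 0 2 (by decide) (by decide) (by decide) h1' h0'.1 h2'.1 (by ring)
  · exact split 2 0 1 (by decide) (by decide) (by decide) h2' h0'.1 h1'.1 (by ring)
  · rcases le_total H (11 / 10) with hH2 | hH2
    · have : (21 : ℝ) / 20 / π ≤ H / π := by gcongr
      have h3 : (334 : ℝ) / 1000 ≤ 21 / 20 / π := by rw [le_div_iff₀ hπ]; linarith
      linarith [h0'.2 hH2, h1'.2 hH2, h2'.2 hH2]
    · have : (11 : ℝ) / 10 / π ≤ H / π := by gcongr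
      have h3 : (35 : ℝ) / 100 ≤ 11 / 10 / π := by rw [le_div_iff₀ hπ]; linarith
      linarith [h0'.1, h1'.1, h2'.1]

end Vale.Agent.P232.Gap
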