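import Vale.Agent.P232.Gap.KinkSplit.Data

/-!
# P232 gap, case D3: one small and two large flux constants at the kink
-/

open Set
open scoped Real

noncomputable section

namespace Vale.Agent.P232.Gap

namespace KinkSplit

/-- The check of a band without its cells. -/
def bandHead (H0 : ℤ) (B : Band) : Bool :=
  decide (0 < H0) && decide (H0 ≤ B.H1) && decide (B.z * U + B.H1 * QU < U * U) &&
    decide (U * U < B.z * U + 2 * H0 * QL) &&
    (decide (B.z ≤ 320000) || KinkBand.okTree B.cut ⟨H0, B.H1, 320000, B.z⟩)

/-- The check of a cell without its leaves. -/
def cellHead (H0 H1 z C0 : ℤ) (c : Cell) : Bool :=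
  tOK c.A1 && tOK c.A2 && tOK c.a1 && tOK c.b0 && decide (c.A1 < c.A2) && decide (c.A2 ≤ QL) &&
    decide (tI H1 c.A1 ≤ z) && decide (tI H1 c.A1 < tI H1 c.A2) &&
    decide (2 * U - 3 * (H0 * QL / U) - C0 - z < tI H1 c.A2) &&
    decide (c.a1 ≤ QL) && decide (c.C1 < tI H1 c.a1) && decide (QU ≤ c.b0) &&
    decide (c.C1 < tI H1 c.b0) && !c.segs.isEmpty

theorem band_intro {H0 : ℤ} {B : Band} (h : bandHead H0 B = true)
    (hc : cellsB H0 B.H1 B.z 0 B.cells = true) : bandB H0 B = true := by
  simp only [bandHead] at h
  simp only [bandB, h, hc, Bool.and_self]

theorem cell_intro {H0 H1 z C0 : ℤ} {c : Cell} (h : cellHead H0 H1 z C0 c = true)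
    (hc : chainB c.a1 (sumBound H0 H1 C0 c) c.b0 c.segs = true) : cellB H0 H1 z C0 c = true := by
  simp only [cellHead] at h
  simp only [cellB, h, hc, Bool.and_self]

theorem cells_cons {H0 H1 z C0 : ℤ} {c : Cell} {r : List Cell} (h : cellB H0 H1 z C0 c = true)
    (hr : cellsB H0 H1 z c.C1 r = true) : cellsB H0 H1 z C0 (c :: r) = true := by
  simp only [cellsB, h, hr, Bool.and_self]

theorem cells_nil {H0 H1 z C0 : ℤ} (h : decide (C0 = 32000) = true) :
    cellsB H0 H1 z C0 [] = true := by
  simpa only [cellsB] using h

theorem chain_cons {a1 Sb lo : ℤ} {L : Leaf} {r : List Leaf} (h : leafB a1 lo Sb L = true)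
    (hl : decide (lo ≤ L.b1) = true) (hr : chainB a1 Sb L.b1 r = true) :
    chainB a1 Sb lo (L :: r) = true := by
  simp only [chainB, h, hl, hr, Bool.and_self]

theorem chain_nil {a1 Sb lo : ℤ} (h : decide (lo = U) = true) : chainB a1 Sb lo [] = true := by
  simpa only [chainB] using h

theorem band0_ok : bandB 1050000 band0 = true :=
  band_intro (by decide +kernel) <|
  cells_cons (cell_intro (by decide +kernel) (
    chain_cons (by decide +kernel) (by decide +kernel) <|
    chain_cons (by decide +kernel) (by decide +kernel) <|
    chain_cons (by decide +kernel) (by decide +kernel) <|
    chain_cons (by decide +kernel) (by decide +kernel) <|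
    chain_cons (by decide +kernel) (by decide +kernel) <|
    chain_cons (by decide +kernel) (by decide +kernel) <|
    chain_cons (by decide +kernel) (by decide +kernel) <|
    chain_cons (by decide +kernel) (by decide +kernel) <|
    chain_cons (by decide +kernel) (by decide +kernel) <|
    chain_cons (by decide +kernel) (by decide +kernel) <|
    chain_cons (by decide +kernel) (by decide +kernel) <|
    chain_cons (by decide +kernel) (by decide +kernel) <|
    chain_nil (by decide +kernel))) <|
  cells_cons (cell_intro (by decide +kernel) (
    chain_cons (by decide +kernel) (by decide +kernel) <|
    chain_cons (by decide +kernel) (by decide +kernel) <|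
    chain_cons (by decide +kernel) (by decide +kernel) <|
    chain_cons (by decide +kernel) (by decide +kernel) <|
    chain_cons (by decide +kernel) (by decide +kernel) <|
    chain_cons (by decide +kernel) (by decide +kernel) <|
    chain_cons (by decide +kernel) (by decide +kernel) <|
    chain_cons (by decide +kernel) (by decide +kernel) <|
    chain_cons (by decide +kernel) (by decide +kernel) <|
    chain_cons (by decide +kernel) (by decide +kernel) <|
    chain_nil (by decide +kernel))) <|
  cells_nil (by decide +kernel)

theorem band1_ok : bandB 1060000 band1 = true :=
  band_intro (by decide +kernel) <|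
  cells_cons (cell_intro (by decide +kernel) (
    chain_cons (by decide +kernel) (by decide +kernel) <|
    chain_cons (by decide +kernel) (by decide +kernel) <|
    chain_cons (by decide +kernel) (by decide +kernel) <|
    chain_cons (by decide +kernel) (by decide +kernel) <|
    chain_cons (by decide +kernel) (by decide +kernel) <|
    chain_cons (by decide +kernel) (by decide +kernel) <|
    chain_cons (by decide +kernel) (by decide +kernel) <|
    chain_cons (by decide +kernel) (by decide +kernel) <|
    chain_cons (by decide +kernel) (by decide +kernel) <|
    chain_cons (by decide +kernel) (by decide +kernel) <|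
    chain_cons (by decide +kernel) (by decide +kernel) <|
    chain_nil (by decide +kernel))) <|
  cells_cons (cell_intro (by decide +kernel) (
    chain_cons (by decide +kernel) (by decide +kernel) <|
    chain_cons (by decide +kernel) (by decide +kernel) <|
    chain_cons (by decide +kernel) (by decide +kernel) <|
    chain_cons (by decide +kernel) (by decide +kernel) <|
    chain_cons (by decide +kernel) (by decide +kernel) <|
    chain_cons (by decide +kernel) (by decide +kernel) <|
    chain_cons (by decide +kernel) (by decide +kernel) <|
    chain_cons (by decide +kernel) (by decide +kernel) <|
    chain_cons (by decide +kernel) (by decide +kernel) <|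
    chain_cons (by decide +kernel) (by decide +kernel) <|
    chain_nil (by decide +kernel))) <|
  cells_nil (by decide +kernel)

theorem band2_ok : bandB 1070000 band2 = true :=
  band_intro (by decide +kernel) <|
  cells_cons (cell_intro (by decide +kernel) (
    chain_cons (by decide +kernel) (by decide +kernel) <|
    chain_cons (by decide +kernel) (by decide +kernel) <|
    chain_cons (by decide +kernel) (by decide +kernel) <|
    chain_cons (by decide +kernel) (by decide +kernel) <|
    chain_cons (by decide +kernel) (by decide +kernel) <|
    chain_cons (by decide +kernel) (by decide +kernel) <|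
    chain_cons (by decide +kernel) (by decide +kernel) <|
    chain_cons (by decide +kernel) (by decide +kernel) <|
    chain_cons (by decide +kernel) (by decide +kernel) <|
    chain_cons (by decide +kernel) (by decide +kernel) <|
    chain_cons (by decide +kernel) (by decide +kernel) <|
    chain_cons (by decide +kernel) (by decide +kernel) <|
    chain_cons (by decide +kernel) (by decide +kernel) <|
    chain_nil (by decide +kernel))) <|
  cells_cons (cell_intro (by decide +kernel) (
    chain_cons (by decide +kernel) (by decide +kernel) <|
    chain_cons (by decide +kernel) (by decide +kernel) <|
    chain_cons (by decide +kernel) (by decide +kernel) <|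
    chain_cons (by decide +kernel) (by decide +kernel) <|
    chain_cons (by decide +kernel) (by decide +kernel) <|
    chain_cons (by decide +kernel) (by decide +kernel) <|
    chain_cons (by decide +kernel) (by decide +kernel) <|
    chain_cons (by decide +kernel) (by decide +kernel) <|
    chain_cons (by decide +kernel) (by decide +kernel) <|
    chain_cons (by decide +kernel) (by decide +kernel) <|
    chain_nil (by decide +kernel))) <|
  cells_nil (by decide +kernel)

theorem band3_ok : bandB 1080000 band3 = true :=
  band_intro (by decide +kernel) <|
  cells_cons (cell_intro (by decide +kernel) (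
    chain_cons (by decide +kernel) (by decide +kernel) <|
    chain_cons (by decide +kernel) (by decide +kernel) <|
    chain_cons (by decide +kernel) (by decide +kernel) <|
    chain_cons (by decide +kernel) (by decide +kernel) <|
    chain_cons (by decide +kernel) (by decide +kernel) <|
    chain_cons (by decide +kernel) (by decide +kernel) <|
    chain_cons (by decide +kernel) (by decide +kernel) <|
    chain_cons (by decide +kernel) (by decide +kernel) <|
    chain_cons (by decide +kernel) (by decide +kernel) <|
    chain_cons (by decide +kernel) (by decide +kernel) <|
    chain_cons (by decide +kernel) (by decide +kernel) <|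
    chain_nil (by decide +kernel))) <|
  cells_cons (cell_intro (by decide +kernel) (
    chain_cons (by decide +kernel) (by decide +kernel) <|
    chain_cons (by decide +kernel) (by decide +kernel) <|
    chain_cons (by decide +kernel) (by decide +kernel) <|
    chain_cons (by decide +kernel) (by decide +kernel) <|
    chain_cons (by decide +kernel) (by decide +kernel) <|
    chain_cons (by decide +kernel) (by decide +kernel) <|
    chain_cons (by decide +kernel) (by decide +kernel) <|
    chain_cons (by decide +kernel) (by decide +kernel) <|
    chain_cons (by decide +kernel) (by decide +kernel) <|
    chain_cons (by decide +kernel) (by decide +kernel) <|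
    chain_nil (by decide +kernel))) <|
  cells_nil (by decide +kernel)

theorem band4_ok : bandB 1090000 band4 = true :=
  band_intro (by decide +kernel) <|
  cells_cons (cell_intro (by decide +kernel) (
    chain_cons (by decide +kernel) (by decide +kernel) <|
    chain_cons (by decide +kernel) (by decide +kernel) <|
    chain_cons (by decide +kernel) (by decide +kernel) <|
    chain_cons (by decide +kernel) (by decide +kernel) <|
    chain_cons (by decide +kernel) (by decide +kernel) <|
    chain_cons (by decide +kernel) (by decide +kernel) <|
    chain_cons (by decide +kernel) (by decide +kernel) <|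
    chain_cons (by decide +kernel) (by decide +kernel) <|
    chain_cons (by decide +kernel) (by decide +kernel) <|
    chain_cons (by decide +kernel) (by decide +kernel) <|
    chain_nil (by decide +kernel))) <|
  cells_cons (cell_intro (by decide +kernel) (
    chain_cons (by decide +kernel) (by decide +kernel) <|
    chain_cons (by decide +kernel) (by decide +kernel) <|
    chain_cons (by decide +kernel) (by decide +kernel) <|
    chain_cons (by decide +kernel) (by decide +kernel) <|
    chain_cons (by decide +kernel) (by decide +kernel) <|
    chain_cons (by decide +kernel) (by decide +kernel) <|
    chain_cons (by decide +kernel) (by decide +kernel) <|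
    chain_cons (by decide +kernel) (by decide +kernel) <|
    chain_cons (by decide +kernel) (by decide +kernel) <|
    chain_nil (by decide +kernel))) <|
  cells_nil (by decide +kernel)

theorem band5_ok : bandB 1100000 band5 = true :=
  band_intro (by decide +kernel) <|
  cells_cons (cell_intro (by decide +kernel) (
    chain_cons (by decide +kernel) (by decide +kernel) <|
    chain_cons (by decide +kernel) (by decide +kernel) <|
    chain_cons (by decide +kernel) (by decide +kernel) <|
    chain_cons (by decide +kernel) (by decide +kernel) <|
    chain_cons (by decide +kernel) (by decide +kernel) <|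
    chain_cons (by decide +kernel) (by decide +kernel) <|
    chain_cons (by decide +kernel) (by decide +kernel) <|
    chain_cons (by decide +kernel) (by decide +kernel) <|
    chain_cons (by decide +kernel) (by decide +kernel) <|
    chain_cons (by decide +kernel) (by decide +kernel) <|
    chain_nil (by decide +kernel))) <|
  cells_cons (cell_intro (by decide +kernel) (
    chain_cons (by decide +kernel) (by decide +kernel) <|
    chain_cons (by decide +kernel) (by decide +kernel) <|
    chain_cons (by decide +kernel) (by decide +kernel) <|
    chain_cons (by decide +kernel) (by decide +kernel) <|
    chain_cons (by decide +kernel) (by decide +kernel) <|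
    chain_cons (by decide +kernel) (by decide +kernel) <|
    chain_cons (by decide +kernel) (by decide +kernel) <|
    chain_cons (by decide +kernel) (by decide +kernel) <|
    chain_cons (by decide +kernel) (by decide +kernel) <|
    chain_nil (by decide +kernel))) <|
  cells_nil (by decide +kernel)

theorem band6_ok : bandB 1110000 band6 = true :=
  band_intro (by decide +kernel) <|
  cells_cons (cell_intro (by decide +kernel) (
    chain_cons (by decide +kernel) (by decide +kernel) <|
    chain_cons (by decide +kernel) (by decide +kernel) <|
    chain_cons (by decide +kernel) (by decide +kernel) <|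
    chain_cons (by decide +kernel) (by decide +kernel) <|
    chain_cons (by decide +kernel) (by decide +kernel) <|
    chain_cons (by decide +kernel) (by decide +kernel) <|
    chain_cons (by decide +kernel) (by decide +kernel) <|
    chain_cons (by decide +kernel) (by decide +kernel) <|
    chain_cons (by decide +kernel) (by decide +kernel) <|
    chain_cons (by decide +kernel) (by decide +kernel) <|
    chain_nil (by decide +kernel))) <|
  cells_cons (cell_intro (by decide +kernel) (
    chain_cons (by decide +kernel) (by decide +kernel) <|
    chain_cons (by decide +kernel) (by decide +kernel) <|
    chain_cons (by decide +kernel) (by decide +kernel) <|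
    chain_cons (by decide +kernel) (by decide +kernel) <|
    chain_cons (by decide +kernel) (by decide +kernel) <|
    chain_cons (by decide +kernel) (by decide +kernel) <|
    chain_cons (by decide +kernel) (by decide +kernel) <|
    chain_cons (by decide +kernel) (by decide +kernel) <|
    chain_cons (by decide +kernel) (by decide +kernel) <|
    chain_nil (by decide +kernel))) <|
  cells_nil (by decide +kernel)

theorem band7_ok : bandB 1125000 band7 = true :=
  band_intro (by decide +kernel) <|
  cells_cons (cell_intro (by decide +kernel) (
    chain_cons (by decide +kernel) (by decide +kernel) <|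
    chain_cons (by decide +kernel) (by decide +kernel) <|
    chain_cons (by decide +kernel) (by decide +kernel) <|
    chain_cons (by decide +kernel) (by decide +kernel) <|
    chain_cons (by decide +kernel) (by decide +kernel) <|
    chain_cons (by decide +kernel) (by decide +kernel) <|
    chain_cons (by decide +kernel) (by decide +kernel) <|
    chain_cons (by decide +kernel) (by decide +kernel) <|
    chain_cons (by decide +kernel) (by decide +kernel) <|
    chain_cons (by decide +kernel) (by decide +kernel) <|
    chain_cons (by decide +kernel) (by decide +kernel) <|
    chain_nil (by decide +kernel))) <|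
  cells_nil (by decide +kernel)

theorem band8_ok : bandB 1140000 band8 = true :=
  band_intro (by decide +kernel) <|
  cells_cons (cell_intro (by decide +kernel) (
    chain_cons (by decide +kernel) (by decide +kernel) <|
    chain_cons (by decide +kernel) (by decide +kernel) <|
    chain_cons (by decide +kernel) (by decide +kernel) <|
    chain_cons (by decide +kernel) (by decide +kernel) <|
    chain_cons (by decide +kernel) (by decide +kernel) <|
    chain_cons (by decide +kernel) (by decide +kernel) <|
    chain_cons (by decide +kernel) (by decide +kernel) <|
    chain_cons (by decide +kernel) (by decide +kernel) <|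
    chain_cons (by decide +kernel) (by decide +kernel) <|
    chain_cons (by decide +kernel) (by decide +kernel) <|
    chain_nil (by decide +kernel))) <|
  cells_nil (by decide +kernel)

theorem band9_ok : bandB 1160000 band9 = true :=
  band_intro (by decide +kernel) <|
  cells_cons (cell_intro (by decide +kernel) (
    chain_cons (by decide +kernel) (by decide +kernel) <|
    chain_cons (by decide +kernel) (by decide +kernel) <|
    chain_cons (by decide +kernel) (by decide +kernel) <|
    chain_cons (by decide +kernel) (by decide +kernel) <|
    chain_cons (by decide +kernel) (by decide +kernel) <|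
    chain_cons (by decide +kernel) (by decide +kernel) <|
    chain_cons (by decide +kernel) (by decide +kernel) <|
    chain_cons (by decide +kernel) (by decide +kernel) <|
    chain_cons (by decide +kernel) (by decide +kernel) <|
    chain_cons (by decide +kernel) (by decide +kernel) <|
    chain_nil (by decide +kernel))) <|
  cells_nil (by decide +kernel)

theorem band10_ok : bandB 1180000 band10 = true :=
  band_intro (by decide +kernel) <|
  cells_cons (cell_intro (by decide +kernel) (
    chain_cons (by decide +kernel) (by decide +kernel) <|
    chain_cons (by decide +kernel) (by decide +kernel) <|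
    chain_cons (by decide +kernel) (by decide +kernel) <|
    chain_cons (by decide +kernel) (by decide +kernel) <|
    chain_cons (by decide +kernel) (by decide +kernel) <|
    chain_cons (by decide +kernel) (by decide +kernel) <|
    chain_cons (by decide +kernel) (by decide +kernel) <|
    chain_cons (by decide +kernel) (by decide +kernel) <|
    chain_cons (by decide +kernel) (by decide +kernel) <|
    chain_cons (by decide +kernel) (by decide +kernel) <|
    chain_nil (by decide +kernel))) <|
  cells_nil (by decide +kernel)

theorem band11_ok : bandB 1200000 band11 = true :=
  band_intro (by decide +kernel) <|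
  cells_cons (cell_intro (by decide +kernel) (
    chain_cons (by decide +kernel) (by decide +kernel) <|
    chain_cons (by decide +kernel) (by decide +kernel) <|
    chain_cons (by decide +kernel) (by decide +kernel) <|
    chain_cons (by decide +kernel) (by decide +kernel) <|
    chain_cons (by decide +kernel) (by decide +kernel) <|
    chain_cons (by decide +kernel) (by decide +kernel) <|
    chain_cons (by decide +kernel) (by decide +kernel) <|
    chain_cons (by decide +kernel) (by decide +kernel) <|
    chain_cons (by decide +kernel) (by decide +kernel) <|
    chain_cons (by decide +kernel) (by decide +kernel) <|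
    chain_nil (by decide +kernel))) <|
  cells_nil (by decide +kernel)

theorem band12_ok : bandB 1250000 band12 = true :=
  band_intro (by decide +kernel) <|
  cells_cons (cell_intro (by decide +kernel) (
    chain_cons (by decide +kernel) (by decide +kernel) <|
    chain_cons (by decide +kernel) (by decide +kernel) <|
    chain_cons (by decide +kernel) (by decide +kernel) <|
    chain_cons (by decide +kernel) (by decide +kernel) <|
    chain_cons (by decide +kernel) (by decide +kernel) <|
    chain_cons (by decide +kernel) (by decide +kernel) <|
    chain_cons (by decide +kernel) (by decide +kernel) <|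
    chain_cons (by decide +kernel) (by decide +kernel) <|
    chain_cons (by decide +kernel) (by decide +kernel) <|
    chain_cons (by decide +kernel) (by decide +kernel) <|
    chain_cons (by decide +kernel) (by decide +kernel) <|
    chain_cons (by decide +kernel) (by decide +kernel) <|
    chain_nil (by decide +kernel))) <|
  cells_nil (by decide +kernel)

theorem bands_ok : bandsB 1050000 [band0, band1, band2, band3, band4, band5, band6, band7, band8, band9, band10, band11, band12] = true := by
  simp only [bandsB, Bool.and_eq_true, decide_eq_true_eq]
  exact ⟨band0_ok, band1_ok, band2_ok, band3_ok, band4_ok, band5_ok, band6_ok, band7_ok, band8_ok, band9_ok, band10_ok, band11_ok, band12_ok, rfl⟩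

end KinkSplit

/-- The strict form of D3. -/
theorem kinkSplit_lt (H p : ℝ) (G : GapData (1 / π) H p) (i j k : Fin 3) (hij : i ≠ j) (hki : k ≠ i)
    (hkj : k ≠ j) (h0 : 21 / 20 ≤ H) (h1 : H ≤ 179 / 125) (hi : G.C i ≤ 4 / 125)
    (hj : 8 / 25 ≤ G.C j) (hk : 8 / 25 ≤ G.C k) : 1 < p :=
  KinkSplit.bands_sound _ _ (by simp) KinkSplit.bands_ok
    (le_trans (by norm_num [KinkSplit.re]) h0) (h1.trans_eq (by norm_num [KinkSplit.re]))
    G i j k hij hki hkj hi hj hk

/-- **D3.** -/
theorem kinkSplit : KinkSplitSpec := fun H p G i j k hij hki hkj h0 h1 hi hj hk =>
  (kinkSplit_lt H p G i j k hij hki hkj h0 h1 hi hj hk).le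

end Vale.Agent.P232.Gap
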