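import Vale.Agent.P232.Gap.Island
import Vale.Agent.P232.Gap.Spec

/-!
# P232 gap: the one-variable lemma below the kink

`H = j / (2 V)` with `j = √(π V)`; a first-integral constant `C ≥ (3/10) (j/2)` gives
`C + Φ_H(C) ≥ j/2`.
-/

open MeasureTheory Set intervalIntegral
open scoped Real

noncomputable section

namespace Vale.Agent.P232.Gap

/-- The transverse energy forced by the first integral `(H A + C) dt`. -/
def phiFun (H C : ℝ) : ℝ :=
  ∫ A in (0 : ℝ)..1, Real.sqrt (max 0 (1 - ((H * A + C) / lmin A) ^ 2))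

theorem phiFun_integrable (H C a b : ℝ) :
    IntervalIntegrable (fun A => Real.sqrt (max 0 (1 - ((H * A + C) / lmin A) ^ 2))) volume a b := by
  refine IntervalIntegrable.mono_fun (f := fun _ : ℝ => (1 : ℝ)) intervalIntegrable_const
    (Measurable.aestronglyMeasurable (by unfold lmin; fun_prop))
    (Filter.Eventually.of_forall fun A => ?_)
  simp only [Real.norm_eq_abs, abs_of_nonneg (Real.sqrt_nonneg _), abs_one]
  exact Real.sqrt_le_one.2 (max_le zero_le_one (sub_le_self _ (sq_nonneg _)))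

theorem phiFun_nonneg (H C : ℝ) : 0 ≤ phiFun H C :=
  intervalIntegral.integral_nonneg zero_le_one fun _ _ => Real.sqrt_nonneg _

theorem phiFun_antitone {H C C' : ℝ} (hH : 0 ≤ H) (hC : 0 ≤ C) (hCC : C ≤ C') :
    phiFun H C' ≤ phiFun H C := by
  refine integral_mono_on zero_le_one (phiFun_integrable H C' 0 1) (phiFun_integrable H C 0 1)
    fun A hA => Real.sqrt_le_sqrt ?_
  rw [div_pow, div_pow]
  gcongr
  exact add_nonneg (mul_nonneg hH hA.1) hC

theorem lmin_eq_sqrt {A : ℝ} (hA : A ≤ 1 / π) : lmin A = Real.sqrt (π * A) := by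
  have hπ := Real.pi_gt_three
  have h1 : π * A ≤ 1 := by rw [le_div_iff₀ Real.pi_pos] at hA; linarith
  rw [lmin, min_eq_left (Real.sqrt_le_one.2 h1), min_eq_left (Real.sqrt_le_sqrt (by nlinarith))]

theorem lmin_eq_one {A : ℝ} (hA : 1 / π ≤ A) (hA' : A ≤ 1 - 1 / π) : lmin A = 1 := by
  have hπ := Real.pi_pos
  rw [div_le_iff₀ hπ] at hA
  rw [le_sub_iff_add_le, ← le_sub_iff_add_le', div_le_iff₀ hπ] at hA'
  rw [lmin, min_eq_right (Real.one_le_sqrt.2 (by linarith)),
    min_eq_left (Real.one_le_sqrt.2 (by linarith))]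

theorem sd_eq {H C A : ℝ} (h : 0 ≤ H * A + C) :
    sd H C A = Real.sqrt (max 0 (1 - ((H * A + C) / lmin A) ^ 2)) := by
  rw [sd, max_eq_right h]

theorem phi_eq {H C : ℝ} (hH : 0 ≤ H) (hC : 0 ≤ C) : phi H C = phiFun H C :=
  integral_congr fun A hA => by
    rw [uIcc_of_le zero_le_one] at hA
    exact sd_eq (add_nonneg (mul_nonneg hH hA.1) hC)

/-- The constants of the branch below the kink. -/
structure BelowKink (V j H : ℝ) : Prop where
  lower : 1 / 4 ≤ V
  upper : V ≤ 1 / π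
  jdef : j = Real.sqrt (π * V)
  hdef : H = j / (2 * V)

namespace BelowKink

variable {V j H : ℝ} (h : BelowKink V j H)
include h

theorem V_pos : 0 < V := lt_of_lt_of_le (by norm_num) h.lower

theorem j_sq : j ^ 2 = π * V := by
  rw [h.jdef, Real.sq_sqrt (mul_nonneg Real.pi_nonneg h.V_pos.le)]

theorem j_lower : 88622 / 100000 ≤ j := by
  rw [h.jdef]
  exact Real.le_sqrt_of_sq_le (by nlinarith [Real.pi_gt_d6, h.lower])

theorem j_le_one : j ≤ 1 := by
  rw [h.jdef]
  refine Real.sqrt_le_one.2 ?_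
  have := h.upper
  rw [le_div_iff₀ Real.pi_pos] at this
  linarith

theorem j_pos : 0 < j := lt_of_lt_of_le (by norm_num) h.j_lower

theorem H_pos : 0 < H := h.hdef ▸ div_pos h.j_pos (mul_pos two_pos h.V_pos)

theorem H_ge : π / 2 ≤ H := by
  have h1 := h.j_pos
  have h2 := h.V_pos
  have e : H = π / (2 * j) := by
    rw [h.hdef, div_eq_div_iff (by positivity) (by positivity)]
    linear_combination (2 : ℝ) * h.j_sq
  rw [e]
  exact div_le_div_of_nonneg_left Real.pi_nonneg (by linarith) (by linarith [h.j_le_one])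

theorem target_eq (u : ℝ) : V * (π / (2 * j) * u ^ 2) = j / 2 * u ^ 2 := by
  have := h.j_pos.ne'
  field_simp
  linear_combination (-u ^ 2) * h.j_sq

theorem top_le {X : ℝ} (hX : -1 ≤ X) (hX' : X ≤ 1 / j - 1) : V * (1 + X) ^ 2 ≤ 1 / π := by
  have hjx : j * (1 + X) ≤ 1 := by
    have := mul_le_mul_of_nonneg_left (show 1 + X ≤ 1 / j by linarith) h.j_pos.le
    rwa [mul_one_div_cancel h.j_pos.ne'] at this
  have := pow_le_one₀ (n := 2) (mul_nonneg h.j_pos.le (by linarith)) hjx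
  rw [mul_pow, h.j_sq] at this
  rw [le_div_iff₀ Real.pi_pos]
  linarith

/-- The integrand on the island branch, in the variable `X`. -/
theorem island_integrand {C u X : ℝ} (hC : C = j / 2 * (1 - u ^ 2)) (hX : -1 < X)
    (hX' : X ≤ 1 / j - 1) (hXu : X ^ 2 ≤ u ^ 2) (hu : u ≤ 1) (hu0 : 0 ≤ u) :
    Real.sqrt (max 0 (1 - ((H * (V * (1 + X) ^ 2) + C) / lmin (V * (1 + X) ^ 2)) ^ 2)) *
      (V * (2 * (1 + X))) = V * Real.sqrt ((u ^ 2 - X ^ 2) * ((X + 2) ^ 2 - u ^ 2)) := by
  have hj := h.j_pos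
  have hV := h.V_pos
  have hx : 0 < 1 + X := by linarith
  have hjx : j * (1 + X) ≤ 1 := by
    have := mul_le_mul_of_nonneg_left (show 1 + X ≤ 1 / j by linarith) hj.le
    rwa [mul_one_div_cancel hj.ne'] at this
  have hA : V * (1 + X) ^ 2 ≤ 1 / π := h.top_le hX.le hX'
  rw [lmin_eq_sqrt hA, show π * (V * (1 + X) ^ 2) = (j * (1 + X)) ^ 2 by
    rw [mul_pow, h.j_sq]; ring, Real.sqrt_sq (by positivity)]
  have hY : (u ^ 2) ≤ (X + 2) ^ 2 := pow_le_pow_left₀ hu0 (by linarith) 2
  set P := (u ^ 2 - X ^ 2) * ((X + 2) ^ 2 - u ^ 2) with hP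
  have hP0 : 0 ≤ P := mul_nonneg (sub_nonneg.2 hXu) (sub_nonneg.2 hY)
  have e : 1 - ((H * (V * (1 + X) ^ 2) + C) / (j * (1 + X))) ^ 2 = P / (2 * (1 + X)) ^ 2 := by
    rw [hP, hC, h.hdef]
    field_simp
    ring
  rw [e, max_eq_right (div_nonneg hP0 (sq_nonneg _)), Real.sqrt_div hP0,
    Real.sqrt_sq (by positivity)]
  field_simp

/-- The island branch of `Φ`. -/
theorem island_part {C u v : ℝ} (hC : C = j / 2 * (1 - u ^ 2)) (hu0 : 0 ≤ u) (hu : u < 1)
    (hv0 : -u ≤ v) (hvu : v ≤ u) (hv : v ≤ 1 / j - 1) :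
    ∫ A in V * (1 - u) ^ 2..V * (1 + v) ^ 2,
        Real.sqrt (max 0 (1 - ((H * A + C) / lmin A) ^ 2)) =
      V * ∫ X in -u..v, Real.sqrt ((u ^ 2 - X ^ 2) * ((X + 2) ^ 2 - u ^ 2)) := by
  have hf : ∀ X ∈ uIcc (-u) v, HasDerivAt (fun X => V * (1 + X) ^ 2) (V * (2 * (1 + X))) X :=
    fun X _ => ((((hasDerivAt_id X).const_add (1 : ℝ)).pow 2).const_mul V).congr_deriv
      (by norm_num)
  have hg : ContinuousOn (fun A => Real.sqrt (max 0 (1 - ((H * A + C) / lmin A) ^ 2)))
      ((fun X => V * (1 + X) ^ 2) '' uIcc (-u) v) := by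
    rintro A ⟨X, hX, rfl⟩
    rw [uIcc_of_le hv0] at hX
    have hl : lmin (V * (1 + X) ^ 2) ≠ 0 := by
      have hx : 0 < 1 + X := by linarith [hX.1]
      have hA : V * (1 + X) ^ 2 ≤ 1 / π := h.top_le (by linarith) (hX.2.trans hv)
      rw [lmin_eq_sqrt hA]
      have := h.V_pos
      positivity
    refine ContinuousAt.continuousWithinAt ?_
    have : ContinuousAt lmin (V * (1 + X) ^ 2) := by unfold lmin; fun_prop
    fun_prop (disch := assumption)
  rw [show V * (1 - u) ^ 2 = (fun X => V * (1 + X) ^ 2) (-u) by ring,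
    ← intervalIntegral.integral_comp_mul_deriv' hf (by fun_prop) hg,
    ← intervalIntegral.integral_const_mul]
  refine integral_congr fun X hX => ?_
  rw [uIcc_of_le hv0] at hX
  exact h.island_integrand hC (by linarith [hX.1]) (hX.2.trans hv)
    (sq_le_sq' hX.1 (hX.2.trans hvu)) hu.le hu0

/-- The flat branch of `Φ`. -/
theorem flat_part {C e : ℝ} (he : e = 1 - H / π - C) (he0 : 0 ≤ e) (he1 : e ≤ 35004 / 100000) :
    1 / H * (∫ s in (0 : ℝ)..e, Real.sqrt (s * (2 - s))) ≤
      ∫ A in 1 / π..1 / π + e / H, Real.sqrt (max 0 (1 - ((H * A + C) / lmin A) ^ 2)) := by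
  have hH := h.H_pos
  have hend : 1 / π + e / H ≤ 1 - 1 / π := by
    have hH1 : 3 / 2 ≤ H := le_trans (by linarith [Real.pi_gt_three]) h.H_ge
    have h1 : e / H ≤ 24 / 100 := by rw [div_le_iff₀ hH]; linarith
    have h2 : 1 / π ≤ 32 / 100 := by
      rw [div_le_iff₀ Real.pi_pos]; linarith [Real.pi_gt_d4]
    linarith
  have hc : 1 / H * (∫ s in (0 : ℝ)..e, Real.sqrt (s * (2 - s))) =
      ∫ A in 1 / π..1 / π + e / H, Real.sqrt ((1 - C - H * A) * (2 - (1 - C - H * A))) := by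
    rw [intervalIntegral.integral_comp_sub_mul (fun s => Real.sqrt (s * (2 - s))) hH.ne']
    rw [show 1 - C - H * (1 / π + e / H) = 0 by field_simp; rw [he]; field_simp; ring,
      show 1 - C - H * (1 / π) = e by rw [he]; ring, smul_eq_mul, one_div]
  rw [hc]
  refine le_of_eq (integral_congr fun A hA => ?_)
  rw [uIcc_of_le (by linarith [div_nonneg he0 hH.le])] at hA
  have h1 : H * A ≤ H / π + e := by
    calc H * A ≤ H * (1 / π + e / H) := mul_le_mul_of_nonneg_left hA.2 hH.le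
      _ = _ := by field_simp
  have h2 : H / π ≤ H * A := by
    calc H / π = H * (1 / π) := by ring
      _ ≤ _ := mul_le_mul_of_nonneg_left hA.1 hH.le
  rw [lmin_eq_one hA.1 (hA.2.trans hend), div_one, max_eq_right (by nlinarith)]
  ring_nf

omit h in
/-- A sub-interval carries no more than `Φ`. -/
theorem part_le_phiFun {C A B : ℝ} (hA : 0 ≤ A) (hAB : A ≤ B) (hB : B ≤ 1) :
    ∫ x in A..B, Real.sqrt (max 0 (1 - ((H * x + C) / lmin x) ^ 2)) ≤ phiFun H C :=
  integral_mono_interval hA hAB hB (Filter.Eventually.of_forall fun _ => Real.sqrt_nonneg _)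
    (phiFun_integrable H C 0 1)

/-- The island stays below `1/π`: no flat branch. -/
theorem gain_island {C u : ℝ} (hC : C = j / 2 * (1 - u ^ 2)) (hu : 0 < u) (hk : u ≤ 1 / j - 1) :
    j / 2 * u ^ 2 < phiFun H C := by
  have hj := h.j_pos
  have hV := h.V_pos
  have hu' : u ≤ 1284 / 10000 := by
    refine hk.trans ?_
    rw [sub_le_iff_le_add, div_le_iff₀ hj]; linarith [h.j_lower]
  have hs : π / (2 * j) * u ^ 2 <
      ∫ X in -u..u, Real.sqrt ((u ^ 2 - X ^ 2) * ((X + 2) ^ 2 - u ^ 2)) := by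
    have h1 := island_ge (θ := 1) hu (by linarith) zero_le_one le_rfl
    rw [one_mul] at h1
    refine lt_of_lt_of_le ?_ h1
    rw [one_pow, one_pow, sub_self, Real.zero_rpow (by norm_num), mul_zero, sub_zero, mul_comm]
    refine mul_lt_mul_of_pos_left ?_ (pow_pos hu 2)
    have ha : 3 / 2 ≤ Real.sqrt (1 - u) + Real.sqrt (1 + u) := by
      have := Real.le_sqrt_of_sq_le (x := 8 / 10) (y := 1 - u) (by linarith)
      have := Real.le_sqrt_of_sq_le (x := 1) (y := 1 + u) (by linarith)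
      linarith
    calc π / (2 * j) ≤ 32 / 10 / (2 * (88 / 100)) := by
          gcongr
          · linarith [Real.pi_lt_d4]
          · linarith [h.j_lower]
      _ < 3 / 2 * (14 / 10) := by norm_num
      _ ≤ _ := mul_le_mul ha (by linarith [Real.pi_gt_three]) (by norm_num) (by linarith)
  rw [← h.target_eq]
  refine (mul_lt_mul_of_pos_left hs hV).trans_le ?_
  rw [← h.island_part hC hu.le (by linarith) (by linarith) le_rfl hk]
  refine part_le_phiFun (by positivity) (mul_le_mul_of_nonneg_left (by nlinarith) hV.le) ?_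
  exact (h.top_le (by linarith) hk).trans ((div_le_one Real.pi_pos).2 (by linarith [Real.pi_gt_three]))

/-- The island reaches `1/π`: island and flat branch. -/
theorem gain_flat {C u : ℝ} (hC : C = j / 2 * (1 - u ^ 2)) (hu : 0 < u) (hu1 : u ≤ 8367 / 10000)
    (hk : 1 / j - 1 ≤ u) : j / 2 * u ^ 2 < phiFun H C := by
  have hj := h.j_pos
  have hV := h.V_pos
  set v := 1 / j - 1 with hv
  have hv0 : 0 ≤ v := sub_nonneg.2 ((one_le_div hj).2 h.j_le_one)
  have hv1 : v ≤ 1284 / 10000 := by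
    rw [hv, sub_le_iff_le_add, div_le_iff₀ hj]; linarith [h.j_lower]
  set θ := v / u with hθdef
  have hθu : θ * u = v := div_mul_cancel₀ _ hu.ne'
  have hθ : 0 ≤ θ := div_nonneg hv0 hu.le
  have hθ1 : θ ≤ 1 := (div_le_one hu).2 hk
  set e := j / 2 * (u ^ 2 * (1 - θ ^ 2)) with he
  have hjv : j * (1 + θ * u) = 1 := by
    rw [hθu, hv, add_sub_cancel, mul_one_div_cancel hj.ne']
  have hs := island_flat (e := e) hu hu1 hθ hθ1 (hθu ▸ hv1) hjv rfl
  rw [hθu] at hs
  have hee : e = 1 - H / π - C := by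
    have e2 : H / π = 1 / (2 * j) := by
      rw [h.hdef]
      field_simp
      linear_combination h.j_sq
    rw [e2, he, hC, show u ^ 2 * (1 - θ ^ 2) = u ^ 2 - (θ * u) ^ 2 by ring, hθu, hv]
    field_simp
    ring
  have h1θ : 0 ≤ 1 - θ ^ 2 := sub_nonneg.2 (pow_le_one₀ hθ hθ1)
  have he0 : 0 ≤ e := by positivity
  have he1 : e ≤ 35004 / 100000 := by
    calc e ≤ 1 / 2 * ((8367 / 10000) ^ 2 * 1) :=
          mul_le_mul (by linarith [h.j_le_one])
            (mul_le_mul (pow_le_pow_left₀ hu.le hu1 2) (sub_le_self _ (sq_nonneg θ)) h1θ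
              (by norm_num)) (by positivity) (by norm_num)
      _ ≤ _ := by norm_num
  have hfl := h.flat_part hee he0 he1
  have hA2 : V * (1 + v) ^ 2 = 1 / π := by
    rw [hv, add_sub_cancel, div_pow, one_pow, h.j_sq]
    field_simp
  have hisl := h.island_part hC hu.le (by linarith) (by linarith) hk le_rfl
  have hend : 1 / π ≤ 1 / π + e / H := le_add_of_nonneg_right (div_nonneg he0 h.H_pos.le)
  have hend1 : 1 / π + e / H ≤ 1 := by
    have h1 : e / H ≤ 1 / 2 := by
      rw [div_le_iff₀ h.H_pos]; linarith [h.H_ge, Real.pi_gt_three]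
    have h2 : 1 / π ≤ 1 / 3 := by gcongr; exact Real.pi_gt_three.le
    linarith
  have hA12 : V * (1 - u) ^ 2 ≤ V * (1 + v) ^ 2 :=
    mul_le_mul_of_nonneg_left (pow_le_pow_left₀ (by linarith) (by linarith) 2) hV.le
  have hH : V * (2 / j) = 1 / H := by rw [h.hdef]; field_simp
  rw [← h.target_eq]
  refine (mul_lt_mul_of_pos_left hs hV).trans_le ?_
  rw [mul_add, ← mul_assoc, hH, ← hisl]
  refine le_trans (add_le_add le_rfl hfl) ?_
  rw [hA2, integral_add_adjacent_intervals (phiFun_integrable _ _ _ _) (phiFun_integrable _ _ _ _)]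
  exact part_le_phiFun (by positivity) ((hA2 ▸ hA12).trans hend) hend1

/-- Lemma B: the one-variable inequality below the kink. -/
theorem lt_add_phiFun {C : ℝ} (hC : 3 / 10 * (j / 2) ≤ C) (hsmall : C < j / 2) :
    j / 2 < C + phiFun H C := by
  have hj := h.j_pos
  set u := Real.sqrt (1 - 2 * C / j) with hu
  have hr : 0 < 1 - 2 * C / j := by
    rw [sub_pos, div_lt_one hj]; linarith
  have hu0 : 0 < u := Real.sqrt_pos.2 hr
  have hCu : C = j / 2 * (1 - u ^ 2) := by rw [hu, Real.sq_sqrt hr.le]; field_simp; ring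
  have hu1 : u ≤ 8367 / 10000 := by
    have : 3 / 10 ≤ 2 * C / j := by rw [le_div_iff₀ hj]; linarith
    exact (Real.sqrt_le_iff).2 ⟨by norm_num, by linarith⟩
  have hg : j / 2 * u ^ 2 < phiFun H C :=
    (le_total u (1 / j - 1)).elim (h.gain_island hCu hu0) (h.gain_flat hCu hu0 hu1)
  linear_combination hg - hCu

/-- Lemma B, closed form. -/
theorem le_add_phiFun {C : ℝ} (hC : 3 / 10 * (j / 2) ≤ C) : j / 2 ≤ C + phiFun H C := by
  rcases le_or_gt (j / 2) C with hbig | hsmall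
  · linarith [phiFun_nonneg H C]
  · exact (h.lt_add_phiFun hC hsmall).le

/-- All three constants small is impossible: each direction then carries `(7/20) j`. -/
theorem phiFun_small {C : ℝ} (hC0 : 0 ≤ C) (hC : C ≤ 3 / 10 * (j / 2)) :
    7 / 20 * j ≤ phiFun H C := by
  have := h.le_add_phiFun (le_refl (3 / 10 * (j / 2)))
  have := phiFun_antitone h.H_pos.le hC0 hC
  linarith

end BelowKink

end Vale.Agent.P232.Gap
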