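import Vale.Agent.P232.Gap.LemmaB

/-!
# P232 gap: the one-variable lemma above the kink

With `H = 0` every first-integral constant `0 ≤ C` already gives `1 ≤ C + Φ₀(C)`.
-/

open MeasureTheory Set intervalIntegral
open scoped Real

noncomputable section

namespace Vale.Agent.P232.Gap

theorem lmin_symm (A : ℝ) : lmin (1 - A) = lmin A := by
  rw [lmin, lmin, sub_sub_cancel]
  ac_rfl

/-- The integrand of `Φ₀`. -/
def gainFun (C A : ℝ) : ℝ := Real.sqrt (max 0 (1 - (C / lmin A) ^ 2))

theorem phiFun_zero (C : ℝ) : phiFun 0 C = ∫ A in (0 : ℝ)..1, gainFun C A := by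
  simp [phiFun, gainFun]

theorem gainFun_integrable (C a b : ℝ) : IntervalIntegrable (gainFun C) volume a b := by
  have h := phiFun_integrable 0 C a b
  simp only [zero_mul, zero_add] at h
  exact h

/-- `Φ₀` splits into two island pieces and the flat middle. -/
theorem phiFun_zero_eq {C : ℝ} (hC : 0 ≤ C) (hC1 : C ≤ 1) :
    phiFun 0 C = 2 * (∫ A in (0 : ℝ)..1 / π, gainFun C A) +
      (1 - 2 / π) * Real.sqrt (1 - C ^ 2) := by
  have h2 : 1 / π ≤ 1 / 3 := by gcongr; exact Real.pi_gt_three.le
  have hI := gainFun_integrable C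
  have hmid : ∫ A in 1 / π..1 - 1 / π, gainFun C A = (1 - 2 / π) * Real.sqrt (1 - C ^ 2) := by
    rw [integral_congr (g := fun _ => Real.sqrt (1 - C ^ 2)) fun A hA => ?_,
      intervalIntegral.integral_const, smul_eq_mul]
    · ring
    · rw [uIcc_of_le (by linarith)] at hA
      simp only [gainFun, lmin_eq_one hA.1 hA.2, div_one]
      rw [max_eq_right (sub_nonneg.2 (pow_le_one₀ hC hC1))]
  have hhigh : ∫ A in 1 - 1 / π..1, gainFun C A = ∫ A in (0 : ℝ)..1 / π, gainFun C A := by
    have := intervalIntegral.integral_comp_sub_left (a := (0 : ℝ)) (b := 1 / π) (gainFun C) 1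
    rw [sub_zero] at this
    rw [← this]
    exact integral_congr fun A _ => by simp only [gainFun, lmin_symm]
  rw [phiFun_zero, ← integral_add_adjacent_intervals (hI 0 (1 / π)) (hI _ 1),
    ← integral_add_adjacent_intervals (hI (1 / π) (1 - 1 / π)) (hI _ 1), hmid, hhigh]
  ring

theorem gainFun_island {C A : ℝ} (hA : C ^ 2 / π ≤ A) (hA' : A ≤ 1 / π) (hA0 : 0 < A) :
    gainFun C A = Real.sqrt (1 - C ^ 2 / (π * A)) := by
  have h : 0 < π * A := mul_pos Real.pi_pos hA0
  rw [gainFun, lmin_eq_sqrt hA', div_pow, Real.sq_sqrt h.le, max_eq_right]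
  rw [sub_nonneg, div_le_one h]
  rw [div_le_iff₀ Real.pi_pos] at hA
  linarith

/-- Small constants: `√(1 - r) ≥ 1 - r`. -/
theorem island_small {C : ℝ} (hC : 0 < C) (hC1 : C ≤ 1) :
    (1 - C ^ 2) / π + 2 * (C ^ 2 / π) * Real.log C ≤ ∫ A in (0 : ℝ)..1 / π, gainFun C A := by
  have hπ := Real.pi_pos
  have hlo : 0 < C ^ 2 / π := by positivity
  have hle : C ^ 2 / π ≤ 1 / π := by gcongr; exact pow_le_one₀ hC.le hC1
  have hpos : ∀ A ∈ uIcc (C ^ 2 / π) (1 / π), 0 < A := fun A hA => by
    rw [uIcc_of_le hle] at hA; exact hlo.trans_le hA.1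
  have hd : ∀ A ∈ uIcc (C ^ 2 / π) (1 / π), HasDerivAt (fun A => A - C ^ 2 / π * Real.log A)
      (1 - C ^ 2 / (π * A)) A := fun A hA =>
    ((hasDerivAt_id A).sub ((Real.hasDerivAt_log (hpos A hA).ne').const_mul _)).congr_deriv
      (by field_simp)
  have hint : IntervalIntegrable (fun A => 1 - C ^ 2 / (π * A)) volume (C ^ 2 / π) (1 / π) :=
    ContinuousOn.intervalIntegrable fun A hA => by
      have := (hpos A hA).ne'
      have : π * A ≠ 0 := mul_ne_zero hπ.ne' this
      exact ContinuousAt.continuousWithinAt (by fun_prop (disch := assumption))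
  calc (1 - C ^ 2) / π + 2 * (C ^ 2 / π) * Real.log C
      = ∫ A in C ^ 2 / π..1 / π, (1 - C ^ 2 / (π * A)) := by
        rw [integral_eq_sub_of_hasDerivAt hd hint, one_div, Real.log_div (by positivity) hπ.ne',
          Real.log_pow, Real.log_inv]
        push_cast
        ring
    _ ≤ ∫ A in C ^ 2 / π..1 / π, gainFun C A := by
        refine integral_mono_on hle hint (gainFun_integrable C _ _) fun A hA => ?_
        rw [gainFun_island hA.1 hA.2 (hlo.trans_le hA.1)]
        have h0 : 0 ≤ 1 - C ^ 2 / (π * A) := by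
          rw [sub_nonneg, div_le_one (mul_pos hπ (hlo.trans_le hA.1))]
          have := hA.1
          rw [div_le_iff₀ hπ] at this
          linarith
        exact Real.le_sqrt_of_sq_le (pow_le_of_le_one h0
          (sub_le_self _ (by have := hlo.trans_le hA.1; positivity)) two_ne_zero)
    _ ≤ _ := integral_mono_interval hlo.le hle le_rfl
        (Filter.Eventually.of_forall fun _ => Real.sqrt_nonneg _) (gainFun_integrable C _ _)

/-- Large constants: the chord of the concave integrand. -/
theorem island_large {C : ℝ} (hC : 0 < C) (hC1 : C ≤ 1) :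
    (1 - C ^ 2) / π * (Real.sqrt (1 - C ^ 2) / 2) ≤ ∫ A in (0 : ℝ)..1 / π, gainFun C A := by
  have hπ := Real.pi_pos
  rcases hC1.eq_or_lt with rfl | hlt
  · simpa using intervalIntegral.integral_nonneg (f := gainFun 1) (μ := volume)
      (one_div_nonneg.2 hπ.le) fun _ _ => Real.sqrt_nonneg _
  have hs : 0 < 1 - C ^ 2 := sub_pos.2 (pow_lt_one₀ hC.le hlt two_ne_zero)
  have hlo : 0 < C ^ 2 / π := by positivity
  have hle : C ^ 2 / π ≤ 1 / π := by gcongr; linarith
  set s := Real.sqrt (1 - C ^ 2) with hsdef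
  set k := s * (π / (1 - C ^ 2)) with hk
  calc (1 - C ^ 2) / π * (s / 2)
      = ∫ A in C ^ 2 / π..1 / π, k * (A - C ^ 2 / π) := by
        rw [intervalIntegral.integral_const_mul, intervalIntegral.integral_comp_sub_right
          (fun A => A), integral_id, sub_self, hk]
        field_simp
        ring
    _ ≤ ∫ A in C ^ 2 / π..1 / π, gainFun C A := by
        refine integral_mono_on hle (Continuous.intervalIntegrable (by fun_prop) _ _)
          (gainFun_integrable C _ _) fun A hA => ?_
        have hA0 := hlo.trans_le hA.1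
        rw [gainFun_island hA.1 hA.2 hA0]
        set w := (π * A - C ^ 2) / (1 - C ^ 2) with hw
        have hz : π * A ≤ 1 := by
          have := hA.2
          rw [le_div_iff₀ hπ] at this
          linarith
        have hw0 : 0 ≤ w := by
          refine div_nonneg ?_ hs.le
          have := hA.1
          rw [div_le_iff₀ hπ] at this
          linarith
        have e : k * (A - C ^ 2 / π) = s * w := by rw [hk, hw]; field_simp
        rw [e]
        refine Real.le_sqrt_of_sq_le ?_
        rw [mul_pow, hsdef, Real.sq_sqrt hs.le]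
        have hw1 : w ≤ 1 := (div_le_one hs).2 (by linarith)
        calc (1 - C ^ 2) * w ^ 2 ≤ (1 - C ^ 2) * w :=
              mul_le_mul_of_nonneg_left (pow_le_of_le_one hw0 hw1 two_ne_zero) hs.le
          _ ≤ (1 - C ^ 2) * w / (π * A) :=
              le_div_self (mul_nonneg hs.le hw0) (mul_pos hπ hA0) hz
          _ = _ := by rw [hw]; field_simp
    _ ≤ _ := integral_mono_interval hlo.le hle le_rfl
        (Filter.Eventually.of_forall fun _ => Real.sqrt_nonneg _) (gainFun_integrable C _ _)

/-- Lemma C: above the kink one direction suffices. -/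
theorem one_lt_add_phiFun_zero {C : ℝ} (hC : 0 < C) (hlt : C < 1) : 1 < C + phiFun 0 C := by
  have hC0 := hC.le
  rw [phiFun_zero_eq hC0 hlt.le]
  have hπ := Real.pi_pos
  have hπ3 := Real.pi_gt_d4
  have hs : 0 ≤ 1 - C ^ 2 := sub_nonneg.2 (pow_le_one₀ hC0 hlt.le)
  have hip : 1 / π ≤ 31832 / 100000 := by rw [div_le_iff₀ hπ]; linarith
  have h2π : 0 ≤ 1 - 2 / π := by
    rw [sub_nonneg, div_le_one hπ]; linarith
  rcases le_total C (1 / 2) with hh | hh
  · have hlog : -(100 / 271) / C ≤ Real.log C := by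
      have h1 := Real.log_le_sub_one_of_pos (x := (Real.exp 1)⁻¹ / C) (by positivity)
      rw [Real.log_div (by positivity) hC.ne', Real.log_inv, Real.log_exp] at h1
      have h2 : (Real.exp 1)⁻¹ / C ≤ 100 / 271 / C := by
        gcongr
        rw [inv_le_iff_one_le_mul₀ (Real.exp_pos 1)]
        linarith [Real.exp_one_gt_d9]
      rw [neg_div]
      linarith
    have hsqrt : 1 - C ^ 2 ≤ Real.sqrt (1 - C ^ 2) :=
      Real.le_sqrt_of_sq_le (pow_le_of_le_one hs (sub_le_self _ (sq_nonneg C)) two_ne_zero)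
    have h1 := island_small hC hlt.le
    have h2 := mul_le_mul_of_nonneg_left hsqrt h2π
    have h3 : -(100 / 271) * C ≤ C ^ 2 * Real.log C := by
      calc -(100 / 271) * C = C ^ 2 * (-(100 / 271) / C) := by field_simp
        _ ≤ _ := mul_le_mul_of_nonneg_left hlog (sq_nonneg C)
    have h4 := mul_le_mul_of_nonneg_left h3 (show 0 ≤ 4 * (1 / π) by positivity)
    have h5 := mul_le_mul_of_nonneg_right hip hC0
    have h6 := mul_le_mul_of_nonneg_left hh hC0
    linear_combination 2 * h1 + h2 + h4 + (400 / 271 : ℝ) * h5 + h6 +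
      (1 / 2 - 4 * (31832 / 100000) * (100 / 271) : ℝ) * hC
  · have h1 := island_large hC hlt.le
    set K := 1 - 31832 / 100000 * (1 + C ^ 2) with hKdef
    have hK : 0 ≤ K := by simp only [K]; nlinarith
    have hkey : 1 - C < Real.sqrt (1 - C ^ 2) * K := by
      rw [show 1 - C = Real.sqrt ((1 - C) ^ 2) from (Real.sqrt_sq (by linarith)).symm,
        ← Real.sqrt_sq hK, ← Real.sqrt_mul hs]
      refine Real.sqrt_lt_sqrt (sq_nonneg _) ?_
      calc (1 - C) ^ 2 = (1 - C) * (1 - C) := sq _
        _ < (1 - C) * ((1 + C) * K ^ 2) := by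
            refine mul_lt_mul_of_pos_left ?_ (by linarith)
            simp only [K]
            nlinarith [mul_nonneg (sub_nonneg.2 hh) (sub_nonneg.2 hlt.le),
              mul_nonneg hC0 (mul_nonneg (sub_nonneg.2 hh) (sub_nonneg.2 hlt.le))]
        _ = _ := by ring
    have h2 : Real.sqrt (1 - C ^ 2) * K ≤
        Real.sqrt (1 - C ^ 2) * (1 - 1 / π * (1 + C ^ 2)) := by
      refine mul_le_mul_of_nonneg_left ?_ (Real.sqrt_nonneg _)
      have := mul_le_mul_of_nonneg_right hip (show 0 ≤ 1 + C ^ 2 by positivity)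
      simp only [K]
      linarith
    linear_combination 2 * h1 + hkey + h2

/-- Lemma C, closed form. -/
theorem one_le_add_phiFun_zero {C : ℝ} (hC0 : 0 ≤ C) : 1 ≤ C + phiFun 0 C := by
  rcases le_or_gt 1 C with hbig | hlt
  · linarith [phiFun_nonneg 0 C]
  rcases hC0.eq_or_lt with rfl | hC
  · simp [phiFun]
  · exact (one_lt_add_phiFun_zero hC hlt).le

end Vale.Agent.P232.Gap
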