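import Vale.Agent.P232.Gap.Full
import Vale.Agent.P232.Gap.KinkSplit
import Vale.Agent.P232.Gap.Attained

/-!
# P232: the isoperimetric profile of the cubic torus and all its minimisers
-/

open MeasureTheory Set
open scoped Real

noncomputable section

namespace Vale.Agent.P232.Gap

theorem kinkSplitLt : KinkSplitLtSpec :=
  kinkSplit_lt

/-- Both halves of the conjecture and the existence of minimisers. -/
theorem q1 {V : ℝ} (hV : V ∈ Ioo (0 : ℝ) 1) :
    profile V = ENNReal.ofReal (candidate V) ∧ Rigid.ClassifiedAt V ∧
      ∃ E : Set R3, IsTorusSet E ∧ torusVolume E = V ∧ perimeter E = profile V :=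
  ⟨(full_of_split kinkSplitLt hV).1, (full_of_split kinkSplitLt hV).2,
    exists_minimiser_of_profile hV (full_of_split kinkSplitLt hV).1⟩

end Vale.Agent.P232.Gap
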