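import Vale.Agent.P232.Gap.Growth

/-!
# P232 gap: the one-variable data of an almost minimiser in one direction

Calibration with the first integral and behaviour at the two ends.
-/

open MeasureTheory Set Filter
open scoped Real Topology NNReal

noncomputable section

namespace Vale.Agent.P232.Gap

/-! ## The integrand -/

theorem continuous_lmin : Continuous lmin := by unfold lmin; fun_prop

theorem lmin_nonneg (a : ℝ) : 0 ≤ lmin a :=
  le_min (le_min (Real.sqrt_nonneg _) zero_le_one) (Real.sqrt_nonneg _)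

theorem lmin_pos_of_mem {a : ℝ} (h : a ∈ Ioo (0 : ℝ) 1) : 0 < lmin a :=
  lt_min (lt_min (Real.sqrt_pos.2 (mul_pos Real.pi_pos h.1)) one_pos)
    (Real.sqrt_pos.2 (mul_pos Real.pi_pos (sub_pos.2 h.2)))

theorem sd_mem (H C a : ℝ) : sd H C a ∈ Icc (0 : ℝ) 1 :=
  ⟨Real.sqrt_nonneg _, Real.sqrt_le_one.2
    (max_le zero_le_one (sub_le_self _ (sq_nonneg _)))⟩

theorem measurable_sd (H C : ℝ) : Measurable (sd H C) := by
  have hl : Measurable lmin := continuous_lmin.measurable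
  unfold sd
  exact (measurable_const.max (measurable_const.sub
    (((measurable_const.max ((measurable_id.const_mul H).add_const C)).div hl).pow_const 2))).sqrt

theorem continuousOn_sd (H C : ℝ) : ContinuousOn (sd H C) (Ioo 0 1) := by
  intro a ha
  refine ContinuousAt.continuousWithinAt ?_
  unfold sd
  have h1 : ContinuousAt (fun A => max 0 (H * A + C) / lmin A) a :=
    ((continuous_const.max ((continuous_id.const_mul H).add continuous_const)).continuousAt).div
      continuous_lmin.continuousAt (lmin_pos_of_mem ha).ne'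
  exact (continuousAt_const.max (continuousAt_const.sub (h1.pow 2))).sqrt

theorem intervalIntegrable_sd (H C a b : ℝ) : IntervalIntegrable (sd H C) volume a b := by
  rw [intervalIntegrable_iff]
  exact IntegrableOn.of_bound (by simp [uIoc]) (measurable_sd H C).aestronglyMeasurable 1
    (ae_of_all _ fun x => by
      rw [Real.norm_eq_abs, abs_of_nonneg (sd_mem H C x).1]; exact (sd_mem H C x).2)

/-! ## Data -/

/-- The data in one direction: slice areas `A`, projected transverse and total gradients `r`, `S`,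
flux `ρ`, and the defect `err` of the slice bound. -/
structure SliceData where
  /-- Areas. -/
  A : ℝ → ℝ
  /-- Transverse gradient. -/
  r : ℝ → ℝ
  /-- Flux. -/
  ρ : ℝ → ℝ
  /-- Full gradient. -/
  S : ℝ → ℝ
  /-- Defect of the slice bound. -/
  err : ℝ → ℝ
  /-- A Lipschitz constant. -/
  L : ℝ≥0
  lip : LipschitzWith L A
  anti : AntitoneOn A (Icc 0 1)
  mem : ∀ t, A t ∈ Icc (0 : ℝ) 1
  r_nonneg : ∀ t, 0 ≤ r t
  err_nonneg : ∀ t, 0 ≤ err t
  int_r : IntervalIntegrable r volume 0 1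
  int_ρ : IntervalIntegrable ρ volume 0 1
  int_S : IntervalIntegrable S volume 0 1
  int_err : IntervalIntegrable err volume 0 1
  grad : ∀ᵐ t : ℝ, t ∈ Ioo (0 : ℝ) 1 → ∀ c s : ℝ, 0 ≤ c → 0 ≤ s → c ^ 2 + s ^ 2 ≤ 1 →
    c * r t + s * -deriv A t ≤ S t
  ρ_ge : ∀ᵐ t : ℝ, t ∈ Ioo (0 : ℝ) 1 → 2 * r t - S t ≤ ρ t
  ρ_le : ∀ᵐ t : ℝ, t ∈ Ioo (0 : ℝ) 1 → ρ t ≤ r t
  slice : ∀ᵐ t : ℝ, t ∈ Ioo (0 : ℝ) 1 → lmin (A t) ≤ r t + err t

theorem integral_mono_Ioo {f g : ℝ → ℝ} {a b : ℝ} (hab : a ≤ b)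
    (hf : IntervalIntegrable f volume a b) (hg : IntervalIntegrable g volume a b)
    (h : ∀ᵐ t : ℝ, t ∈ Ioo a b → f t ≤ g t) : ∫ t in a..b, f t ≤ ∫ t in a..b, g t := by
  refine intervalIntegral.integral_mono_ae_restrict hab hf hg ?_
  rw [Measure.restrict_congr_set Ioo_ae_eq_Icc.symm]
  exact (ae_restrict_iff' measurableSet_Ioo).2 h

namespace SliceData

variable (D : SliceData) {H C : ℝ}

theorem deriv_nonpos {t : ℝ} (ht : t ∈ Ioo (0 : ℝ) 1) : deriv D.A t ≤ 0 := by
  rw [← derivWithin_of_mem_nhds (Icc_mem_nhds ht.1 ht.2)]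
  exact D.anti.derivWithin_nonpos

theorem intervalIntegrable_A (a b : ℝ) : IntervalIntegrable D.A volume a b :=
  D.lip.continuous.intervalIntegrable a b

theorem intervalIntegrable_dev (H C : ℝ) :
    IntervalIntegrable (fun t => |D.ρ t - (H * D.A t + C)|) volume 0 1 :=
  (D.int_ρ.sub (((D.intervalIntegrable_A 0 1).const_mul H).add intervalIntegrable_const)).abs

theorem r_le_S : ∀ᵐ t : ℝ, t ∈ Ioo (0 : ℝ) 1 → D.r t ≤ D.S t := by
  filter_upwards [D.grad] with t h ht
  simpa using h ht 1 0 zero_le_one le_rfl (by norm_num)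

/-- The calibration by the first integral. -/
theorem calib {p q : ℝ} (hp : 0 ≤ p) (hpq : p ≤ q) (hq : q ≤ 1) :
    H * (∫ t in (0 : ℝ)..1, D.A t) + C + (∫ a in D.A q..D.A p, sd H C a) ≤
      (∫ t in (0 : ℝ)..1, D.S t) + (∫ t in (0 : ℝ)..1, D.err t) +
        ∫ t in (0 : ℝ)..1, |D.ρ t - (H * D.A t + C)| := by
  set f : ℝ → ℝ := fun t => sd H C (D.A t) * -deriv D.A t with hf
  have hfi : IntervalIntegrable f volume 0 1 := by
    refine (intervalIntegrable_iff).2 (IntegrableOn.of_bound (by simp) ?_ D.L ?_)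
    · exact (((measurable_sd H C).comp D.lip.continuous.measurable).mul
        (measurable_deriv D.A).neg).aestronglyMeasurable
    · refine ae_of_all _ fun t => ?_
      rw [hf, norm_mul, norm_neg, Real.norm_eq_abs, abs_of_nonneg (sd_mem H C _).1]
      exact (mul_le_of_le_one_left (norm_nonneg _) (sd_mem H C _).2).trans
        (norm_deriv_le_of_lipschitz D.lip)
  have hFi : IntervalIntegrable (fun t => H * D.A t + C) volume 0 1 :=
    ((D.intervalIntegrable_A 0 1).const_mul H).add intervalIntegrable_const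
  have hpt : ∀ᵐ t : ℝ, t ∈ Ioo (0 : ℝ) 1 →
      (H * D.A t + C) + f t - D.err t - |D.ρ t - (H * D.A t + C)| ≤ D.S t := by
    filter_upwards [D.grad, D.ρ_le, D.slice, D.lip.ae_differentiableAt_real] with t hgrad hρ hsl hd ht
    have hgr := hgrad ht
    have hrS : D.r t ≤ D.S t := by simpa using hgr 1 0 zero_le_one le_rfl (by norm_num)
    have he := D.err_nonneg t
    have hdev := abs_nonneg (D.ρ t - (H * D.A t + C))
    set F := max 0 (H * D.A t + C) with hF
    have hF0 : 0 ≤ F := le_max_left _ _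
    have hFle : H * D.A t + C ≤ F := le_max_right _ _
    by_cases hlt : F < lmin (D.A t)
    · have hl : 0 < lmin (D.A t) := hF0.trans_lt hlt
      have hc1 : F / lmin (D.A t) ≤ 1 := (div_le_one hl).2 hlt.le
      have hc0 : 0 ≤ F / lmin (D.A t) := div_nonneg hF0 hl.le
      have hs : sd H C (D.A t) ^ 2 = 1 - (F / lmin (D.A t)) ^ 2 := by
        rw [sd, ← hF, max_eq_right (by nlinarith), Real.sq_sqrt (by nlinarith)]
      have h1 := hgr _ _ hc0 (sd_mem H C (D.A t)).1 (by linarith)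
      have h2 : F / lmin (D.A t) * lmin (D.A t) ≤ F / lmin (D.A t) * (D.r t + D.err t) :=
        mul_le_mul_of_nonneg_left (hsl ht) hc0
      rw [div_mul_cancel₀ _ hl.ne'] at h2
      have h3 : F / lmin (D.A t) * D.err t ≤ D.err t := mul_le_of_le_one_left he hc1
      simp only [hf]
      linarith
    · have hf0 : f t = 0 := by
        simp only [hf, mul_eq_zero, neg_eq_zero]
        rcases (lmin_nonneg (D.A t)).eq_or_lt with h | h
        · right
          rcases (D.mem t).1.eq_or_lt with h0 | h0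
          · exact IsLocalMin.deriv_eq_zero (Eventually.of_forall fun s => h0 ▸ (D.mem s).1)
          · rcases (D.mem t).2.eq_or_lt with h1 | h1
            · exact IsLocalMax.deriv_eq_zero (Eventually.of_forall fun s => h1.symm ▸ (D.mem s).2)
            · exact absurd h (lmin_pos_of_mem ⟨h0, h1⟩).ne
        · left
          have : 1 ≤ F / lmin (D.A t) := (one_le_div h).2 (not_lt.1 hlt)
          rw [sd, ← hF, max_eq_left (by nlinarith), Real.sqrt_zero]
      have h1 := neg_le_abs (D.ρ t - (H * D.A t + C))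
      linarith [hρ ht]
  have h := integral_mono_Ioo zero_le_one (((hFi.add hfi).sub D.int_err).sub (D.intervalIntegrable_dev H C))
    D.int_S hpt
  rw [intervalIntegral.integral_sub ((hFi.add hfi).sub D.int_err) (D.intervalIntegrable_dev H C),
    intervalIntegral.integral_sub (hFi.add hfi) D.int_err, intervalIntegral.integral_add hFi hfi,
    intervalIntegral.integral_add ((D.intervalIntegrable_A 0 1).const_mul H) intervalIntegrable_const,
    intervalIntegral.integral_const_mul] at h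
  simp only [intervalIntegral.integral_const, sub_zero, one_smul] at h
  have hpart : ∫ a in D.A q..D.A p, sd H C a ≤ ∫ t in (0 : ℝ)..1, f t := by
    rw [← integral_comp_mul_neg_deriv (measurable_sd H C) (sd_mem H C) (continuousOn_sd H C) D.lip
      D.mem p q]
    refine intervalIntegral.integral_mono_interval hp hpq hq ?_ hfi
    rw [Measure.restrict_congr_set Ioo_ae_eq_Ioc.symm]
    refine (ae_restrict_iff' measurableSet_Ioo).2 (ae_of_all _ fun t ht => ?_)
    exact mul_nonneg (sd_mem H C _).1 (neg_nonneg.2 (D.deriv_nonpos ht))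
  linarith

/-- The slice bound with the first integral: `S` beats `r` by the defect of the end condition. -/
theorem excess (H C : ℝ) : ∀ᵐ t : ℝ, t ∈ Ioo (0 : ℝ) 1 →
    D.r t + (lmin (D.A t) - H * D.A t - C) - (D.err t + |D.ρ t - (H * D.A t + C)|) ≤ D.S t := by
  filter_upwards [D.ρ_ge, D.slice] with t h1 h2 ht
  linarith [h1 ht, h2 ht, le_abs_self (D.ρ t - (H * D.A t + C))]

end SliceData

/-- The growth bound near an end, the distance to the end being the variable; `z` penalises the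
distances at which the end competitor is not available. -/
theorem end_growth {H C G e P κ t₁ t₂ : ℝ} {a r S err z : ℝ → ℝ} (hG : 0 ≤ G) (hκ : 0 ≤ κ)
    (ht₁ : 0 < t₁) (h12 : t₁ ≤ t₂) (ht₂ : t₂ ≤ 1) (ha : Continuous a)
    (ha01 : ∀ t, a t ∈ Icc (0 : ℝ) 1) (hr : IntervalIntegrable r volume 0 1)
    (hS : IntervalIntegrable S volume 0 1) (herr : IntervalIntegrable err volume 0 1)
    (hz : IntervalIntegrable z volume 0 1) (hz0 : ∀ t, 0 ≤ z t)
    (hr0 : ∀ t, 0 ≤ r t) (herr0 : ∀ t, 0 ≤ err t) (hP : ∫ t in (0 : ℝ)..1, r t ≤ P)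
    (he : ∫ t in (0 : ℝ)..1, err t ≤ 2 * e)
    (hpt : ∀ᵐ t : ℝ, t ∈ Ioo (0 : ℝ) 1 → r t + (lmin (a t) - H * a t - C) - err t ≤ S t)
    (hstop : ∀ᵐ τ : ℝ, τ ∈ Ioo t₁ t₂ → (∫ t in (0 : ℝ)..τ, S t ≤
      τ * r τ + G * (∫ t in (0 : ℝ)..τ, |a t - a τ|) + e) ∨ 1 ≤ z τ)
    (hnear : ∀ t ∈ Icc t₁ t₂, ∀ τ ∈ Icc t₁ t₂,
      κ ≤ lmin (a t) - H * a t - C - G * |a t - a τ|) :
    κ * Real.log (t₂ / t₁) ≤ P / t₂ + ((κ + |H| + |C| + G) * t₁ + 3 * e) / t₁ +
      (P + κ) * (∫ t in (0 : ℝ)..1, z t) / t₁ ^ 2 := by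
  have ht₂0 : 0 ≤ t₂ := ht₁.le.trans h12
  have he0 : 0 ≤ e := by
    linarith [intervalIntegral.integral_nonneg (μ := volume) zero_le_one fun t _ => herr0 t]
  have hP0 : 0 ≤ P := (intervalIntegral.integral_nonneg zero_le_one fun t _ => hr0 t).trans hP
  have hsub : ∀ {f : ℝ → ℝ} {u v : ℝ}, IntervalIntegrable f volume 0 1 → 0 ≤ u → u ≤ v → v ≤ 1 →
      IntervalIntegrable f volume u v := fun hf hu huv hv =>
    hf.mono_set (by rw [uIcc_of_le huv, uIcc_of_le zero_le_one]; exact Icc_subset_Icc hu hv)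
  have hz1 : ∫ t in t₁..t₂, (P + κ) * z t ≤ (P + κ) * ∫ t in (0 : ℝ)..1, z t := by
    rw [intervalIntegral.integral_const_mul]
    exact mul_le_mul_of_nonneg_left (intervalIntegral.integral_mono_interval ht₁.le h12 ht₂
      (ae_of_all _ hz0) hz) (by linarith)
  refine le_trans (log_le_of_growth (z := fun t => (P + κ) * z t) (P := P)
    (D := (κ + |H| + |C| + G) * t₁ + 3 * e) (hsub hr le_rfl ht₂0 ht₂)
    ((hsub hz ht₁.le h12 ht₂).const_mul _) (fun t => mul_nonneg (by linarith) (hz0 t)) ht₁ h12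
    (add_nonneg (mul_nonneg (by positivity) ht₁.le) (by linarith)) (fun t _ => hr0 t) ?_ ?_)
    (add_le_add le_rfl (div_le_div_of_nonneg_right hz1 (sq_nonneg _)))
  · exact le_trans (intervalIntegral.integral_mono_interval le_rfl ht₂0 ht₂
      (ae_of_all _ fun t => hr0 t) hr) hP
  filter_upwards [hstop] with τ hst hτ
  have hτ0 : 0 ≤ τ := ht₁.le.trans hτ.1.le
  have hτ1 : τ < 1 := hτ.2.trans_le ht₂
  have hrτ := hsub hr le_rfl hτ0 hτ1.le
  rcases hst hτ with hgood | hbad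
  swap
  · have h1 : (P + κ) * 1 ≤ (P + κ) * z τ := mul_le_mul_of_nonneg_left hbad (by linarith)
    have h2 : (∫ t in (0 : ℝ)..τ, r t) ≤ P := le_trans
      (intervalIntegral.integral_mono_interval le_rfl hτ0 hτ1.le (ae_of_all _ fun t => hr0 t) hr) hP
    have h3 : κ * τ ≤ κ := mul_le_of_le_one_right hκ hτ1.le
    have h4 : 0 ≤ τ * r τ := mul_nonneg hτ0 (hr0 τ)
    have h5 : 0 ≤ (κ + |H| + |C| + G) * t₁ := mul_nonneg (by positivity) ht₁.le
    linarith
  set ξ : ℝ → ℝ := fun t => lmin (a t) - H * a t - C - G * |a t - a τ| with hξ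
  have hξc : Continuous ξ := by
    have := continuous_lmin
    fun_prop
  have hlow : ∀ t, -(|H| + |C| + G) ≤ ξ t := by
    intro t
    have h1 : H * a t ≤ |H| := (le_abs_self _).trans (by
      rw [abs_mul]
      exact mul_le_of_le_one_right (abs_nonneg _) (by rw [abs_of_nonneg (ha01 t).1]; exact (ha01 t).2))
    have h2 : G * |a t - a τ| ≤ G := mul_le_of_le_one_right hG (abs_le.2
      ⟨by linarith [(ha01 t).1, (ha01 τ).2], by linarith [(ha01 t).2, (ha01 τ).1]⟩)
    simp only [hξ]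
    linarith [lmin_nonneg (a t), le_abs_self C]
  have h1 : κ * τ - (κ + |H| + |C| + G) * t₁ ≤ ∫ t in (0 : ℝ)..τ, ξ t := by
    rw [← intervalIntegral.integral_add_adjacent_intervals (hξc.intervalIntegrable 0 t₁)
      (hξc.intervalIntegrable t₁ τ)]
    have e1 : -(|H| + |C| + G) * t₁ ≤ ∫ t in (0 : ℝ)..t₁, ξ t := by
      refine le_of_eq_of_le ?_ (intervalIntegral.integral_mono_on ht₁.le intervalIntegrable_const
        (hξc.intervalIntegrable 0 t₁) fun t _ => hlow t)
      rw [intervalIntegral.integral_const, sub_zero, smul_eq_mul, mul_comm]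
    have e2 : κ * (τ - t₁) ≤ ∫ t in t₁..τ, ξ t := by
      refine le_of_eq_of_le ?_ (intervalIntegral.integral_mono_on hτ.1.le intervalIntegrable_const
        (hξc.intervalIntegrable t₁ τ) fun t ht => hnear t ⟨ht.1, ht.2.trans hτ.2.le⟩ τ
          ⟨hτ.1.le, hτ.2.le⟩)
      rw [intervalIntegral.integral_const, smul_eq_mul, mul_comm]
    linarith
  have heτ := hsub herr le_rfl hτ0 hτ1.le
  have hSτ := hsub hS le_rfl hτ0 hτ1.le
  have hGi : IntervalIntegrable (fun t => G * |a t - a τ|) volume 0 τ :=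
    ((ha.sub continuous_const).abs.const_mul G |>.intervalIntegrable 0 τ)
  have h2 := integral_mono_Ioo hτ0 ((hrτ.add (hξc.intervalIntegrable 0 τ)).sub heτ)
    (hSτ.sub hGi) (by
      filter_upwards [hpt] with t ht hmem
      have := ht ⟨hmem.1, hmem.2.trans hτ1⟩
      simp only [hξ]
      linarith)
  rw [intervalIntegral.integral_sub (hrτ.add (hξc.intervalIntegrable 0 τ)) heτ,
    intervalIntegral.integral_add hrτ (hξc.intervalIntegrable 0 τ),
    intervalIntegral.integral_sub hSτ hGi, intervalIntegral.integral_const_mul] at h2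
  have h3 : ∫ t in (0 : ℝ)..τ, err t ≤ 2 * e :=
    le_trans (intervalIntegral.integral_mono_interval le_rfl hτ0 hτ1.le
      (ae_of_all _ fun t => herr0 t) herr) he
  have hzz : 0 ≤ (P + κ) * z τ := mul_nonneg (by linarith) (hz0 τ)
  linarith

namespace SliceData

variable (D : SliceData) {H C : ℝ}

theorem integral_r_le : ∫ t in (0 : ℝ)..1, D.r t ≤ ∫ t in (0 : ℝ)..1, D.S t :=
  integral_mono_Ioo zero_le_one D.int_r D.int_S D.r_le_S

theorem growth₀ {G e κ t₁ t₂ : ℝ} {z : ℝ → ℝ} (hG : 0 ≤ G) (hκ : 0 ≤ κ) (ht₁ : 0 < t₁)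
    (h12 : t₁ ≤ t₂) (ht₂ : t₂ ≤ 1) (hz : IntervalIntegrable z volume 0 1) (hz0 : ∀ t, 0 ≤ z t)
    (he : (∫ t in (0 : ℝ)..1, D.err t) + (∫ t in (0 : ℝ)..1, |D.ρ t - (H * D.A t + C)|) ≤ 2 * e)
    (hstop : ∀ᵐ τ : ℝ, τ ∈ Ioo t₁ t₂ → (∫ t in (0 : ℝ)..τ, D.S t ≤
      τ * D.r τ + G * (∫ t in (0 : ℝ)..τ, |D.A t - D.A τ|) + e) ∨ 1 ≤ z τ)
    (hnear : ∀ t ∈ Icc t₁ t₂, ∀ τ ∈ Icc t₁ t₂,
      κ ≤ lmin (D.A t) - H * D.A t - C - G * |D.A t - D.A τ|) :
    κ * Real.log (t₂ / t₁) ≤ (∫ t in (0 : ℝ)..1, D.S t) / t₂ +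
      ((κ + |H| + |C| + G) * t₁ + 3 * e) / t₁ +
      ((∫ t in (0 : ℝ)..1, D.S t) + κ) * (∫ t in (0 : ℝ)..1, z t) / t₁ ^ 2 := by
  refine end_growth (err := fun t => D.err t + |D.ρ t - (H * D.A t + C)|) hG hκ ht₁ h12 ht₂
    D.lip.continuous D.mem D.int_r D.int_S (D.int_err.add (D.intervalIntegrable_dev H C)) hz hz0
    D.r_nonneg (fun t => add_nonneg (D.err_nonneg t) (abs_nonneg _)) D.integral_r_le ?_
    (D.excess H C) hstop hnear
  rwa [intervalIntegral.integral_add D.int_err (D.intervalIntegrable_dev H C)]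

theorem growth₁ {G e κ t₁ t₂ : ℝ} {z : ℝ → ℝ} (hG : 0 ≤ G) (hκ : 0 ≤ κ) (ht₁ : 0 < t₁)
    (h12 : t₁ ≤ t₂) (ht₂ : t₂ ≤ 1) (hz : IntervalIntegrable z volume 0 1) (hz0 : ∀ t, 0 ≤ z t)
    (he : (∫ t in (0 : ℝ)..1, D.err t) + (∫ t in (0 : ℝ)..1, |D.ρ t - (H * D.A t + C)|) ≤ 2 * e)
    (hstop : ∀ᵐ τ : ℝ, τ ∈ Ioo t₁ t₂ → (∫ t in (1 - τ)..1, D.S t ≤
      τ * D.r (1 - τ) + G * (∫ t in (1 - τ)..1, |D.A t - D.A (1 - τ)|) + e) ∨ 1 ≤ z τ)
    (hnear : ∀ t ∈ Icc t₁ t₂, ∀ τ ∈ Icc t₁ t₂,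
      κ ≤ lmin (D.A (1 - t)) - H * D.A (1 - t) - C - G * |D.A (1 - t) - D.A (1 - τ)|) :
    κ * Real.log (t₂ / t₁) ≤ (∫ t in (0 : ℝ)..1, D.S t) / t₂ +
      ((κ + |H| + |C| + G) * t₁ + 3 * e) / t₁ +
      ((∫ t in (0 : ℝ)..1, D.S t) + κ) * (∫ t in (0 : ℝ)..1, z t) / t₁ ^ 2 := by
  set err' : ℝ → ℝ := fun t => D.err t + |D.ρ t - (H * D.A t + C)| with herr'
  have hflip : ∀ {f : ℝ → ℝ}, IntervalIntegrable f volume 0 1 →
      IntervalIntegrable (fun t => f (1 - t)) volume 0 1 := fun {f} hf => by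
    simpa using (hf.comp_sub_left 1).symm
  have hint : ∀ f : ℝ → ℝ, ∫ t in (0 : ℝ)..1, f (1 - t) = ∫ t in (0 : ℝ)..1, f t := fun f => by
    simp [intervalIntegral.integral_comp_sub_left]
  have hq := (Measure.measurePreserving_sub_left volume (1 : ℝ)).quasiMeasurePreserving
  refine end_growth (a := fun t => D.A (1 - t)) (r := fun t => D.r (1 - t))
    (S := fun t => D.S (1 - t)) (err := fun t => err' (1 - t)) hG hκ ht₁ h12 ht₂
    (D.lip.continuous.comp (continuous_const.sub continuous_id)) (fun t => D.mem _)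
    (hflip D.int_r) (hflip D.int_S) (hflip (D.int_err.add (D.intervalIntegrable_dev H C))) hz hz0
    (fun t => D.r_nonneg _) (fun t => add_nonneg (D.err_nonneg _) (abs_nonneg _))
    ((hint D.r).trans_le D.integral_r_le) ?_ ?_ ?_ hnear
  · rw [hint err', herr', intervalIntegral.integral_add D.int_err (D.intervalIntegrable_dev H C)]
    exact he
  · filter_upwards [hq.ae (D.excess H C)] with t ht hmem
    exact ht ⟨by linarith [hmem.2], by linarith [hmem.1]⟩
  · filter_upwards [hstop] with τ hst hτ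
    rw [intervalIntegral.integral_comp_sub_left (fun t => D.S t), sub_zero,
      intervalIntegral.integral_comp_sub_left (fun t => |D.A t - D.A (1 - τ)|), sub_zero]
    exact hst hτ

end SliceData

end Vale.Agent.P232.Gap
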