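import Vale.Agent.P232.Gap.BuildDefs
import Vale.Agent.P232.Gap.SliceData
import Vale.Agent.P232.Rigid.SideGradient
import Vale.Agent.P232.Rigid.Slice
import Vale.Agent.P232.Rigid.LevelSel

/-!
# P232 gap: on almost all slices the transverse gradient dominates the least planar length
-/

open MeasureTheory Set Filter
open scoped NNReal Real Topology

noncomputable section

namespace Vale.Agent.P232.Gap

open Rigid (planeInt gradPerp sliceFun)

theorem lmin_le_of_master {s : Slice} {l : ℝ} (h : s.Master l) : lmin s.A ≤ l := by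
  have hone : (s.X - s.w = 1 ∨ s.Y - s.u = 1) → (1 : ℝ) ≤ l := fun hc => by
    refine le_trans ?_ (Slice.chord_le h)
    refine Real.le_sqrt_of_sq_le ?_
    rcases hc with hc | hc <;> rw [hc] <;>
      nlinarith [sq_nonneg (s.X - s.w), sq_nonneg (s.Y - s.u)]
  have hXu : 0 < s.u → s.X = 1 := fun hu => by
    by_contra hne
    exact hu.ne' (s.u_eq (lt_of_le_of_ne s.X_le hne))
  rcases s.u_nonneg.eq_or_lt with hu | hu <;> rcases s.w_nonneg.eq_or_lt with hw | hw
  · exact ((min_le_left _ _).trans (min_le_left _ _)).trans (Slice.island_le h hw.symm hu.symm)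
  · refine ((min_le_left _ _).trans (min_le_right _ _)).trans (hone (Or.inr ?_))
    rw [s.Y_eq hw, ← hu, sub_zero]
  · refine ((min_le_left _ _).trans (min_le_right _ _)).trans (hone (Or.inl ?_))
    rw [hXu hu, ← hw, sub_zero]
  · exact (min_le_right _ _).trans (Slice.cross_le h (s.Y_eq hw) (hXu hu))

theorem lmin_le_one (a : ℝ) : lmin a ≤ 1 := (min_le_left _ _).trans (min_le_right _ _)

/-- The least length bounds the bound of a reduced cylinder. -/
theorem lmin_le_of_cylinder {D : Set R3} {M : ℝ} (hD : IsReduced D M) {d : Fin 3}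
    (hcyl : ∀ x t, x ∈ box → t ∈ Icc (0 : ℝ) 1 → (Function.update x d t ∈ D ↔ x ∈ D)) :
    lmin (volume.real D) ≤ M := by
  obtain ⟨i, j, hdi, hdj, hij⟩ :=
    (by decide : ∀ d : Fin 3, ∃ i j, d ≠ i ∧ d ≠ j ∧ i ≠ j) d
  have hall : ∀ k, k = i ∨ k = j ∨ k = d :=
    (by decide : ∀ a b c : Fin 3, a ≠ b → a ≠ c → b ≠ c → ∀ k, k = b ∨ k = c ∨ k = a)
      d i j hdi hdj hij
  set F := heightExt D i j 0
  have hmem : ∀ {a b c}, a ∈ Icc (0 : ℝ) 1 → b ∈ Icc (0 : ℝ) 1 → c ∈ Icc (0 : ℝ) 1 →
      (mkPoint i j a b c ∈ D ↔ mkPoint i j a b 0 ∈ D) := by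
    intro a b c ha hb hc
    rw [← hcyl (mkPoint i j a b 0) c (mkPoint_mem_box ha hb ⟨le_rfl, zero_le_one⟩) hc]
    refine Iff.of_eq (congrArg (· ∈ D) ?_)
    funext k
    rcases hall k with rfl | rfl | rfl
    · simp [mkPoint, hdi.symm]
    · simp [mkPoint, hdj.symm]
    · simp [mkPoint, hdi, hdj]
  have hFz : ∀ z, heightExt D i j z = F := fun z => by
    funext a
    show heightExt D i j z a = heightExt D i j 0 a
    rw [heightExt, heightExt, height, height]
    congr 2
    ext b
    exact and_congr_right fun hb => by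
      rw [hmem (clamp_mem a) hb (clamp_mem z), hmem (clamp_mem a) hb (clamp_mem 0)]
  have hfH : IsHeight F := isHeight_of_antitone (antitone_heightExt hD.down 0) (heightExt_mem D i j 0)
  have hlen : Slicing.len F ≤ M := by
    have := (P232.slicing D M hD i j hij (fun _ => 1) (fun _ => 0) continuous_const continuous_const
      (fun _ => zero_le_one) (fun _ => le_rfl) (fun _ => by norm_num) (1 / 2)
      ⟨by norm_num, by norm_num⟩ (1 / 2) ⟨by norm_num, by norm_num⟩ le_rfl).2
    simpa [hFz] using this
  have hvol : volume.real D = hfH.slice.A := by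
    have := boxVolume_eq hD.down hD.subset hD.measurable hij
    rw [show hfH.slice.A = ∫ a in (0 : ℝ)..1, F a from rfl]
    simpa [boxVolume, sliceArea, hFz] using this
  rw [hvol]
  exact (lmin_le_of_master
    (hfH.master (lenGe_len (antitone_heightExt hD.down 0) (heightExt_mem D i j 0)))).trans hlen

theorem measurable_perpAt (w : R3 → ℝ) (d : Fin 3) : Measurable (perpAt w d) :=
  Rigid.measurable_planeInt (Rigid.measurable_gradPerp d w) d

theorem measurable_areaAt {w : R3 → ℝ} (hw : Adm w) (d : Fin 3) : Measurable (areaAt w d) :=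
  Rigid.measurable_planeInt hw.lipschitz.choose_spec.continuous.measurable d

theorem areaAt_mem {w : R3 → ℝ} (hw : Adm w) (d : Fin 3) (t : ℝ) :
    areaAt w d t ∈ Icc (0 : ℝ) 1 :=
  Rigid.planeInt_mem hw.mem d t

theorem perpAt_nonneg (w : R3 → ℝ) (d : Fin 3) (t : ℝ) : 0 ≤ perpAt w d t :=
  Rigid.planeInt_nonneg (Rigid.gradPerp_nonneg d w) d t

theorem measurable_defectAt {w : R3 → ℝ} (hw : Adm w) (d : Fin 3) : Measurable (defectAt w d) :=
  have hm := hw.lipschitz.choose_spec.continuous.measurable
  Rigid.measurable_planeInt (hm.mul (measurable_const.sub hm)) d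

theorem defectAt_nonneg {w : R3 → ℝ} (hw : Adm w) (d : Fin 3) (t : ℝ) : 0 ≤ defectAt w d t :=
  Rigid.planeInt_nonneg (fun x => (Rigid.mul_one_sub_mem (hw.mem x)).1) d t

theorem intervalIntegrable_defectAt {w : R3 → ℝ} (hw : Adm w) (d : Fin 3) :
    IntervalIntegrable (defectAt w d) volume 0 1 :=
  have hm := hw.lipschitz.choose_spec.continuous.measurable
  Rigid.intervalIntegrable_planeInt (hm.mul (measurable_const.sub hm))
    (fun x => Rigid.abs_le_one_of_mem (Rigid.mul_one_sub_mem (hw.mem x))) d 0 1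

theorem integral_defectAt {w : R3 → ℝ} (hw : Adm w) (d : Fin 3) :
    ∫ t in (0 : ℝ)..1, defectAt w d t = defect w := by
  have hm := hw.lipschitz.choose_spec.continuous.measurable
  rw [defect, ← Rigid.setIntegral_cell_eq_box]
  exact (Rigid.integral_cell_eq_planeInt (hm.mul (measurable_const.sub hm))
    (fun x => Rigid.abs_le_one_of_mem (Rigid.mul_one_sub_mem (hw.mem x))) d).symm

/-- One slice, with a level in `(δ, 1 - δ)`. -/
theorem lmin_slice_le {w : R3 → ℝ} (hw : Adm w) (d : Fin 3) :
    ∀ᵐ t : ℝ, t ∈ Ioo (0 : ℝ) 1 → ∀ δ, 0 < δ → δ < 1 / 2 → ∃ A : ℝ,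
      |A - areaAt w d t| ≤ defectAt w d t / δ ∧ A ∈ Icc (0 : ℝ) 1 ∧
        lmin A ≤ perpAt w d t + 2 * δ := by
  obtain ⟨L, hL⟩ := hw.lipschitz
  filter_upwards [Rigid.ae_plane (hL.ae_differentiableAt (μ := volume)) d] with t ht htI δ hδ hδ'
  set g := sliceFun w d t with hg
  have hgL : LipschitzWith L g := by
    have h := hL.comp (Rigid.lipschitzWith_update d t)
    rwa [mul_one] at h
  have hg01 : ∀ x, g x ∈ Icc (0 : ℝ) 1 := fun x => hw.mem _
  have hupd : ∀ x ∈ box, ∀ s ∈ Icc (0 : ℝ) 1, Function.update x d s ∈ box := fun x hx s hs =>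
    ⟨fun k => by
      by_cases h : k = d
      · subst h; simpa using hs.1
      · simpa [h] using hx.1 k, fun k => by
      by_cases h : k = d
      · subst h; simpa using hs.2
      · simpa [h] using hx.2 k⟩
  have hanti : ∀ x ∈ box, ∀ y ∈ box, y ≤ x → g x ≤ g y := fun x hx y hy hyx =>
    hw.anti _ (hupd x hx t (Ioo_subset_Icc_self htI)) _ (hupd y hy t (Ioo_subset_Icc_self htI))
      fun k => by
        by_cases h : k = d
        · subst h; simp
        · simpa [h] using hyx k
  obtain ⟨s, hs, hred⟩ := Rigid.levelSel L g hgL hg01 hanti δ 0 δ (1 - δ) hδ le_rfl (by linarith)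
    le_rfl le_rfl fun _ _ M hM => by
      have := hM.bound (fun _ _ => 0) (fun _ => contDiff_const) (fun _ _ => by simp)
      simpa [divergence, pd, flux] using this
  set D := box ∩ {x | s < g x} with hDdef
  have hcyl : ∀ x r, x ∈ box → r ∈ Icc (0 : ℝ) 1 → (Function.update x d r ∈ D ↔ x ∈ D) :=
    fun x r hx hr => by
      simp only [hDdef, mem_inter_iff, mem_ofPred_eq, hupd x hx r hr, hx, true_and, hg,
        Rigid.sliceFun_update]
  have hl := lmin_le_of_cylinder hred hcyl
  have hgm : Measurable g := hgL.continuous.measurable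
  have hperp : ∫ x in box, gradNorm g x = perpAt w d t := by
    rw [← Rigid.setIntegral_cell_eq_box, Rigid.integral_cell_eq_planeInt (measurable_gradNorm g)
      (fun x => by rw [abs_of_nonneg (gradNorm_nonneg g x)]; exact gradNorm_le hgL x) d,
      intervalIntegral.integral_congr (g := fun _ => perpAt w d t) fun r _ => ?_]
    · simp
    · refine integral_congr_ae (ae_restrict_of_ae ?_)
      filter_upwards [ht] with y hy
      rw [Rigid.gradNorm_sliceFun d t (by rwa [Rigid.facePoint_update]), Rigid.facePoint_update]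
  have harea : ∀ φ : ℝ → ℝ, Continuous φ → (∀ r ∈ Icc (0 : ℝ) 1, |φ r| ≤ 1) →
      ∫ x in box, φ (g x) = planeInt (fun x => φ (w x)) d t := fun φ hφ hb => by
    rw [← Rigid.setIntegral_cell_eq_box]
    exact Rigid.integral_cell_sliceFun (f := fun x => φ (w x))
      (hφ.comp hL.continuous).measurable (fun x => hb _ (hw.mem x)) d t
  have hlev := Rigid.abs_level_sub_integral (μ := volume) (K := box) (by simp [volume_box]) hgm
    hg01 hδ hs.1.le hs.2.le
  rw [harea (fun r => r) continuous_id fun r hr => Rigid.abs_le_one_of_mem hr,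
    harea (fun r => r * (1 - r)) (by fun_prop)
      fun r hr => Rigid.abs_le_one_of_mem (Rigid.mul_one_sub_mem hr)] at hlev
  refine ⟨volume.real D, hlev, ⟨measureReal_nonneg, ?_⟩, ?_⟩
  · refine (measureReal_mono inter_subset_left (by simp [volume_box])).trans ?_
    simp [measureReal_def, volume_box]
  · rw [hperp, zero_mul, sub_zero, show 1 - δ - δ = 1 - 2 * δ by ring,
      le_div_iff₀ (by linarith)] at hl
    have h2 : lmin (volume.real D) * (2 * δ) ≤ 1 * (2 * δ) :=
      mul_le_mul_of_nonneg_right (lmin_le_one _) (by linarith)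
    linarith

/-- The planar bound on almost all slices. -/
theorem sliceBound : SliceBoundSpec := by
  intro η hη
  obtain ⟨γ, hγ, hγ'⟩ := Metric.uniformContinuousOn_iff.1
    ((isCompact_Icc (a := (0 : ℝ)) (b := 1)).uniformContinuousOn_of_continuous
      continuous_lmin.continuousOn) (η / 4) (by positivity)
  set δ := min (1 / 4) (η / 8) with hδdef
  have hδ : 0 < δ := lt_min (by norm_num) (by positivity)
  have hδ8 : δ ≤ η / 8 := min_le_right _ _
  refine ⟨η * δ * γ / 2, by positivity, fun w hw hdef d => ?_⟩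
  have hb : ∀ t, |max 0 (lmin (areaAt w d t) - perpAt w d t)| ≤ 1 := fun t => by
    rw [abs_of_nonneg (le_max_left _ _)]
    exact max_le zero_le_one (by linarith [lmin_le_one (areaAt w d t), perpAt_nonneg w d t])
  have hi : IntervalIntegrable (fun t => max 0 (lmin (areaAt w d t) - perpAt w d t)) volume 0 1 :=
    Rigid.intervalIntegrable_of_bdd (measurable_const.max
      ((continuous_lmin.measurable.comp (measurable_areaAt hw d)).sub (measurable_perpAt w d))) 1 hb 0 1
  have hq := intervalIntegrable_defectAt hw d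
  refine le_trans (integral_mono_Ioo (g := fun t => η / 4 + 2 * δ + defectAt w d t / (δ * γ))
    zero_le_one hi (intervalIntegrable_const.add (hq.div_const _)) ?_) ?_
  · filter_upwards [lmin_slice_le hw d] with t ht htI
    obtain ⟨A, hA, hA01, hl⟩ := ht htI δ hδ (by linarith [min_le_left (1 / 4 : ℝ) (η / 8)])
    have hQ := div_nonneg (defectAt_nonneg hw d t) (mul_pos hδ hγ).le
    refine max_le (by positivity) ?_
    rcases lt_or_ge |A - areaAt w d t| γ with hlt | hge
    · have h := hγ' (areaAt w d t) (areaAt_mem hw d t) A hA01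
        (by rwa [Real.dist_eq, abs_sub_comm])
      rw [Real.dist_eq] at h
      linarith [le_abs_self (lmin (areaAt w d t) - lmin A)]
    · have h1 : 1 ≤ defectAt w d t / (δ * γ) := by
        rw [← div_div, one_le_div hγ]
        exact hge.trans hA
      linarith [lmin_le_one (areaAt w d t), perpAt_nonneg w d t]
  · rw [intervalIntegral.integral_add intervalIntegrable_const (hq.div_const _),
      intervalIntegral.integral_div, integral_defectAt hw d]
    have : defect w / (δ * γ) ≤ η / 2 := by
      rw [div_le_iff₀ (by positivity)]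
      linarith
    simp only [intervalIntegral.integral_const, sub_zero, one_smul]
    linarith

end Vale.Agent.P232.Gap
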