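import Vale.Agent.P232.T1

/-!
# P232 gap: planar facts and the master inequality with two budgets

Slices are islands, bands or crosses; the bands of one direction all have the same orientation, so,
after exchanging the two axes if necessary, they all carry a far height `u`.
-/

open MeasureTheory Set Filter
open scoped Real Topology

noncomputable section

namespace Vale.Agent.P232.Gap

/-- What is known about the length of a band, `d = A - u` being the area above the wrap. -/
def BandAdm (d l : ℝ) : Prop :=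
  1 ≤ l ∧ Real.sqrt (π * d) ≤ l ∧
    ∀ p ∈ Icc (0 : ℝ) 1, (∫ x in (0 : ℝ)..1, Real.sqrt (1 - (p * x) ^ 2)) + p * d ≤ l

/-- What is known about the length of a cross of area `t` with wrap data `(u, w)`. -/
def CrossAdm (t u w l : ℝ) : Prop :=
  Real.sqrt (π * (1 - t)) ≤ l ∧ Real.sqrt ((1 - w) ^ 2 + (1 - u) ^ 2) ≤ l ∧
    ∀ p q : ℝ, |p * w + q| ≤ 1 → |p + q| ≤ 1 →
      (∫ x in w..1, Real.sqrt (1 - (p * x + q) ^ 2)) + p * (t - w) + (p * w + q) - (p + q) * u ≤ l

/-- `c(A) l` dominates the linear form on islands, bands with a far height, and crosses. -/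
def Dom (a b lam E mu nu : ℝ) (c : ℝ → ℝ) : Prop :=
  ∀ t ∈ Icc a b,
    lam * t + E ≤ c t * Real.sqrt (π * t) ∧
    (∀ u ∈ Icc 0 t, ∀ l, BandAdm (t - u) l → lam * t + E - mu * u ≤ c t * l) ∧
    ∀ u w l, 0 < u → 0 < w → u ≤ 1 → w ≤ 1 → w + (1 - w) * u ≤ t → CrossAdm t u w l →
      lam * t + E - mu * u - nu * w ≤ c t * l

theorem area_ge_cross {f : ℝ → ℝ} (hf : IsHeight f) (hX : botWidth f = 1) :
    topWidth f + (1 - topWidth f) * rightHeight f ≤ ∫ x in (0 : ℝ)..1, f x := by
  rw [hf.area_eq]
  have hw := IsHeight.topWidth_mem (f := f)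
  have hI := hf.intervalIntegrable hw (d := 1) ⟨zero_le_one, le_rfl⟩
  have := intervalIntegral.integral_mono_on_of_le_Ioo hw.2 intervalIntegrable_const hI
    fun x hx => hf.rightHeight_le ⟨hw.1.trans_lt hx.1, hx.2⟩
  rw [intervalIntegral.integral_const, smul_eq_mul] at this
  rw [hX]
  linarith

theorem bandAdm_of_master {s : Slice} {l : ℝ} (h : s.Master l) (hw : s.w = 0) (hX : s.X = 1) :
    BandAdm (s.A - s.u) l := by
  refine ⟨?_, Slice.band_low_le h hw hX, fun p hp => ?_⟩
  · refine le_trans (Real.le_sqrt_of_sq_le ?_) (Slice.chord_le h)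
    rw [hX, hw]
    nlinarith [sq_nonneg (s.Y - s.u)]
  · have h1 := h p 0 (by simp [hw]) (by
      rw [hX, mul_one, add_zero, abs_of_nonneg hp.1]; exact hp.2)
    simp only [Slice.flux, hw, hX, add_zero, mul_zero, zero_mul, mul_one, sub_zero] at h1
    linarith

theorem crossAdm_of_master {s : Slice} {l : ℝ} (h : s.Master l) (hY : s.Y = 1) (hX : s.X = 1) :
    CrossAdm s.A s.u s.w l := by
  refine ⟨Slice.cross_le h hY hX, ?_, fun p q hp hq => ?_⟩
  · have := Slice.chord_le h
    rwa [hX, hY] at this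
  · have h1 := h p q hp (by rwa [hX, mul_one])
    simp only [Slice.flux, hX, hY, mul_one] at h1
    linarith

/-- A slice whose band, if it is one, has a far height. -/
theorem pointwise {f : ℝ → ℝ} (hf : IsHeight f) {l : ℝ} (hl : LenGe f l)
    (hor : rightHeight f = 0 → topWidth f = 0) {a b lam E mu nu : ℝ} {c : ℝ → ℝ}
    (ht : (∫ x in (0 : ℝ)..1, f x) ∈ Icc a b) (hD : Dom a b lam E mu nu c)
    (hc : 0 ≤ c (∫ x in (0 : ℝ)..1, f x)) :
    lam * (∫ x in (0 : ℝ)..1, f x) + E - mu * rightHeight f - nu * topWidth f ≤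
      c (∫ x in (0 : ℝ)..1, f x) * l := by
  have hM := hf.master hl
  obtain ⟨hI, hB, hC⟩ := hD _ ht
  set A := ∫ x in (0 : ℝ)..1, f x
  have hu0 : 0 ≤ rightHeight f := hf.slice.u_nonneg
  have huA : rightHeight f ≤ A := hf.slice.u_le_A
  rcases hu0.eq_or_lt with hu | hu
  · have hw := hor hu.symm
    have h1 : Real.sqrt (π * A) ≤ l := Slice.island_le hM hw hu.symm
    rw [← hu, hw, mul_zero, mul_zero, sub_zero, sub_zero]
    exact hI.trans (mul_le_mul_of_nonneg_left h1 hc)
  have hX : botWidth f = 1 := by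
    by_contra hne
    exact hu.ne' (hf.slice.u_eq (lt_of_le_of_ne hf.slice.X_le hne))
  have hw0 : 0 ≤ topWidth f := hf.slice.w_nonneg
  rcases hw0.eq_or_lt with hw | hw
  · have h1 : BandAdm (A - rightHeight f) l := bandAdm_of_master hM hw.symm hX
    rw [← hw, mul_zero, sub_zero]
    exact hB _ ⟨hu0, huA⟩ l h1
  · exact hC _ _ l hu hw (hf.slice.u_le.trans hf.slice.Y_le)
      (IsHeight.topWidth_mem (f := f)).2 (area_ge_cross hf hX)
      (crossAdm_of_master hM (hf.slice.Y_eq hw) hX)

variable {D : Set R3} {M : ℝ} {i j k : Fin 3}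

/-- The master inequality when no band has a top width. -/
theorem master_oriented (h : IsReduced D M) (hij : i ≠ j) (hki : k ≠ i) (hkj : k ≠ j)
    {a b au aw Gu Gw lam E mu nu : ℝ} {c : ℝ → ℝ}
    (ha : Tendsto (sliceArea D i j) (𝓝[<] 1) (𝓝 a))
    (hb : Tendsto (sliceArea D i j) (𝓝[>] 0) (𝓝 b))
    (hau : Tendsto (sliceArea D k j) (𝓝[<] 1) (𝓝 au))
    (haw : Tendsto (sliceArea D k i) (𝓝[<] 1) (𝓝 aw)) (hGu : au ≤ Gu) (hGw : aw ≤ Gw)
    (hmu : 0 ≤ mu) (hnu : 0 ≤ nu) (hc : ContinuousOn c (Icc a b)) (hc0 : ∀ t ∈ Icc a b, 0 ≤ c t)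
    (hc1 : ∀ t ∈ Icc a b, c t ≤ 1) (hD : Dom a b lam E mu nu c)
    (hor : ∀ z ∈ Ioo (0 : ℝ) 1,
      rightHeight (heightExt D i j z) = 0 → topWidth (heightExt D i j z) = 0) :
    lam * boxVolume D + E - mu * Gu - nu * Gw + ∫ t in a..b, Real.sqrt (1 - c t ^ 2) ≤ M := by
  obtain ⟨k', hk'i, hk'j, hall'⟩ := exists_third hij
  obtain rfl : k' = k := by
    rcases hall' k with h | h | h
    exacts [absurd h hki, absurd h hkj, h.symm]
  have hmid := T1.sliceArea_between h ha hb (z := 1 / 2) ⟨by norm_num, by norm_num⟩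
  have hab : a ≤ b := hmid.1.trans hmid.2
  have hu : Antitone fun z => rightHeight (heightExt D i j z) := fun x y hxy => by
    refine le_csInf ((nonempty_Ioo.2 zero_lt_one).image _) ?_
    rintro _ ⟨s, hs, rfl⟩
    exact ((T1.isHeight_ext h.down y).rightHeight_le hs).trans
      (antitone_heightExt_fst h.down s hxy)
  have hw : Antitone fun z => topWidth (heightExt D i j z) := by
    simp only [(topWidth_eq_rightHeight h.down hij _).1]
    refine fun x y hxy => le_csInf ((nonempty_Ioo.2 zero_lt_one).image _) ?_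
    rintro _ ⟨s, hs, rfl⟩
    exact ((T1.isHeight_ext h.down y).rightHeight_le hs).trans
      (antitone_heightExt_fst h.down s hxy)
  have eu := tendsto_nhds_unique (tendsto_sliceArea h.down hij hki hkj hall').2 hau
  have ew := tendsto_nhds_unique (tendsto_sliceArea_transpose h.down hij hki hkj hall').2 haw
  rw [boxVolume_eq h.down h.subset h.measurable hij]
  set c' : ℝ → ℝ := IccExtend hab (fun t => c t)
  have hc'c : Continuous c' :=
    continuous_IccExtend_iff.2 (continuousOn_iff_continuous_domRestrict.1 hc)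
  have hc'0 : ∀ t, 0 ≤ c' t := fun t => hc0 _ (projIcc a b hab t).2
  have hc'1 : ∀ t, c' t ≤ 1 := fun t => hc1 _ (projIcc a b hab t).2
  have hc'eq : ∀ t ∈ Icc a b, c' t = c t := fun t ht => IccExtend_of_mem hab _ ht
  have hS := T1.slice_limits h hij ha hb hc'c (s := fun t => Real.sqrt (1 - c' t ^ 2))
    (by fun_prop) hc'0 (fun t => Real.sqrt_nonneg _) fun t => by
      rw [Real.sq_sqrt (by nlinarith [hc'0 t, hc'1 t])]; linarith
  have e : ∫ t in a..b, Real.sqrt (1 - c' t ^ 2) = ∫ t in a..b, Real.sqrt (1 - c t ^ 2) := by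
    refine intervalIntegral.integral_congr fun t ht => ?_
    rw [uIcc_of_le hab] at ht
    simp only [hc'eq t ht]
  have hcl := (slicing D M h i j hij c' (fun t => Real.sqrt (1 - c' t ^ 2)) hc'c (by fun_prop) hc'0
    (fun t => Real.sqrt_nonneg _) (fun t => by
      rw [Real.sq_sqrt (by nlinarith [hc'0 t, hc'1 t])]; linarith) (1 / 2)
    ⟨by norm_num, by norm_num⟩ (1 / 2) ⟨by norm_num, by norm_num⟩ le_rfl).1
  have hA := (antitone_sliceArea (i := i) (j := j) h.down).intervalIntegrable
    (μ := volume) (a := 0) (b := 1)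
  have hint : ∫ z in (0 : ℝ)..1, (lam * sliceArea D i j z + E - mu * rightHeight (heightExt D i j z)
      - nu * topWidth (heightExt D i j z)) ≤
      ∫ z in (0 : ℝ)..1, c' (sliceArea D i j z) * Slicing.len (heightExt D i j z) := by
    refine intervalIntegral.integral_mono_on_of_le_Ioo zero_le_one
      ((((hA.const_mul lam).add intervalIntegrable_const).sub
        (hu.intervalIntegrable.const_mul mu)).sub
        (hw.intervalIntegrable.const_mul nu)) hcl fun z hz => ?_
    have hAab := T1.sliceArea_between h ha hb hz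
    rw [hc'eq _ hAab]
    exact pointwise (T1.isHeight_ext h.down z)
      (lenGe_len (antitone_heightExt h.down z) (heightExt_mem D i j z)) (hor z hz) hAab hD
      (hc0 _ hAab)
  rw [intervalIntegral.integral_sub (((hA.const_mul lam).add intervalIntegrable_const).sub
      (hu.intervalIntegrable.const_mul mu)) (hw.intervalIntegrable.const_mul nu),
    intervalIntegral.integral_sub ((hA.const_mul lam).add intervalIntegrable_const)
      (hu.intervalIntegrable.const_mul mu),
    intervalIntegral.integral_add (hA.const_mul lam) intervalIntegrable_const] at hint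
  simp only [intervalIntegral.integral_const_mul, intervalIntegral.integral_const, sub_zero,
    one_smul, eu, ew] at hint
  rw [e] at hS
  linarith [mul_le_mul_of_nonneg_left hGu hmu, mul_le_mul_of_nonneg_left hGw hnu]

/-- The area of a slice does not depend on the order of its two axes. -/
theorem sliceArea_swap (hdown : ∀ x ∈ D, ∀ y ∈ box, y ≤ x → y ∈ D) (hm : MeasurableSet D)
    (hij : i ≠ j) (z : ℝ) : sliceArea D j i z = sliceArea D i j z := by
  set z' := clamp z
  have hz : z' ∈ Icc (0 : ℝ) 1 := clamp_mem z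
  set S : Set R3 := {x | x ∈ box ∧ mkPoint i j (x i) (x j) z' ∈ D}
  have hSd : ∀ x ∈ S, ∀ y ∈ box, y ≤ x → y ∈ S := fun x hx y hy hyx =>
    ⟨hy, hdown _ hx.2 _ (mkPoint_mem_box ⟨hy.1 i, hy.2 i⟩ ⟨hy.1 j, hy.2 j⟩ hz)
      (mkPoint_mono (hyx i) (hyx j))⟩
  have hSm : MeasurableSet S := by
    refine (measurableSet_Icc : MeasurableSet box).inter
      (hm.preimage (measurable_pi_lambda _ fun l => ?_))
    unfold mkPoint
    split_ifs
    exacts [measurable_pi_apply i, measurable_pi_apply j, measurable_const]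
  have key : ∀ i' j' : Fin 3, (∀ a b c, mkPoint i j (mkPoint i' j' a b c i)
      (mkPoint i' j' a b c j) z' = mkPoint i' j' a b z') →
      ∀ c, sliceArea S i' j' c = sliceArea D i' j' z := fun i' j' he c => by
    refine intervalIntegral.integral_congr fun a _ => ?_
    simp only [heightExt, height]
    congr 2
    ext b
    refine and_congr_right fun hb => ?_
    show mkPoint i' j' (clamp a) b (clamp c) ∈ box ∧ _ ↔ _
    rw [he]
    exact and_iff_right (mkPoint_mem_box (clamp_mem a) hb (clamp_mem c))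
  have e1 := boxVolume_eq hSd (fun x hx => hx.1) hSm hij
  have e2 := boxVolume_eq hSd (fun x hx => hx.1) hSm hij.symm
  simp only [key i j (fun a b c => by simp [mkPoint, hij.symm]),
    intervalIntegral.integral_const, sub_zero, one_smul] at e1
  simp only [key j i (fun a b c => by
      simpa [mkPoint, hij, hij.symm] using (mkPoint_swap (i := i) (j := j) hij b a z').symm),
    intervalIntegral.integral_const, sub_zero, one_smul] at e2
  exact e2.symm.trans e1

/-- **The master inequality with two budgets.** -/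
theorem master2 (h : IsReduced D M) (hij : i ≠ j) (hki : k ≠ i) (hkj : k ≠ j)
    {a b au aw Gu Gw lam E mu nu : ℝ} {c : ℝ → ℝ}
    (ha : Tendsto (sliceArea D i j) (𝓝[<] 1) (𝓝 a))
    (hb : Tendsto (sliceArea D i j) (𝓝[>] 0) (𝓝 b))
    (hau : Tendsto (sliceArea D k j) (𝓝[<] 1) (𝓝 au))
    (haw : Tendsto (sliceArea D k i) (𝓝[<] 1) (𝓝 aw)) (hGu : au ≤ Gu) (hGw : aw ≤ Gw)
    (hmu : 0 ≤ mu) (hnu : 0 ≤ nu) (hc : ContinuousOn c (Icc a b)) (hc0 : ∀ t ∈ Icc a b, 0 ≤ c t)
    (hc1 : ∀ t ∈ Icc a b, c t ≤ 1) (hD : Dom a b lam E mu nu c) (hD' : Dom a b lam E nu mu c) :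
    lam * boxVolume D + E - mu * Gu - nu * Gw + ∫ t in a..b, Real.sqrt (1 - c t ^ 2) ≤ M := by
  by_cases hB : ∃ z ∈ Ioo (0 : ℝ) 1,
      rightHeight (heightExt D i j z) = 0 ∧ topWidth (heightExt D i j z) ≠ 0
  swap
  · exact master_oriented h hij hki hkj ha hb hau haw hGu hGw hmu hnu hc hc0 hc1 hD
      fun z hz hu => not_not.1 fun hw => hB ⟨z, hz, hu, hw⟩
  -- all bands have a top width: exchange the axes
  obtain ⟨z₀, -, hz₀u, hz₀w⟩ := hB
  have swap_eq : ∀ z, sliceArea D j i z = sliceArea D i j z :=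
    fun z => sliceArea_swap h.down h.measurable hij z
  have ha' : Tendsto (sliceArea D j i) (𝓝[<] 1) (𝓝 a) := by simpa only [funext swap_eq] using ha
  have hb' : Tendsto (sliceArea D j i) (𝓝[>] 0) (𝓝 b) := by simpa only [funext swap_eq] using hb
  have := master_oriented h hij.symm hkj hki ha' hb' haw hau hGw hGu hnu hmu hc hc0 hc1 hD'
    fun z hz hu' => by
      by_contra hw'
      rw [← (topWidth_eq_rightHeight h.down hij z).1] at hu'
      rw [(topWidth_eq_rightHeight h.down hij.symm z).1] at hw'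
      have hu : Antitone fun z => rightHeight (heightExt D i j z) := fun x y hxy => by
        refine le_csInf ((nonempty_Ioo.2 zero_lt_one).image _) ?_
        rintro _ ⟨s, hs, rfl⟩
        exact ((T1.isHeight_ext h.down y).rightHeight_le hs).trans
          (antitone_heightExt_fst h.down s hxy)
      have hw : Antitone fun z => rightHeight (heightExt D j i z) := fun x y hxy => by
        refine le_csInf ((nonempty_Ioo.2 zero_lt_one).image _) ?_
        rintro _ ⟨s, hs, rfl⟩
        exact ((T1.isHeight_ext h.down y).rightHeight_le hs).trans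
          (antitone_heightExt_fst h.down s hxy)
      rw [(topWidth_eq_rightHeight h.down hij z).1] at hu'
      rw [(topWidth_eq_rightHeight h.down hij z₀).1] at hz₀w
      rcases le_total z z₀ with hle | hle
      · exact hz₀w (le_antisymm ((hw hle).trans hu'.le)
          (T1.isHeight_ext h.down z₀).slice.u_nonneg)
      · exact hw' (le_antisymm ((hu hle).trans hz₀u.le)
          (T1.isHeight_ext h.down z).slice.u_nonneg)
  linarith

/-- Concavity: a trapezoid below the curved term of the flux. -/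
theorem trapezoid_le {w X p q sw sX : ℝ} (hwX : w ≤ X)
    (hsw : sw ^ 2 + (p * w + q) ^ 2 ≤ 1) (hsX : sX ^ 2 + (p * X + q) ^ 2 ≤ 1) :
    (X - w) * ((sw + sX) / 2) ≤ ∫ x in w..X, Real.sqrt (1 - (p * x + q) ^ 2) := by
  rcases hwX.eq_or_lt with rfl | hlt
  · simp
  set line : ℝ → ℝ := fun x => sw + (x - w) / (X - w) * (sX - sw)
  have hle : ∀ x ∈ Icc w X, line x ≤ Real.sqrt (1 - (p * x + q) ^ 2) := fun x hx => by
    set θ := (x - w) / (X - w)
    have hθ0 : 0 ≤ θ := div_nonneg (by linarith [hx.1]) (by linarith)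
    have hθ1 : θ ≤ 1 := (div_le_one (by linarith)).2 (by linarith [hx.2])
    have hb : p * x + q = (1 - θ) * (p * w + q) + θ * (p * X + q) := by
      have : θ * (X - w) = x - w := div_mul_cancel₀ _ (by linarith)
      linear_combination -p * this
    refine Real.le_sqrt_of_sq_le ?_
    simp only [line]
    rw [hb]
    nlinarith [mul_nonneg (mul_nonneg hθ0 (sub_nonneg.2 hθ1)) (sq_nonneg (sX - sw)),
      mul_nonneg (mul_nonneg hθ0 (sub_nonneg.2 hθ1)) (sq_nonneg ((p * X + q) - (p * w + q)))]
  refine le_trans (le_of_eq ?_) (intervalIntegral.integral_mono_on hwX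
    (Continuous.intervalIntegrable (by fun_prop) _ _)
    (Continuous.intervalIntegrable (by fun_prop) _ _) hle)
  have hlin : ∀ x, line x = (sw - w / (X - w) * (sX - sw)) + (sX - sw) / (X - w) * x := fun x => by
    simp only [line]; ring
  simp only [hlin]
  rw [intervalIntegral.integral_add intervalIntegrable_const
    ((continuous_id'.const_mul _).intervalIntegrable _ _), intervalIntegral.integral_const,
    intervalIntegral.integral_const_mul, integral_id, smul_eq_mul]
  have : X - w ≠ 0 := (sub_pos.2 hlt).ne'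
  field_simp
  ring

/-- The curved term split at a knot. -/
theorem integral_sqrt_split (w m X p q : ℝ) :
    (∫ x in w..m, Real.sqrt (1 - (p * x + q) ^ 2)) + ∫ x in m..X, Real.sqrt (1 - (p * x + q) ^ 2) =
      ∫ x in w..X, Real.sqrt (1 - (p * x + q) ^ 2) :=
  intervalIntegral.integral_add_adjacent_intervals
    (Continuous.intervalIntegrable (by fun_prop) _ _)
    (Continuous.intervalIntegrable (by fun_prop) _ _)

end Vale.Agent.P232.Gap
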