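import Vale.Agent.P232.Gap.LemmaC

/-!
# P232 gap: the projected area lives between the end areas

`T(A) = lmin A - H A` is concave and `T(α), T(β) ≤ C < T(V)`, so `sd H C` vanishes on `(0,1)`
outside `[α, β]`, and the integral of `sd H C` over `[α, β]` is all of `phi H C`.
-/

open MeasureTheory Set intervalIntegral
open scoped Real

noncomputable section

namespace Vale.Agent.P232.Gap

theorem concaveOn_lmin : ConcaveOn ℝ (Icc (0 : ℝ) 1) lmin := by
  refine (ConcaveOn.inf (ConcaveOn.inf ?_ (concaveOn_const 1 (convex_Icc 0 1))) ?_)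
  all_goals refine ⟨convex_Icc 0 1, fun x hx y hy s t hs ht hst => ?_⟩
  · have h := Real.strictConcaveOn_sqrt.concaveOn.2 (mul_nonneg Real.pi_nonneg hx.1)
      (mul_nonneg Real.pi_nonneg hy.1) hs ht hst
    refine h.trans_eq (congrArg Real.sqrt ?_)
    simp only [smul_eq_mul]; ring
  · have h := Real.strictConcaveOn_sqrt.concaveOn.2
      (mul_nonneg Real.pi_nonneg (sub_nonneg.2 hx.2))
      (mul_nonneg Real.pi_nonneg (sub_nonneg.2 hy.2)) hs ht hst
    refine h.trans_eq (congrArg Real.sqrt ?_)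
    simp only [smul_eq_mul]
    linear_combination π * hst

theorem lmin_pos {A : ℝ} (h0 : 0 < A) (h1 : A < 1) : 0 < lmin A :=
  lt_min (lt_min (Real.sqrt_pos.2 (mul_pos Real.pi_pos h0)) one_pos)
    (Real.sqrt_pos.2 (mul_pos Real.pi_pos (sub_pos.2 h1)))

theorem sd_nonneg (H C A : ℝ) : 0 ≤ sd H C A := Real.sqrt_nonneg _

theorem sd_integrable (H C a b : ℝ) : IntervalIntegrable (sd H C) volume a b := by
  refine IntervalIntegrable.mono_fun (f := fun _ : ℝ => (1 : ℝ)) intervalIntegrable_const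
    (Measurable.aestronglyMeasurable (by unfold sd lmin; fun_prop))
    (Filter.Eventually.of_forall fun A => ?_)
  simp only [Real.norm_eq_abs, abs_of_nonneg (sd_nonneg H C A), abs_one]
  exact Real.sqrt_le_one.2 (max_le zero_le_one (sub_le_self _ (sq_nonneg _)))

theorem sd_eq_zero {H C A : ℝ} (h0 : 0 < A) (h1 : A < 1) (hT : lmin A - H * A ≤ C) :
    sd H C A = 0 := by
  have hl := lmin_pos h0 h1
  have h : 1 ≤ max 0 (H * A + C) / lmin A :=
    (one_le_div hl).2 (le_trans (by linarith) (le_max_right _ _))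
  rw [sd, max_eq_left (sub_nonpos.2 (one_le_pow₀ h)), Real.sqrt_zero]

theorem concaveOn_T (H : ℝ) : ConcaveOn ℝ (Icc (0 : ℝ) 1) fun A => lmin A - H * A :=
  concaveOn_lmin.sub ⟨convex_Icc 0 1, fun _ _ _ _ _ _ _ _ _ => by
    simp only [smul_eq_mul]; ring_nf; rfl⟩

/-- Below the maximum the concave function stays small beyond a small value. -/
theorem T_le_left {H C a V A : ℝ} (hV : V ≤ 1) (hA : 0 ≤ A) (hAa : A ≤ a) (haV : a ≤ V)
    (ha : lmin a - H * a ≤ C) (hCV : C < lmin V - H * V) : lmin A - H * A ≤ C := by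
  by_contra hc
  have hm : a ∈ segment ℝ A V := by
    rw [segment_eq_Icc (hAa.trans haV)]; exact ⟨hAa, haV⟩
  have h := (concaveOn_T H).ge_on_segment ⟨hA, (hAa.trans haV).trans hV⟩
    ⟨hA.trans (hAa.trans haV), hV⟩ hm
  exact absurd (lt_of_lt_of_le (lt_min (not_le.1 hc) hCV) (h.trans ha)) (lt_irrefl C)

theorem T_le_right {H C b V A : ℝ} (hV : 0 ≤ V) (hVb : V ≤ b) (hbA : b ≤ A) (hA : A ≤ 1)
    (hb : lmin b - H * b ≤ C) (hCV : C < lmin V - H * V) : lmin A - H * A ≤ C := by
  by_contra hc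
  have hm : b ∈ segment ℝ V A := by
    rw [segment_eq_Icc (hVb.trans hbA)]; exact ⟨hVb, hbA⟩
  have h := (concaveOn_T H).ge_on_segment ⟨hV, (hVb.trans hbA).trans hA⟩
    ⟨hV.trans (hVb.trans hbA), hA⟩ hm
  exact absurd (lt_of_lt_of_le (lt_min hCV (not_le.1 hc)) (h.trans hb)) (lt_irrefl C)

theorem integral_sd_eq_zero {H C x y : ℝ} (h0 : 0 ≤ x) (hxy : x ≤ y) (h1 : y ≤ 1)
    (h : ∀ A ∈ Ioo x y, lmin A - H * A ≤ C) : ∫ A in x..y, sd H C A = 0 := by
  refine intervalIntegral.integral_zero_ae ?_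
  filter_upwards [Measure.ae_ne volume y] with A hne hA
  rw [uIoc_of_le hxy] at hA
  have hlt : A < y := lt_of_le_of_ne hA.2 hne
  exact sd_eq_zero (h0.trans_lt hA.1) (hlt.trans_le h1) (h A ⟨hA.1, hlt⟩)

namespace GapData

variable {V H p : ℝ} (G : GapData V H p)
include G

/-- Between the end areas lies all of `phi`. -/
theorem window (hV0 : 0 ≤ V) (hV1 : V ≤ 1) {d : Fin 3} (hC : G.C d < lmin V - H * V) :
    ∫ A in G.α d..G.β d, sd H (G.C d) A = phi H (G.C d) := by
  have hI := sd_integrable H (G.C d)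
  have hl : ∫ A in (0 : ℝ)..G.α d, sd H (G.C d) A = 0 :=
    integral_sd_eq_zero le_rfl (G.α_nonneg d) ((G.α_le d).trans hV1) fun A hA =>
      T_le_left hV1 hA.1.le hA.2.le (G.α_le d) (G.end_α d) hC
  have hr : ∫ A in G.β d..1, sd H (G.C d) A = 0 :=
    integral_sd_eq_zero (hV0.trans (G.le_β d)) (G.β_le d) le_rfl fun A hA =>
      T_le_right hV0 (G.le_β d) hA.1.le hA.2.le (G.end_β d) hC
  rw [phi, ← integral_add_adjacent_intervals (hI 0 (G.α d)) (hI _ 1),
    ← integral_add_adjacent_intervals (hI (G.α d) (G.β d)) (hI _ 1), hl, hr]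
  ring

/-- A constant beyond `T(V)` already gives the bound. -/
theorem lmin_le {d : Fin 3} (hC : lmin V - H * V ≤ G.C d) : lmin V ≤ p := by
  have h := G.calib d
  have := intervalIntegral.integral_nonneg (μ := volume) ((G.α_le d).trans (G.le_β d))
    fun A _ => sd_nonneg H (G.C d) A
  linarith

end GapData

end Vale.Agent.P232.Gap
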